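import Vale.Agent.P088.H5.Spec
import Vale.Agent.P088.TM.H275BC

/-!
# P088, Theorem M: blocks M0a, M0b, M0c (scalar functions and sections for the zero connection)
-/

set_option linter.all false

open Bundle Manifold MeasureTheory Set Filter Topology
open scoped ContDiff Matrix

noncomputable section

namespace Vale.Agent.P088.EYM.O

open Vale.Agent.P088 Vale.Agent.P088.EYM

universe u

section

variable {n N : ℕ} [NeZero n] {M : Type u} [TopologicalSpace M]
  [ChartedSpace (EuclideanHalfSpace n) M] [IsManifold (𝓡∂ n) ∞ M]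
variable {F G : Type*} [NormedAddCommGroup F] [NormedSpace ℝ F] [NormedAddCommGroup G]
  [NormedSpace ℝ G]

theorem dd_eq (a : M → ℝ) (x : M) (i : Fin n) : dd a x i = dI (𝓡∂ n) a x (es n i) := by
  unfold dd
  rw [coordVec_eq, cc_self]
  rfl

theorem dI_clm (l : F →L[ℝ] G) {u : M → F} (hu : ContMDiff (𝓡∂ n) 𝓘(ℝ, F) ∞ u) (x : M) :
    dI (𝓡∂ n) (fun y => l (u y)) x = l ∘L dI (𝓡∂ n) u x := by
  have h1 := (l.hasFDerivAt (x := lu (𝓡∂ n) x u (extChartAt (𝓡∂ n) x x))).comp_hasFDerivWithinAt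
    (extChartAt (𝓡∂ n) x x) (hasD (hu.mdifferentiableAt (x := x) (by simp)))
  exact dI_eq_of (u := fun y => l (u y))
    ((l.contMDiff.comp hu).mdifferentiableAt (n := ∞) (by simp)) h1

variable (N) in
/-- `t ↦ t v`. -/
def spv (v : Fib N) : ℝ →L[ℝ] Fib N :=
  ((ContinuousLinearMap.id ℝ ℝ).smulRight v)

theorem spv_apply (v : Fib N) (t : ℝ) : spv N v t = (t : ℂ) • v := by
  simp [spv]

/-- `z ↦ Re ⟨v, z⟩`. -/
def rin (v : Fib N) : Fib N →L[ℝ] ℝ := Complex.reCLM ∘L ((innerSL ℂ v).restrictScalars ℝ)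

/-- `z ↦ Im ⟨v, z⟩`. -/
def iin (v : Fib N) : Fib N →L[ℝ] ℝ := Complex.imCLM ∘L ((innerSL ℂ v).restrictScalars ℝ)

theorem rin_apply (v z : Fib N) : rin v z = (inner ℂ v z).re := rfl
theorem iin_apply (v z : Fib N) : iin v z = (inner ℂ v z).im := rfl

theorem smR_clm (l : F →L[ℝ] G) {u : M → F} (hu : ContMDiff (𝓡∂ n) 𝓘(ℝ, F) ∞ u) :
    ContMDiff (𝓡∂ n) 𝓘(ℝ, G) ∞ (fun y => l (u y)) := l.contMDiff.comp hu

theorem smS_sp {w : M → ℝ} (hw : SmR n w) (v : Fib N) : SmS n (fun x => (w x : ℂ) • v) := by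
  have h := smR_clm (spv N v) hw
  simp only [spv_apply] at h
  exact h

theorem covI_sp (A : Connection (𝓡∂ n) N M) (hA : ∀ x X, A.form x X = 0) {w : M → ℝ}
    (hw : SmR n w) (v : Fib N) (x : M) (i : Fin n) :
    covI A (fun x => (w x : ℂ) • v) x (es n i) = ((dd w x i : ℝ) : ℂ) • v := by
  have h := dI_clm (spv N v) hw x
  simp only [spv_apply] at h
  rw [covI_eq, h, dd_eq]
  have h2 : A.form x (es n i) = 0 := hA x (es n i)
  rw [h2]
  simp [spv_apply]

theorem covI_zero (A : Connection (𝓡∂ n) N M) (hA : ∀ x X, A.form x X = 0) (u : M → Fib N)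
    (x : M) (i : Fin n) : covI A u x (es n i) = dI (𝓡∂ n) u x (es n i) := by
  rw [covI_eq]
  have h2 : A.form x (es n i) = 0 := hA x (es n i)
  rw [h2]
  simp

theorem pairing_sp (g : Metric (𝓡∂ n) M) (A : Connection (𝓡∂ n) N M)
    (hA : ∀ x X, A.form x X = 0) {w : M → ℝ} (hw : SmR n w) (v : Fib N) {u : M → Fib N}
    (hu : SmS n u) (x : M) :
    pairing g A (fun x => (w x : ℂ) • v) u x =
      ((gp g w (fun y => rin v (u y)) x : ℝ) : ℂ) +
        ((gp g w (fun y => iin v (u y)) x : ℝ) : ℂ) * Complex.I := by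
  rw [pairing_eq_rp]
  unfold rp gp
  push_cast
  rw [Finset.sum_mul, ← Finset.sum_add_distrib]
  refine Finset.sum_congr rfl fun i _ => ?_
  rw [Finset.sum_mul, ← Finset.sum_add_distrib]
  refine Finset.sum_congr rfl fun j _ => ?_
  rw [covI_sp A hA hw, covI_zero A hA, inner_smul_left, Complex.conj_ofReal, dd_eq, dd_eq, dd_eq,
    dI_clm (rin v) hu, dI_clm (iin v) hu, Complex.real_smul]
  have h := Complex.re_add_im (inner ℂ v (dI (𝓡∂ n) u x (es n j)))
  have h1 : (rin v ∘L dI (𝓡∂ n) u x) (es n j) = (inner ℂ v (dI (𝓡∂ n) u x (es n j))).re := rfl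
  have h2 : (iin v ∘L dI (𝓡∂ n) u x) (es n j) = (inner ℂ v (dI (𝓡∂ n) u x (es n j))).im := rfl
  rw [h1, h2]
  linear_combination (-(((gram g x x)⁻¹ i j : ℝ) : ℂ) * ((dI (𝓡∂ n) w x (es n i) : ℝ) : ℂ)) * h

theorem pairing_sp_sp (g : Metric (𝓡∂ n) M) (A : Connection (𝓡∂ n) N M)
    (hA : ∀ x X, A.form x X = 0) {a b : M → ℝ} (ha : SmR n a) (hb : SmR n b) {v : Fib N}
    (hv : ‖v‖ = 1) (x : M) :
    pairing g A (fun x => (a x : ℂ) • v) (fun x => (b x : ℂ) • v) x = ((gp g a b x : ℝ) : ℂ) := by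
  rw [pairing_eq_rp]
  unfold rp gp
  push_cast
  refine Finset.sum_congr rfl fun i _ => Finset.sum_congr rfl fun j _ => ?_
  rw [covI_sp A hA ha, covI_sp A hA hb, inner_smul_left, inner_smul_right, Complex.conj_ofReal,
    inner_self_eq_norm_sq_to_K, hv, Complex.real_smul]
  simp

theorem es_norm (N : ℕ) (j : Fin N) : ‖(EuclideanSpace.single j (1 : ℂ) : Fib N)‖ = 1 := by simp

theorem gp_cont (g : Metric (𝓡∂ n) M) {a b : M → ℝ} (ha : SmR n a) (hb : SmR n b) :
    Continuous (gp g a b) := by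
  have h0 : ∀ (x : M) X, (zeroConn (𝓡∂ n) 1 M).form x X = 0 := fun _ _ => rfl
  have h := continuous_pairing g (zeroConn (𝓡∂ n) 1 M) (smS_sp (N := 1) ha (EuclideanSpace.single 0 1))
    (smS_sp hb (EuclideanSpace.single 0 1))
  have h2 := Complex.continuous_re.comp h
  refine h2.congr fun x => ?_
  rw [Function.comp_apply, pairing_sp_sp g _ h0 ha hb (es_norm 1 0), Complex.ofReal_re]

theorem gp_nonneg (g : Metric (𝓡∂ n) M) {a : M → ℝ} (ha : SmR n a) (x : M) :
    0 ≤ gp g a a x := by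
  have h0 : ∀ (x : M) X, (zeroConn (𝓡∂ n) 1 M).form x X = 0 := fun _ _ => rfl
  have h := cForm_pairing_nonneg g (zeroConn (𝓡∂ n) 1 M)
    (fun x => (a x : ℂ) • (EuclideanSpace.single 0 1 : Fib 1)) x
  rwa [pairing_sp_sp g _ h0 ha ha (es_norm 1 0), Complex.ofReal_re] at h

variable [T2Space M] [CompactSpace M] [MeasurableSpace M] [BorelSpace M]

theorem gp_int (P : One n N M) {a b : M → ℝ} (ha : SmR n a) (hb : SmR n b) :
    Integrable (gp P.g a b) P.μ := by
  have := (TM.fInt n N M P).1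
  exact integrable_of_continuous (gp_cont P.g ha hb)

end

theorem m0a : M0a_statement.{u} := by
  intro n N _ M _ _ _ _ _ _ _ _ P w v hA hw
  refine ⟨smS_sp hw.sm v, fun _ _ => rfl, fun φ hφ h0 => ?_⟩
  unfold energy
  have hr : SmR n (fun y => rin v (φ y)) := smR_clm (rin v) hφ
  have hi : SmR n (fun y => iin v (φ y)) := smR_clm (iin v) hφ
  have e1 := hw.weak _ hr (fun x hx => by rw [h0 x hx, map_zero])
  have e2 := hw.weak _ hi (fun x hx => by rw [h0 x hx, map_zero])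
  simp only [pairing_sp P.g P.A hA hw.sm v hφ]
  rw [integral_add (gp_int P hw.sm hr).ofReal ((gp_int P hw.sm hi).ofReal.mul_const _),
    integral_mul_const, integral_complex_ofReal, integral_complex_ofReal, e1, e2]
  simp

theorem m0c : M0c_statement.{u} := by
  intro n N _ M _ _ _ _ _ _ _ _ P w v hA hw hv
  unfold One.E energy
  simp only [pairing_sp_sp P.g P.A hA hw hw hv]
  exact integral_ofReal

theorem m0b : M0b_statement.{u} := by
  intro n N _ M _ _ _ _ _ _ _ _ P Γ φ hN hA hΓ hφ hs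
  set e : Fib N := EuclideanSpace.single ⟨0, hN⟩ 1 with he
  have hv : ‖e‖ = 1 := es_norm N _
  have hf : IsBdryData (𝓡∂ n) Γ (fun x => (φ x : ℂ) • e) := by
    refine ⟨smS_sp hφ e, ?_⟩
    refine (closure_mono ?_).trans hs
    rintro x ⟨hx, hx'⟩
    refine ⟨hx, fun h => hx' ?_⟩
    simp only [h, Complex.ofReal_zero, zero_smul]
  obtain ⟨u, hu⟩ := hΓ _ hf
  refine ⟨fun x => rin e (u x), ⟨smR_clm (rin e) hu.smooth, fun ψ hψ h0 => ?_⟩, fun x hx => ?_⟩
  · have h1 := hu.weak (fun x => (ψ x : ℂ) • e) (smS_sp hψ e) (fun x hx => by simp [h0 x hx])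
    have h2 := congrArg Complex.re h1
    unfold energy at h2
    rw [Complex.zero_re] at h2
    have hsw : ∀ x, pairing P.g P.A u (fun x => (ψ x : ℂ) • e) x =
        (starRingEnd ℂ) (pairing P.g P.A (fun x => (ψ x : ℂ) • e) u x) := fun x =>
      cForm_pairing_conj P.g P.A _ _ x
    have hint : Integrable (pairing P.g P.A u (fun x => (ψ x : ℂ) • e)) P.μ := by
      have := (TM.fInt n N M P).1
      exact integrable_of_continuous (continuous_pairing P.g P.A hu.smooth (smS_sp hψ e))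
    have h3 : (∫ x, pairing P.g P.A u (fun x => (ψ x : ℂ) • e) x ∂P.μ).re =
        ∫ x, (pairing P.g P.A u (fun x => (ψ x : ℂ) • e) x).re ∂P.μ :=
      (integral_re (𝕜 := ℂ) hint).symm
    rw [h3] at h2
    rw [← h2]
    refine integral_congr_ae (Eventually.of_forall fun x => ?_)
    simp only
    rw [hsw, Complex.conj_re, pairing_sp P.g P.A hA hψ e hu.smooth]
    have h4 : gp P.g (fun x => rin e (u x)) ψ x = gp P.g ψ (fun x => rin e (u x)) x := by
      unfold gp
      rw [Finset.sum_comm]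
      refine Finset.sum_congr rfl fun i _ => Finset.sum_congr rfl fun j _ => ?_
      rw [gram_inv_symm P.g x j i]
      ring
    rw [h4]
    simp
  · simp only
    rw [hu.boundary x hx, rin_apply, inner_smul_right, inner_self_eq_norm_sq_to_K, hv]
    simp

end Vale.Agent.P088.EYM.O

end
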