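import Vale.Agent.P088.H5.M0849

/-!
# P088, Theorem M: block M1 (the weak maximum principle)
-/

set_option linter.all false

open Bundle Manifold MeasureTheory Set Filter Topology
open scoped ContDiff Matrix

noncomputable section

namespace Vale.Agent.P088.EYM.O

open Vale.Agent.P088 Vale.Agent.P088.EYM

universe u

section

variable {n N : ℕ} [NeZero n] {M : Type u} [TopologicalSpace M]
  [ChartedSpace (EuclideanHalfSpace n) M] [IsManifold (𝓡∂ n) ∞ M]

theorem smR_comp {F : ℝ → ℝ} (hF : ContDiff ℝ ∞ F) {w : M → ℝ} (hw : SmR n w) :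
    SmR n (fun y => F (w y)) := hF.contMDiff.comp hw

theorem dd_comp {F : ℝ → ℝ} (hF : ContDiff ℝ ∞ F) {w : M → ℝ} (hw : SmR n w) (x : M) (i : Fin n) :
    dd (fun y => F (w y)) x i = deriv F (w x) * dd w x i := by
  have h0 := hasD (hw.mdifferentiableAt (x := x) (by simp))
  have h1 : HasDerivAt F (deriv F (w x)) (lu (𝓡∂ n) x w (extChartAt (𝓡∂ n) x x)) := by
    rw [lu_self]
    exact (hF.differentiable (by simp) (w x)).hasDerivAt
  have h2 := h1.comp_hasFDerivWithinAt (extChartAt (𝓡∂ n) x x) h0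
  have h3 := dI_eq_of (u := fun y => F (w y))
    ((smR_comp hF hw).mdifferentiableAt (by simp)) h2
  rw [dd_eq, dd_eq, h3]
  rfl

theorem gp_comp_right (g : Metric (𝓡∂ n) M) {F : ℝ → ℝ} (hF : ContDiff ℝ ∞ F) {w : M → ℝ}
    (hw : SmR n w) (a : M → ℝ) (x : M) :
    gp g a (fun y => F (w y)) x = deriv F (w x) * gp g a w x := by
  unfold gp
  rw [Finset.mul_sum]
  refine Finset.sum_congr rfl fun i _ => ?_
  rw [Finset.mul_sum]
  refine Finset.sum_congr rfl fun j _ => ?_
  rw [dd_comp hF hw]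
  ring

theorem gp_comp_both (g : Metric (𝓡∂ n) M) {F : ℝ → ℝ} (hF : ContDiff ℝ ∞ F) {w : M → ℝ}
    (hw : SmR n w) (x : M) :
    gp g (fun y => F (w y)) (fun y => F (w y)) x = deriv F (w x) ^ 2 * gp g w w x := by
  unfold gp
  rw [Finset.mul_sum]
  refine Finset.sum_congr rfl fun i _ => ?_
  rw [Finset.mul_sum]
  refine Finset.sum_congr rfl fun j _ => ?_
  rw [dd_comp hF hw, dd_comp hF hw]
  ring

end

theorem m1 : M1_statement.{u} := by
  intro n N _ M _ _ _ _ _ _ _ _ P w hb hw hpos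
  set F : ℝ → ℝ := fun t => expNegInvGlue (-t) with hFdef
  have hF : ContDiff ℝ ∞ F := expNegInvGlue.contDiff.comp contDiff_neg
  have hFd : ∀ t, deriv F t ≤ 0 := by
    intro t
    have h1 : deriv F t = -deriv expNegInvGlue (-t) := deriv_comp_neg expNegInvGlue t
    have h2 : 0 ≤ deriv expNegInvGlue (-t) := expNegInvGlue.monotone.deriv_nonneg
    linarith
  obtain ⟨hfin, hopen, -⟩ := TM.fInt n N M P
  have hop : P.μ.IsOpenPosMeasure := ⟨fun U hU hne => (hopen U hU hne).ne'⟩
  have hψ : SmR n (fun y => F (w y)) := smR_comp hF hw.sm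
  have hψ0 : ∀ x ∈ (𝓡∂ n).boundary M, F (w x) = 0 := fun x hx => by
    rw [hFdef]
    exact expNegInvGlue.zero_of_nonpos (by linarith [hpos x hx])
  have e1 := hw.weak _ hψ hψ0
  simp only [gp_comp_right P.g hF hw.sm] at e1
  -- `F'(w) |dw|² = 0` everywhere
  have hc : Continuous fun x => -(deriv F (w x) * gp P.g w w x) := by
    have h1 : Continuous (deriv F) := hF.continuous_deriv (by simp)
    exact ((h1.comp hw.sm.continuous).mul (gp_cont P.g hw.sm hw.sm)).neg
  have hn : ∀ x, 0 ≤ -(deriv F (w x) * gp P.g w w x) := fun x =>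
    neg_nonneg.2 (mul_nonpos_of_nonpos_of_nonneg (hFd _) (gp_nonneg P.g hw.sm x))
  have hz : ∀ x, deriv F (w x) * gp P.g w w x = 0 := by
    have h2 : ∫ x, -(deriv F (w x) * gp P.g w w x) ∂P.μ = 0 := by
      rw [integral_neg, e1, neg_zero]
    rw [integral_eq_zero_iff_of_nonneg hn (integrable_of_continuous hc)] at h2
    have h3 := hc.ae_eq_iff_eq P.μ continuous_const |>.1 h2
    intro x
    have h4 : -(deriv F (w x) * gp P.g w w x) = 0 := congrFun h3 x
    linarith
  -- the energy of `F(w)` vanishes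
  set P0 : One n 1 M := ⟨P.g, P.μ, zeroConn (𝓡∂ n) 1 M, P.hμ⟩ with hP0
  have hA0 : ∀ (x : M) X, P0.A.form x X = 0 := fun _ _ => rfl
  obtain ⟨C, hC, hPo⟩ := TM.fPoinc n 1 M P0 hb
  set e : Fib 1 := EuclideanSpace.single 0 1 with he
  have h5 := hPo (fun x => (F (w x) : ℂ) • e) (smS_sp hψ e) (fun x hx => by
    rw [hψ0 x hx, Complex.ofReal_zero, zero_smul])
  have h6 : P0.E (fun x => (F (w x) : ℂ) • e) (fun x => (F (w x) : ℂ) • e) = 0 := by
    rw [m0c n 1 M P0 (fun x => F (w x)) e hA0 hψ (es_norm 1 0)]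
    have : ∀ x, gp P0.g (fun y => F (w y)) (fun y => F (w y)) x = 0 := by
      intro x
      have h7 := gp_comp_both P.g hF hw.sm x
      have h8 := hz x
      show gp P.g (fun y => F (w y)) (fun y => F (w y)) x = 0
      rw [h7, pow_two, mul_assoc, h8, mul_zero]
    simp [this]
  rw [h6, Complex.zero_re, mul_zero] at h5
  have hc2 : Continuous fun x => ‖(F (w x) : ℂ) • e‖ ^ 2 :=
    ((smS_sp hψ e).continuous.norm).pow 2
  have h9 : ∫ x, ‖(F (w x) : ℂ) • e‖ ^ 2 ∂P.μ = 0 :=
    le_antisymm h5 (integral_nonneg fun x => by positivity)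
  rw [integral_eq_zero_iff_of_nonneg (fun x => by positivity) (integrable_of_continuous hc2)] at h9
  have h10 := hc2.ae_eq_iff_eq P.μ continuous_const |>.1 h9
  intro x
  have h11 : ‖(F (w x) : ℂ) • e‖ ^ 2 = 0 := congrFun h10 x
  rw [norm_smul, he, es_norm, mul_one, Complex.norm_real, Real.norm_eq_abs, sq_abs] at h11
  have h12 : F (w x) = 0 := by
    have := pow_eq_zero_iff (two_ne_zero) |>.1 h11
    exact this
  have h13 : -w x ≤ 0 := expNegInvGlue.zero_iff_nonpos.1 h12
  linarith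

end Vale.Agent.P088.EYM.O

end
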