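import Vale.Agent.P088.H5.Spec
import Vale.Agent.P088.TM.H275BC

/-!
# P088, Theorem M, block M2: the ground state identity and the limit
-/

open Bundle Manifold MeasureTheory Set Filter Topology
open scoped ContDiff Matrix

noncomputable section

set_option linter.unusedSectionVars false

namespace Vale.Agent.P088.EYM.O

open Vale.Agent.P088 Vale.Agent.P088.EYM

universe u

namespace B779

section Alg

variable {n : ℕ} {V : Type*} [NormedAddCommGroup V] [InnerProductSpace ℂ V]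

/-- A positive definite matrix detects zero. -/
theorem pd_zero {P : Matrix (Fin n) (Fin n) ℝ} (hP : P.PosDef) (Z : Fin n → V)
    (h : ∑ i, ∑ j, P i j • (inner ℂ (Z i) (Z j) : ℂ).re = 0) : ∀ i, Z i = 0 := by
  obtain ⟨B, hB⟩ := exists_conj hP.posSemidef
  have h0 := h
  rw [hB, psd_formula] at h0
  have h1 : ∀ k, ∑ i, B k i • Z i = 0 := by
    intro k
    have h2 := (Finset.sum_eq_zero_iff_of_nonneg (fun k _ => _root_.sq_nonneg _)).1 h0 k (Finset.mem_univ k)
    rwa [sq_eq_zero_iff, norm_eq_zero] at h2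
  have hdet : IsUnit P.det := (Matrix.PosDef.det_pos hP).ne'.isUnit
  intro j
  have h3 : (P⁻¹ * B.conjTranspose) * B = 1 := by
    rw [Matrix.mul_assoc, ← hB, Matrix.nonsing_inv_mul P hdet]
  have h4 : Z j = ∑ i, ((P⁻¹ * B.conjTranspose) * B) j i • Z i := by
    rw [h3]
    simp [Matrix.one_apply]
  rw [h4]
  simp only [Matrix.mul_apply, Finset.sum_smul]
  rw [Finset.sum_comm]
  refine Finset.sum_eq_zero fun k _ => ?_
  have h5 : ∑ i, ((∑ l, P⁻¹ j l * B.conjTranspose l k) * B k i) • Z i =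
      (∑ l, P⁻¹ j l * B.conjTranspose l k) • ∑ i, B k i • Z i := by
    rw [Finset.smul_sum]
    exact Finset.sum_congr rfl fun i _ => by rw [smul_smul]
  rw [h5, h1 k, smul_zero]

end Alg

section Man

variable {n N : ℕ} [NeZero n] {M : Type u} [TopologicalSpace M]
  [ChartedSpace (EuclideanHalfSpace n) M] [IsManifold (𝓡∂ n) ∞ M]

theorem dd_eq (a : M → ℝ) (x : M) (i : Fin n) : dd a x i = dI (𝓡∂ n) a x (es n i) := by
  unfold dd
  rw [coordVec_eq, cc_self]
  rfl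

theorem gp_eq (g : Metric (𝓡∂ n) M) (a b : M → ℝ) (x : M) :
    gp g a b x = rp g x (fun v w => dI (𝓡∂ n) a x v * dI (𝓡∂ n) b x w) := by
  unfold gp rp
  simp only [dd_eq, smul_eq_mul]

theorem gp_chart (g : Metric (𝓡∂ n) M) (a b : M → ℝ) {p x : M}
    (hx : x ∈ (extChartAt (𝓡∂ n) p).source) :
    gp g a b x = ∑ i, ∑ j, ((gram g p x)⁻¹ i j) •
      (dmap (𝓡∂ n) a x (coordVec (𝓡∂ n) p x i) * dmap (𝓡∂ n) b x (coordVec (𝓡∂ n) p x j)) := by
  have hB : BilF (fun v w => dI (𝓡∂ n) a x v * dI (𝓡∂ n) b x w) := by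
    intro c d
    simp only [map_sum, map_smul, smul_eq_mul, Finset.sum_mul, Finset.mul_sum]
    rw [Finset.sum_comm]
    refine Finset.sum_congr rfl fun k _ => Finset.sum_congr rfl fun l _ => ?_
    ring
  rw [gp_eq, rp_eq g hx hB]
  rfl

theorem cont_gp (g : Metric (𝓡∂ n) M) {a b : M → ℝ} (ha : SmR n a) (hb : SmR n b) :
    Continuous (gp g a b) := by
  rw [continuous_iff_continuousAt]
  intro p
  have h : ContinuousOn (gp g a b) (extChartAt (𝓡∂ n) p).source := by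
    have h2 : ContinuousOn (fun x => ∑ i, ∑ j, ((gram g p x)⁻¹ i j) •
      (dmap (𝓡∂ n) a x (coordVec (𝓡∂ n) p x i) * dmap (𝓡∂ n) b x (coordVec (𝓡∂ n) p x j)))
        (extChartAt (𝓡∂ n) p).source := by
      refine continuousOn_finsetSum _ fun i _ => continuousOn_finsetSum _ fun j _ => ?_
      exact (contMDiffOn_gram_inv g p i j).continuousOn.smul
        ((contMDiffOn_dmap_coordVec ha p i).continuousOn.mul
          (contMDiffOn_dmap_coordVec hb p j).continuousOn)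
    exact h2.congr fun x hx => gp_chart g a b hx
  exact h.continuousAt (extChartAt_source_mem_nhds p)

theorem md {a : M → ℝ} (ha : SmR n a) (x : M) : MDifferentiableAt (𝓡∂ n) 𝓘(ℝ, ℝ) a x :=
  ha.mdifferentiableAt (by simp)

/-- product rule -/
theorem dI_mul {a b : M → ℝ} (ha : SmR n a) (hb : SmR n b) (x : M) :
    dI (𝓡∂ n) (fun y => a y * b y) x = a x • dI (𝓡∂ n) b x + b x • dI (𝓡∂ n) a x := by
  have hab : SmR n (fun y => a y * b y) := ha.mul hb
  refine dI_eq_of (md hab x) ?_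
  have h := (hasD (md ha x)).mul (hasD (md hb x))
  rw [lu_self, lu_self] at h
  exact h

theorem dI_sub {a b : M → ℝ} (ha : SmR n a) (hb : SmR n b) (x : M) :
    dI (𝓡∂ n) (fun y => a y - b y) x = dI (𝓡∂ n) a x - dI (𝓡∂ n) b x := by
  have hab : SmR n (fun y => a y - b y) := ha.sub hb
  refine dI_eq_of (md hab x) ?_
  exact (hasD (md ha x)).sub (hasD (md hb x))

/-- inverse of a shifted function -/
theorem sm_inv {a : M → ℝ} (ha : SmR n a) {c : ℝ} (h : ∀ x, a x + c ≠ 0) :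
    SmR n (fun y => (a y + c)⁻¹) := by
  have h1 : SmR n (fun y => a y + c) := ha.add contMDiff_const
  intro x
  exact (h1 x).inv₀ (h x)

theorem dI_inv {a : M → ℝ} (ha : SmR n a) {c : ℝ} (h : ∀ x, a x + c ≠ 0) (x : M) :
    dI (𝓡∂ n) (fun y => (a y + c)⁻¹) x = (-((a x + c) ^ 2)⁻¹) • dI (𝓡∂ n) a x := by
  refine dI_eq_of (md (sm_inv ha h) x) ?_
  have h1 : HasDerivAt (fun t : ℝ => (t + c)⁻¹) (-((a x + c) ^ 2)⁻¹) (a x) := by
    have h2 := ((hasDerivAt_id (a x)).add_const c).inv (h x)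
    have h4 : -(1 : ℝ) / (id (a x) + c) ^ 2 = -((a x + c) ^ 2)⁻¹ := by
      rw [neg_div, one_div]
      rfl
    rw [h4] at h2
    exact h2
  have h3 : HasDerivAt (fun t : ℝ => (t + c)⁻¹) (-((a x + c) ^ 2)⁻¹)
      (lu (𝓡∂ n) x a (extChartAt (𝓡∂ n) x x)) := by rwa [lu_self]
  exact h3.comp_hasFDerivWithinAt _ (hasD (md ha x))

/-- `‖u‖²` -/
def nsq (u : M → Fib N) (x : M) : ℝ := (inner ℂ (u x) (u x) : ℂ).re

theorem nsq_nonneg (u : M → Fib N) (x : M) : 0 ≤ nsq u x := by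
  have h := inner_self_nonneg (𝕜 := ℂ) (x := u x)
  exact h

theorem sm_nsq {u : M → Fib N} (hu : SmS n u) : SmR n (nsq u) := by
  have h1 : ContDiff ℝ ∞ (fun v : Fib N => (inner ℂ v v : ℂ).re) :=
    Complex.reCLM.contDiff.comp (contDiff_id.inner ℂ contDiff_id)
  exact h1.contMDiff.comp hu

theorem dI_nsq (A : Connection (𝓡∂ n) N M) {u : M → Fib N} (hu : SmS n u) (x : M)
    (a : EuclideanSpace ℝ (Fin n)) :
    dI (𝓡∂ n) (nsq u) x a = 2 * (inner ℂ (u x) (covI A u x a) : ℂ).re := by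
  have h0 := hasD (hu.mdifferentiableAt (x := x) (by simp))
  have h1 := Complex.reCLM.hasFDerivAt.comp_hasFDerivWithinAt
    (extChartAt (𝓡∂ n) x x) (h0.inner ℂ h0)
  have h2 := dI_eq_of (u := nsq u) (md (sm_nsq hu) x) h1
  rw [h2]
  have h3 : (inner ℂ (u x) (A.form x a (u x)) : ℂ).re = 0 := by
    have h4 : (inner ℂ (u x) (A.form x a (u x)) : ℂ) =
        -(starRingEnd ℂ) (inner ℂ (u x) (A.form x a (u x)) : ℂ) := by
      rw [inner_conj_symm, ← inner_neg_left]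
      have h5 := A.skew x a
      have h6 : -(A.form x a (u x)) = ContinuousLinearMap.adjoint (A.form x a) (u x) := by
        rw [h5]
        rfl
      rw [h6, ContinuousLinearMap.adjoint_inner_left]
    have h7 := congrArg Complex.re h4
    rw [Complex.neg_re, Complex.conj_re] at h7
    linarith
  rw [covI_eq, inner_add_right, Complex.add_re, h3, add_zero]
  show (inner ℂ (lu (𝓡∂ n) x u (extChartAt (𝓡∂ n) x x)) (dI (𝓡∂ n) u x a) +
    inner ℂ (dI (𝓡∂ n) u x a) (lu (𝓡∂ n) x u (extChartAt (𝓡∂ n) x x)) : ℂ).re = _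
  rw [lu_self, Complex.add_re, ← inner_conj_symm (dI (𝓡∂ n) u x a) (u x), Complex.conj_re]
  ring

/-- The square of `α d_A u - β u ⊗ dw`. -/
theorem quad (g : Metric (𝓡∂ n) M) (A : Connection (𝓡∂ n) N M) {u : M → Fib N} (hu : SmS n u)
    (w : M → ℝ) (x : M) (α β : ℝ) :
    rp g x (fun a b => (inner ℂ (α • covI A u x a - (β * dI (𝓡∂ n) w x a) • u x)
      (α • covI A u x b - (β * dI (𝓡∂ n) w x b) • u x) : ℂ).re) =
      α ^ 2 * (pairing g A u u x).re - α * β * gp g w (nsq u) x +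
        β ^ 2 * (nsq u x * gp g w w x) := by
  have h1 : gp g w (nsq u) x = rp g x (fun a b => dI (𝓡∂ n) w x a * (inner ℂ (u x) (covI A u x b) : ℂ).re) +
      rp g x (fun a b => dI (𝓡∂ n) w x b * (inner ℂ (covI A u x a) (u x) : ℂ).re) := by
    rw [rp_symm g x (fun a b => dI (𝓡∂ n) w x b * (inner ℂ (covI A u x a) (u x) : ℂ).re)]
    rw [gp_eq]
    unfold rp
    rw [← Finset.sum_add_distrib]
    refine Finset.sum_congr rfl fun i _ => ?_
    rw [← Finset.sum_add_distrib]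
    refine Finset.sum_congr rfl fun j _ => ?_
    beta_reduce
    rw [dI_nsq A hu, ← inner_conj_symm (covI A u x (es n j)) (u x), Complex.conj_re]
    simp only [smul_eq_mul]
    ring
  rw [h1, pairing_eq_rp, rp_re, gp_eq]
  unfold rp
  simp only [Finset.mul_sum, mul_add, ← Finset.sum_add_distrib, ← Finset.sum_sub_distrib]
  refine Finset.sum_congr rfl fun i _ => Finset.sum_congr rfl fun j _ => ?_
  simp only [inner_sub_left, inner_sub_right, Complex.sub_re, smul_eq_mul, nsq]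
  rw [inner_smul_left_eq_smul, inner_smul_left_eq_smul, inner_smul_left_eq_smul,
    inner_smul_left_eq_smul]
  simp only [inner_smul_right_eq_smul, Complex.real_smul, Complex.re_ofReal_mul]
  ring

/-- `⟨da, L⟩` -/
def gq (g : Metric (𝓡∂ n) M) (a : M → ℝ) (x : M) (L : EuclideanSpace ℝ (Fin n) →L[ℝ] ℝ) : ℝ :=
  rp g x (fun v w => dI (𝓡∂ n) a x v * L w)

theorem gp_gq (g : Metric (𝓡∂ n) M) (a b : M → ℝ) (x : M) :
    gp g a b x = gq g a x (dI (𝓡∂ n) b x) := gp_eq g a b x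

theorem gq_add (g : Metric (𝓡∂ n) M) (a : M → ℝ) (x : M)
    (L L' : EuclideanSpace ℝ (Fin n) →L[ℝ] ℝ) : gq g a x (L + L') = gq g a x L + gq g a x L' := by
  unfold gq rp
  simp only [_root_.add_apply, mul_add, smul_add, Finset.sum_add_distrib]

theorem gq_smul (g : Metric (𝓡∂ n) M) (a : M → ℝ) (x : M) (c : ℝ)
    (L : EuclideanSpace ℝ (Fin n) →L[ℝ] ℝ) : gq g a x (c • L) = c * gq g a x L := by
  unfold gq rp
  simp only [_root_.smul_apply, smul_eq_mul, Finset.mul_sum]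
  refine Finset.sum_congr rfl fun i _ => Finset.sum_congr rfl fun j _ => ?_
  ring

theorem gq_sub (g : Metric (𝓡∂ n) M) (a : M → ℝ) (x : M)
    (L L' : EuclideanSpace ℝ (Fin n) →L[ℝ] ℝ) : gq g a x (L - L') = gq g a x L - gq g a x L' := by
  unfold gq rp
  simp only [_root_.sub_apply, mul_sub, smul_sub, Finset.sum_sub_distrib]

/-- the first test function -/
theorem test1 (g : Metric (𝓡∂ n) M) {w s : M → ℝ} (hw : SmR n w) (hs : SmR n s) {c : ℝ}
    (h : ∀ x, w x + c ≠ 0) :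
    SmR n (fun y => (s y - w y * w y) * (w y + c)⁻¹) ∧
    ∀ x, gp g w (fun y => (s y - w y * w y) * (w y + c)⁻¹) x =
      (w x + c)⁻¹ * gp g w s x - 2 * (w x + c)⁻¹ * w x * gp g w w x -
        (w x + c)⁻¹ ^ 2 * (s x - w x * w x) * gp g w w x := by
  have h1 : SmR n (fun y => w y * w y) := hw.mul hw
  have h2 : SmR n (fun y => s y - w y * w y) := hs.sub h1
  have h3 : SmR n (fun y => (w y + c)⁻¹) := sm_inv hw h
  refine ⟨h2.mul h3, fun x => ?_⟩
  rw [gp_gq, dI_mul h2 h3, gq_add, gq_smul, gq_smul, dI_inv hw h, gq_smul, dI_sub hs h1, gq_sub,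
    dI_mul hw hw, gq_add, gq_smul, ← gp_gq, ← gp_gq, inv_pow]
  ring

/-- the second test function -/
theorem test2 (g : Metric (𝓡∂ n) M) {w φ : M → ℝ} (hw : SmR n w) (hφ : SmR n φ) {c : ℝ}
    (h : ∀ x, w x + c ≠ 0) (h' : ∀ x, φ x * φ x + c ≠ 0) :
    SmR n (fun y => (w y + c)⁻¹ - (φ y * φ y + c)⁻¹) ∧
    ∀ x, gp g w (fun y => (w y + c)⁻¹ - (φ y * φ y + c)⁻¹) x =
      -((w x + c)⁻¹ ^ 2 * gp g w w x) + 2 * (φ x * φ x + c)⁻¹ ^ 2 * φ x * gp g w φ x := by
  have h1 : SmR n (fun y => φ y * φ y) := hφ.mul hφ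
  have h3 : SmR n (fun y => (w y + c)⁻¹) := sm_inv hw h
  have h4 : SmR n (fun y => (φ y * φ y + c)⁻¹) := sm_inv h1 h'
  refine ⟨h3.sub h4, fun x => ?_⟩
  rw [gp_gq, dI_sub h3 h4, gq_sub, dI_inv hw h, gq_smul, dI_inv h1 h', gq_smul,
    dI_mul hφ hφ, gq_add, gq_smul, ← gp_gq, ← gp_gq, inv_pow, inv_pow]
  ring

end Man

/-- a bound for the right hand side -/
theorem bd1 (t c δ : ℝ) (hδ : 0 < δ) :
    2 * δ ^ 4 * (t * t + δ ^ 2)⁻¹ ^ 2 * t * c ≤ δ * |c| := by
  have h0 : 0 < t * t + δ ^ 2 := by nlinarith [mul_self_nonneg t, pow_pos hδ 2]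
  have h1 : 2 * δ ^ 4 * |t| ≤ δ * (t * t + δ ^ 2) ^ 2 := by
    have h2 : 2 * |t| * δ ≤ t * t + δ ^ 2 := by
      nlinarith [_root_.sq_nonneg (|t| - δ), abs_mul_abs_self t]
    have h3 : δ ^ 2 ≤ t * t + δ ^ 2 := by nlinarith [mul_self_nonneg t]
    have h4 : 2 * |t| * δ * δ ^ 2 ≤ (t * t + δ ^ 2) * (t * t + δ ^ 2) :=
      mul_le_mul h2 h3 (by positivity) h0.le
    nlinarith
  have h5 : 2 * δ ^ 4 * (t * t + δ ^ 2)⁻¹ ^ 2 * |t| ≤ δ := by
    rw [inv_pow, mul_assoc, mul_comm _ |t|, ← mul_assoc, ← div_eq_mul_inv,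
      div_le_iff₀ (by positivity)]
    exact h1
  calc 2 * δ ^ 4 * (t * t + δ ^ 2)⁻¹ ^ 2 * t * c ≤
        |2 * δ ^ 4 * (t * t + δ ^ 2)⁻¹ ^ 2 * t * c| := le_abs_self _
    _ = 2 * δ ^ 4 * (t * t + δ ^ 2)⁻¹ ^ 2 * |t| * |c| := by
        rw [abs_mul, abs_mul, abs_of_pos (by positivity : 0 < 2 * δ ^ 4 * (t * t + δ ^ 2)⁻¹ ^ 2)]
    _ ≤ δ * |c| := mul_le_mul_of_nonneg_right h5 (abs_nonneg c)

theorem int3 {X : Type*} [MeasurableSpace X] {μ : Measure X} {f g h : X → ℝ} {c : ℝ}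
    (hf : Integrable f μ) (hg : Integrable g μ) (hh : Integrable h μ) (h1 : ∫ x, g x ∂μ = 0)
    (h2 : ∫ x, h x ∂μ = 0) : ∫ x, (f x + g x + c * h x) ∂μ = ∫ x, f x ∂μ := by
  have h3 : ∫ x, (f x + g x + c * h x) ∂μ = ∫ x, (f x + g x) ∂μ + ∫ x, c * h x ∂μ :=
    integral_add (hf.add hg) (hh.const_mul c)
  rw [h3, integral_const_mul, h2, mul_zero, add_zero, integral_add hf hg, h1, add_zero]

theorem int3' {X : Type*} [MeasurableSpace X] {μ : Measure X} {f g h : X → ℝ} {c : ℝ}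
    (hf : Integrable f μ) (hg : Integrable g μ) (hh : Integrable h μ) :
    ∫ x, (f x - g x + c * h x) ∂μ = ∫ x, f x ∂μ - ∫ x, g x ∂μ + c * ∫ x, h x ∂μ := by
  have h3 : ∫ x, (f x - g x + c * h x) ∂μ = ∫ x, (f x - g x) ∂μ + ∫ x, c * h x ∂μ :=
    integral_add (hf.sub hg) (hh.const_mul c)
  rw [h3, integral_const_mul, integral_sub hf hg]

theorem int2 {X : Type*} [MeasurableSpace X] {μ : Measure X} {f g : X → ℝ} {c d : ℝ}
    (hf : Integrable f μ) (hg : Integrable g μ) :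
    ∫ x, (c * f x + d * g x) ∂μ = c * ∫ x, f x ∂μ + d * ∫ x, g x ∂μ := by
  rw [integral_add (hf.const_mul c) (hg.const_mul d), integral_const_mul, integral_const_mul]

theorem small {R K : ℝ} (hK : 0 ≤ K) (h : ∀ δ : ℝ, 0 < δ → δ ≤ 1 → R ≤ K * δ) : R ≤ 0 := by
  by_contra hR
  push Not at hR
  have h1 : 0 < R / (2 * (K + 1)) := by positivity
  have h2 := h (min 1 (R / (2 * (K + 1)))) (lt_min one_pos h1) (min_le_left _ _)
  have h3 : K * min 1 (R / (2 * (K + 1))) ≤ K * (R / (2 * (K + 1))) :=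
    mul_le_mul_of_nonneg_left (min_le_right _ _) hK
  have h4 : K * (R / (2 * (K + 1))) < R := by
    rw [← mul_div_assoc, div_lt_iff₀ (by positivity)]
    nlinarith
  linarith

end B779

open B779 in
theorem m2 : M2_statement.{u} := by
  intro n N _ M _ _ _ _ _ _ _ _ P A w φ u v hw hw0 hφ hwφ hv hu huv hE
  obtain ⟨hfin, hpos, -⟩ := TM.fInt n N M P
  have hop : P.μ.IsOpenPosMeasure := ⟨fun U hU hne => (hpos U hU hne).ne'⟩
  have cp : Continuous fun x => (pairing P.g A u u x).re :=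
    Complex.continuous_re.comp (continuous_pairing P.g A hu hu)
  have ca : Continuous (gp P.g w w) := cont_gp P.g hw.sm hw.sm
  have cb : Continuous (gp P.g w (nsq u)) := cont_gp P.g hw.sm (sm_nsq hu)
  have cc : Continuous (gp P.g w φ) := cont_gp P.g hw.sm hφ
  have cw : Continuous w := ContMDiff.continuous hw.sm
  have cφ : Continuous φ := ContMDiff.continuous hφ
  have cs : Continuous (nsq u) := ContMDiff.continuous (sm_nsq hu)
  have hint : ∀ {f : M → ℝ}, Continuous f → Integrable f P.μ := fun hf => integrable_of_continuous hf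
  have eE : (energy P.g P.μ A u u).re = ∫ x, (pairing P.g A u u x).re ∂P.μ :=
    (integral_re (𝕜 := ℂ) (integrable_of_continuous (continuous_pairing P.g A hu hu))).symm
  rw [eE] at hE ⊢
  have hQ : ∀ (x : M) (α β : ℝ), 0 ≤ α ^ 2 * (pairing P.g A u u x).re -
      α * β * gp P.g w (nsq u) x + β ^ 2 * (nsq u x * gp P.g w w x) := by
    intro x α β
    rw [← quad P.g A hu w x α β]
    exact rp_nonneg P.g x fun a => α • covI A u x a - (β * dI (𝓡∂ n) w x a) • u x
  have hp0 : ∀ x, 0 ≤ (pairing P.g A u u x).re := by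
    intro x
    have := hQ x 1 0
    simpa using this
  -- the integral of `|T|²`
  have key : ∀ δ : ℝ, 0 < δ → ∫ x, ((pairing P.g A u u x).re -
      (w x + δ ^ 2)⁻¹ * gp P.g w (nsq u) x +
        (w x + δ ^ 2)⁻¹ ^ 2 * (nsq u x * gp P.g w w x)) ∂P.μ ≤
      ∫ x, (pairing P.g A u u x).re ∂P.μ - ∫ x, gp P.g w w x ∂P.μ +
        δ * ∫ x, |gp P.g w φ x| ∂P.μ := by
    intro δ hδ
    have hpos1 : ∀ x, 0 < w x + δ ^ 2 := fun x => add_pos_of_nonneg_of_pos (hw0 x) (by positivity)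
    have hpos2 : ∀ x, 0 < φ x * φ x + δ ^ 2 := fun x => by
      have := mul_self_nonneg (φ x)
      positivity
    have cr : Continuous fun x => (w x + δ ^ 2)⁻¹ :=
      (cw.add continuous_const).inv₀ fun x => (hpos1 x).ne'
    have cq : Continuous fun x => (φ x * φ x + δ ^ 2)⁻¹ :=
      ((cφ.mul cφ).add continuous_const).inv₀ fun x => (hpos2 x).ne'
    obtain ⟨s1, e1⟩ := test1 P.g hw.sm (sm_nsq hu) fun x => (hpos1 x).ne'
    obtain ⟨s2, e2⟩ := test2 P.g hw.sm hφ (fun x => (hpos1 x).ne') fun x => (hpos2 x).ne'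
    have i1 := hw.weak _ s1 fun x hx => by
      have h1 : nsq u x = w x * w x := by
        unfold nsq
        rw [huv x hx, inner_smul_left, inner_smul_right, Complex.conj_ofReal,
          inner_self_eq_norm_sq_to_K, hv]
        simp
      rw [h1, sub_self, zero_mul]
    have i2 := hw.weak _ s2 fun x hx => by
      have h1 : w x = φ x * φ x := by rw [hwφ x hx, pow_two]
      rw [h1, sub_self]
    simp only [e1] at i1
    simp only [e2] at i2
    have c1 : Continuous fun x => (w x + δ ^ 2)⁻¹ * gp P.g w (nsq u) x -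
        2 * (w x + δ ^ 2)⁻¹ * w x * gp P.g w w x -
        (w x + δ ^ 2)⁻¹ ^ 2 * (nsq u x - w x * w x) * gp P.g w w x := by fun_prop
    have c2 : Continuous fun x => -((w x + δ ^ 2)⁻¹ ^ 2 * gp P.g w w x) +
        2 * (φ x * φ x + δ ^ 2)⁻¹ ^ 2 * φ x * gp P.g w φ x := by fun_prop
    have c0 : Continuous fun x => (pairing P.g A u u x).re -
      (w x + δ ^ 2)⁻¹ * gp P.g w (nsq u) x +
        (w x + δ ^ 2)⁻¹ ^ 2 * (nsq u x * gp P.g w w x) := by fun_prop
    have h3 : ∫ x, ((pairing P.g A u u x).re -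
      (w x + δ ^ 2)⁻¹ * gp P.g w (nsq u) x +
        (w x + δ ^ 2)⁻¹ ^ 2 * (nsq u x * gp P.g w w x)) ∂P.μ =
        ∫ x, ((pairing P.g A u u x).re - gp P.g w w x +
          2 * δ ^ 4 * (φ x * φ x + δ ^ 2)⁻¹ ^ 2 * φ x * gp P.g w φ x) ∂P.μ := by
      have h4 : ∫ x, ((pairing P.g A u u x).re - gp P.g w w x +
          2 * δ ^ 4 * (φ x * φ x + δ ^ 2)⁻¹ ^ 2 * φ x * gp P.g w φ x) ∂P.μ =
          ∫ x, ((((pairing P.g A u u x).re -
            (w x + δ ^ 2)⁻¹ * gp P.g w (nsq u) x +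
            (w x + δ ^ 2)⁻¹ ^ 2 * (nsq u x * gp P.g w w x)) +
            ((w x + δ ^ 2)⁻¹ * gp P.g w (nsq u) x -
              2 * (w x + δ ^ 2)⁻¹ * w x * gp P.g w w x -
              (w x + δ ^ 2)⁻¹ ^ 2 * (nsq u x - w x * w x) * gp P.g w w x)) +
            δ ^ 4 * (-((w x + δ ^ 2)⁻¹ ^ 2 * gp P.g w w x) +
              2 * (φ x * φ x + δ ^ 2)⁻¹ ^ 2 * φ x * gp P.g w φ x)) ∂P.μ := by
        refine integral_congr_ae (Eventually.of_forall fun x => ?_)
        have h5 : (w x + δ ^ 2)⁻¹ * (w x + δ ^ 2) = 1 := inv_mul_cancel₀ (hpos1 x).ne'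
        have h6 : 2 * (w x + δ ^ 2)⁻¹ * w x - (w x + δ ^ 2)⁻¹ ^ 2 * (w x * w x) +
            δ ^ 4 * (w x + δ ^ 2)⁻¹ ^ 2 = 1 := by
          have h7 : (w x + δ ^ 2)⁻¹ * w x = 1 - (w x + δ ^ 2)⁻¹ * δ ^ 2 := by linarith
          have h8 : (w x + δ ^ 2)⁻¹ ^ 2 * (w x * w x) = ((w x + δ ^ 2)⁻¹ * w x) ^ 2 := by ring
          rw [h8, mul_assoc, h7]
          ring
        beta_reduce
        linear_combination (gp P.g w w x) * h6
      exact (h4.trans (int3 (hint c0) (hint c1) (hint c2) i1 i2)).symm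
    rw [h3]
    have h9 : ∫ x, (pairing P.g A u u x).re ∂P.μ - ∫ x, gp P.g w w x ∂P.μ +
        δ * ∫ x, |gp P.g w φ x| ∂P.μ =
        ∫ x, ((pairing P.g A u u x).re - gp P.g w w x + δ * |gp P.g w φ x|) ∂P.μ := by
      exact (int3' (hint cp) (hint ca) (hint cc.abs)).symm
    rw [h9]
    refine integral_mono (hint (by fun_prop)) (hint (by fun_prop)) fun x => ?_
    have := bd1 (φ x) (gp P.g w φ x) δ hδ
    beta_reduce
    linarith
  have hT0 : ∀ δ x, 0 ≤ (pairing P.g A u u x).re -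
      (w x + δ ^ 2)⁻¹ * gp P.g w (nsq u) x +
        (w x + δ ^ 2)⁻¹ ^ 2 * (nsq u x * gp P.g w w x) := by
    intro δ x
    have := hQ x 1 (w x + δ ^ 2)⁻¹
    linarith
  have hK : 0 ≤ ∫ x, |gp P.g w φ x| ∂P.μ := integral_nonneg fun x => abs_nonneg _
  refine ⟨?_, ?_⟩
  · have h1 : ∫ x, gp P.g w w x ∂P.μ - ∫ x, (pairing P.g A u u x).re ∂P.μ ≤ 0 := by
      refine small hK fun δ hδ _ => ?_
      have h2 := key δ hδ
      have h3 : 0 ≤ ∫ x, ((pairing P.g A u u x).re -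
          (w x + δ ^ 2)⁻¹ * gp P.g w (nsq u) x +
          (w x + δ ^ 2)⁻¹ ^ 2 * (nsq u x * gp P.g w w x)) ∂P.μ :=
        integral_nonneg fun x => hT0 δ x
      linarith
    linarith
  · -- the integral of `|R|²`
    obtain ⟨C, hC⟩ := isCompact_univ.exists_bound_of_continuousOn cw.continuousOn
    have hC' : ∀ x, w x ≤ |C| := fun x => by
      have h1 := hC x (mem_univ x)
      rw [Real.norm_eq_abs, abs_of_nonneg (hw0 x)] at h1
      exact h1.trans (le_abs_self C)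
    have crr : Continuous fun x => w x ^ 2 * (pairing P.g A u u x).re -
        w x * 1 * gp P.g w (nsq u) x + 1 ^ 2 * (nsq u x * gp P.g w w x) := by fun_prop
    have hp1 : 0 ≤ ∫ x, (pairing P.g A u u x).re ∂P.μ := integral_nonneg hp0
    have hR : ∫ x, (w x ^ 2 * (pairing P.g A u u x).re -
        w x * 1 * gp P.g w (nsq u) x + 1 ^ 2 * (nsq u x * gp P.g w w x)) ∂P.μ ≤ 0 := by
      refine small (K := 2 * (|C| + 1) ^ 2 * (∫ x, |gp P.g w φ x| ∂P.μ) +
        2 * ∫ x, (pairing P.g A u u x).re ∂P.μ) (by positivity) fun δ hδ hδ1 => ?_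
      have hpos1 : ∀ x, 0 < w x + δ ^ 2 :=
        fun x => add_pos_of_nonneg_of_pos (hw0 x) (by positivity)
      have cr : Continuous fun x => (w x + δ ^ 2)⁻¹ :=
        (cw.add continuous_const).inv₀ fun x => (hpos1 x).ne'
      have c0 : Continuous fun x => (pairing P.g A u u x).re -
        (w x + δ ^ 2)⁻¹ * gp P.g w (nsq u) x +
          (w x + δ ^ 2)⁻¹ ^ 2 * (nsq u x * gp P.g w w x) := by fun_prop
      have h1 : ∫ x, (w x ^ 2 * (pairing P.g A u u x).re -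
        w x * 1 * gp P.g w (nsq u) x + 1 ^ 2 * (nsq u x * gp P.g w w x)) ∂P.μ ≤
          ∫ x, (2 * (|C| + 1) ^ 2 * ((pairing P.g A u u x).re -
            (w x + δ ^ 2)⁻¹ * gp P.g w (nsq u) x +
            (w x + δ ^ 2)⁻¹ ^ 2 * (nsq u x * gp P.g w w x)) +
            2 * δ ^ 4 * (pairing P.g A u u x).re) ∂P.μ := by
        refine integral_mono (hint crr) (hint ((continuous_const.mul c0).add
          (continuous_const.mul cp))) fun x => ?_
        beta_reduce
        have h2 := hQ x (w x + δ ^ 2 + δ ^ 2) 1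
        have h3 := hT0 δ x
        have h4 : (w x + δ ^ 2) ^ 2 ≤ (|C| + 1) ^ 2 := by
          have h5 : δ ^ 2 ≤ 1 := by nlinarith
          have h6 := hC' x
          exact pow_le_pow_left₀ (hpos1 x).le (by linarith) 2
        have h7 := mul_le_mul_of_nonneg_right h4 h3
        have h8 : (w x + δ ^ 2) ^ 2 * ((pairing P.g A u u x).re -
            (w x + δ ^ 2)⁻¹ * gp P.g w (nsq u) x +
            (w x + δ ^ 2)⁻¹ ^ 2 * (nsq u x * gp P.g w w x)) =
            (w x + δ ^ 2) ^ 2 * (pairing P.g A u u x).re -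
              (w x + δ ^ 2) * gp P.g w (nsq u) x + nsq u x * gp P.g w w x := by
          have h9 : (w x + δ ^ 2) * (w x + δ ^ 2)⁻¹ = 1 := mul_inv_cancel₀ (hpos1 x).ne'
          linear_combination (-(w x + δ ^ 2) * gp P.g w (nsq u) x +
            ((w x + δ ^ 2) * (w x + δ ^ 2)⁻¹ + 1) * (nsq u x * gp P.g w w x)) * h9
        rw [h8] at h7
        nlinarith
      have h1' := h1.trans_eq (int2 (c := 2 * (|C| + 1) ^ 2) (d := 2 * δ ^ 4) (hint c0) (hint cp))
      have h2 := key δ hδ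
      have h3 : ∫ x, ((pairing P.g A u u x).re -
        (w x + δ ^ 2)⁻¹ * gp P.g w (nsq u) x +
          (w x + δ ^ 2)⁻¹ ^ 2 * (nsq u x * gp P.g w w x)) ∂P.μ ≤
          δ * ∫ x, |gp P.g w φ x| ∂P.μ := by linarith
      have h4 : 2 * (|C| + 1) ^ 2 * ∫ x, ((pairing P.g A u u x).re -
        (w x + δ ^ 2)⁻¹ * gp P.g w (nsq u) x +
          (w x + δ ^ 2)⁻¹ ^ 2 * (nsq u x * gp P.g w w x)) ∂P.μ ≤
          2 * (|C| + 1) ^ 2 * (δ * ∫ x, |gp P.g w φ x| ∂P.μ) :=
        mul_le_mul_of_nonneg_left h3 (by positivity)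
      have h5 : δ ^ 4 ≤ δ := by
        have : δ ^ 4 ≤ δ ^ 1 := pow_le_pow_of_le_one hδ.le hδ1 (by norm_num)
        simpa using this
      have h6 := mul_le_mul_of_nonneg_right h5 hp1
      refine h1'.trans ((add_le_add_left h4 _).trans ?_)
      linarith
    have hR0 : ∀ x, w x ^ 2 * (pairing P.g A u u x).re -
        w x * 1 * gp P.g w (nsq u) x + 1 ^ 2 * (nsq u x * gp P.g w w x) = 0 := by
      have h2 := le_antisymm hR (integral_nonneg fun x => hQ x (w x) 1)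
      have h3 := (integral_eq_zero_iff_of_nonneg (fun x => hQ x (w x) 1) (hint crr)).1 h2
      have h4 : (fun x => w x ^ 2 * (pairing P.g A u u x).re -
        w x * 1 * gp P.g w (nsq u) x + 1 ^ 2 * (nsq u x * gp P.g w w x)) = fun _ => (0 : ℝ) :=
        (Continuous.ae_eq_iff_eq P.μ crr continuous_const).1 h3
      exact fun x => congrFun h4 x
    intro x X
    have h1 := hR0 x
    rw [← quad P.g A hu w x (w x) 1] at h1
    have h2 := pd_zero (gram_inv_posDef P.g (mem_extChartAt_source x))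
      (fun i => w x • covI A u x (es n i) - (1 * dI (𝓡∂ n) w x (es n i)) • u x) h1
    have h3 : ∀ i, w x • covI A u x (es n i) = (dI (𝓡∂ n) w x (es n i)) • u x := by
      intro i
      have := sub_eq_zero.1 (h2 i)
      rwa [one_mul] at this
    have h4 : w x • covI A u x (X : EuclideanSpace ℝ (Fin n)) =
        (dI (𝓡∂ n) w x (X : EuclideanSpace ℝ (Fin n))) • u x := by
      rw [eq_sum_es (X : EuclideanSpace ℝ (Fin n)), covI_sum, Finset.smul_sum]
      simp only [map_sum, map_smul, Finset.sum_smul]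
      refine Finset.sum_congr rfl fun i _ => ?_
      rw [smul_comm, h3 i, smul_smul, smul_eq_mul]
    exact h4

end Vale.Agent.P088.EYM.O

end
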