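import Vale.Agent.P088.H5.Calc

/-!
# P088, Theorem M: the parallel frame in the interior
-/

open Bundle Manifold MeasureTheory Set Filter Topology
open scoped ContDiff Matrix

noncomputable section

set_option linter.all false

namespace Vale.Agent.P088.EYM.O

open Vale.Agent.P088 Vale.Agent.P088.EYM

universe u

section alg

variable {N : ℕ}

/-- `y ↦ (v ↦ v_a y)`, as a real linear map. -/
def colL (a : Fin N) : Fib N →L[ℝ] EndF N :=
  LinearMap.mkContinuous
    { toFun := fun y => (EuclideanSpace.proj a : Fib N →L[ℂ] ℂ).smulRight y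
      map_add' := fun x y => by
        ext1 v
        show v a • (x + y) = v a • x + v a • y
        rw [smul_add]
      map_smul' := fun c x => by
        ext1 v
        show v a • (c • x) = c • (v a • x)
        rw [smul_comm] }
    ‖(EuclideanSpace.proj a : Fib N →L[ℂ] ℂ)‖
    (fun y => by
      show ‖(EuclideanSpace.proj a : Fib N →L[ℂ] ℂ).smulRight y‖ ≤ _
      rw [ContinuousLinearMap.norm_smulRight_apply])

theorem colL_apply (a : Fin N) (y v : Fib N) : colL a y v = v a • y := rfl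

theorem colL_comp (a : Fin N) (L : EndF N) (y : Fib N) : colL a (L y) = L * colL a y := by
  ext1 v
  show v a • L y = L (v a • y)
  rw [map_smul]

theorem colL_csmul (a : Fin N) (c : ℝ) (y : Fib N) : colL a ((c : ℂ) • y) = c • colL a y := by
  rw [Complex.coe_smul, map_smul]

theorem colL_one : (∑ a, colL a (EuclideanSpace.single a (1 : ℂ))) = (1 : EndF N) := by
  ext1 v
  rw [ContinuousLinearMap.sum_apply, ContinuousLinearMap.one_apply]
  simp only [colL_apply]
  ext b
  simp [Pi.single_apply]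

/-- Multiplication in `EndF N`, real bilinear. -/
def mulL : EndF N →L[ℝ] EndF N →L[ℝ] EndF N := ContinuousLinearMap.mul ℝ (EndF N)

theorem mulL_apply (S T : EndF N) : mulL S T = S * T := rfl

theorem unit_of_left {S : EndF N} (h : ContinuousLinearMap.adjoint S * S = 1) :
    S ∈ unitary (EndF N) := by
  have h1 : (ContinuousLinearMap.adjoint S : Fib N →ₗ[ℂ] Fib N) * (S : Fib N →ₗ[ℂ] Fib N) = 1 := by
    ext1 v
    exact DFunLike.congr_fun h v
  have h2 := mul_eq_one_comm.1 h1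
  refine ⟨h, ?_⟩
  show S * ContinuousLinearMap.adjoint S = 1
  ext1 v
  exact DFunLike.congr_fun h2 v

theorem adjmul_smooth : ContDiff ℝ ∞ (fun t : EndF N => mulL (adjRE t) t) :=
  (mulL.contDiff.comp adjRE.contDiff).clm_apply contDiff_id

end alg

/-- `S* S` has vanishing differential for a parallel `S`. -/
theorem adjmul_par {n N : ℕ} [NeZero n] {M : Type u} [TopologicalSpace M]
    [ChartedSpace (EuclideanHalfSpace n) M] [IsManifold (𝓡∂ n) ∞ M] {S : M → EndF N} {x : M}
    (hS : MDifferentiableAt (𝓡∂ n) 𝓘(ℝ, EndF N) S x) {X : TangentSpace (𝓡∂ n) x} {L : EndF N}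
    (hL : ContinuousLinearMap.adjoint L = -L) (h : dmap (𝓡∂ n) S x X + L * S x = 0) :
    dmap (𝓡∂ n) (fun y => mulL (adjRE (S y)) (S y)) x X = 0 := by
  have hadj : MDifferentiableAt (𝓡∂ n) 𝓘(ℝ, EndF N) (fun y => adjRE (S y)) x :=
    (adjRE.differentiable.mdifferentiable (S x)).comp x hS
  rw [dmap_bilin mulL hadj hS X, dmap_clm adjRE hS X]
  have h1 : dmap (𝓡∂ n) S x X = -(L * S x) := eq_neg_of_add_eq_zero_left h
  rw [h1, mulL_apply, mulL_apply, adjRE_apply, adjRE_apply, map_neg, adj_mulE, hL]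
  have h2 : -(ContinuousLinearMap.adjoint (S x) * -L) * S x +
      ContinuousLinearMap.adjoint (S x) * -(L * S x) = (0 : EndF N) := by
    rw [mul_neg, neg_neg, mul_neg, mul_assoc, add_neg_cancel]
  exact h2

/-- The parallel frame, with the relation to the sections `u_a`. -/
theorem m3' (n N : ℕ) [NeZero n] (M : Type u) [TopologicalSpace M]
    [ChartedSpace (EuclideanHalfSpace n) M]
    [IsManifold (𝓡∂ n) ∞ M] [T2Space M] [CompactSpace M] [ConnectedSpace M]
    (A : Connection (𝓡∂ n) N M) (w : M → ℝ) (u : Fin N → M → Fib N) (p : M)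
    (hw : SmR n w) (hpos : ∀ x ∈ Mi n M, 0 < w x) (hu : ∀ a, SmS n (u a))
    (hb : ∀ a, ∀ x ∈ (𝓡∂ n).boundary M, u a x = (w x : ℂ) • EuclideanSpace.single a (1 : ℂ))
    (hrel : ∀ a (x : M) (X : TangentSpace (𝓡∂ n) x),
      (w x : ℂ) • cov A (u a) x X = ((dmap (𝓡∂ n) w x X : ℝ) : ℂ) • u a x)
    (hp : p ∈ (𝓡∂ n).boundary M) (hwp : w p ≠ 0) :
    ∃ S : M → EndF N, ContMDiffOn (𝓡∂ n) 𝓘(ℝ, EndF N) ∞ S (Mi n M) ∧
      (∀ x ∈ Mi n M, S x ∈ unitary (EndF N)) ∧
      (∀ x ∈ Mi n M, ∀ X : TangentSpace (𝓡∂ n) x,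
        dmap (𝓡∂ n) S x X + A.form x X ∘L S x = 0) ∧
      (∀ q ∈ (𝓡∂ n).boundary M, w q ≠ 0 → Tendsto S (𝓝[Mi n M] q) (𝓝 1)) ∧
      ∀ x ∈ Mi n M, ∀ a, u a x = w x • S x (EuclideanSpace.single a (1 : ℂ)) := by
  obtain ⟨hIo, hIc, hIcl⟩ := TM.fConn n M
  set T : M → EndF N := fun x => ∑ a, colL a (u a x) with hT
  set S : M → EndF N := fun x => (w x)⁻¹ • T x with hS
  have hTs : ContMDiff (𝓡∂ n) 𝓘(ℝ, EndF N) ∞ T := by
    have h : ∀ s : Finset (Fin N), ContMDiff (𝓡∂ n) 𝓘(ℝ, EndF N) ∞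
        (fun x => ∑ a ∈ s, colL a (u a x)) := by
      intro s
      induction s using Finset.induction_on with
      | empty => simpa using contMDiff_const
      | insert a s ha ih =>
        simp_rw [Finset.sum_insert ha]
        exact ((colL a).contMDiff.comp (hu a)).add ih
    exact h Finset.univ
  have hwi : ContMDiffOn (𝓡∂ n) 𝓘(ℝ, ℝ) ∞ (fun x => (w x)⁻¹) (Mi n M) :=
    ContMDiffOn.inv₀ hw.contMDiffOn fun x hx => (hpos x hx).ne'
  have hSs : ContMDiffOn (𝓡∂ n) 𝓘(ℝ, EndF N) ∞ S (Mi n M) := hwi.smul hTs.contMDiffOn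
  have hSd : ∀ x ∈ Mi n M, MDifferentiableAt (𝓡∂ n) 𝓘(ℝ, EndF N) S x := fun x hx =>
    (hSs.contMDiffAt (hIo.mem_nhds hx)).mdifferentiableAt (by simp)
  have hwd : ∀ x : M, MDifferentiableAt (𝓡∂ n) 𝓘(ℝ, ℝ) w x := fun x =>
    hw.mdifferentiable (by simp) x
  have hud : ∀ a (x : M), MDifferentiableAt (𝓡∂ n) 𝓘(ℝ, Fib N) (u a) x := fun a x =>
    (hu a).mdifferentiable (by simp) x
  have hTd : ∀ (x : M) (X : TangentSpace (𝓡∂ n) x),
      w x • dmap (𝓡∂ n) T x X = dmap (𝓡∂ n) w x X • T x - w x • (A.form x X * T x) := by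
    intro x X
    have h1 : dmap (𝓡∂ n) T x X = ∑ a, colL a (dmap (𝓡∂ n) (u a) x X) := by
      rw [hT, (dmap_sum (f := fun a y => colL a (u a y)) Finset.univ (fun a =>
        ((colL a).differentiable.mdifferentiable (u a x)).comp x (hud a x)) X).2]
      exact Finset.sum_congr rfl fun a _ => dmap_clm (colL a) (hud a x) X
    rw [h1, hT]
    simp only [Finset.smul_sum, Finset.mul_sum, ← Finset.sum_sub_distrib]
    refine Finset.sum_congr rfl fun a _ => ?_
    have h2 := hrel a x X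
    unfold cov at h2
    rw [smul_add] at h2
    have h3 := congrArg (colL a) h2
    rw [map_add, colL_csmul, colL_csmul, colL_csmul, colL_comp] at h3
    rw [← h3]
    abel
  have hSpar : ∀ x ∈ Mi n M, ∀ X : TangentSpace (𝓡∂ n) x,
      dmap (𝓡∂ n) S x X + A.form x X * S x = 0 := by
    intro x hx X
    have hw0 : w x ≠ 0 := (hpos x hx).ne'
    have he : T =ᶠ[𝓝 x] fun y => w y • S y := by
      filter_upwards [hIo.mem_nhds hx] with y hy
      simp only [hS, smul_smul, mul_inv_cancel₀ (hpos y hy).ne', one_smul]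
    have h1 : dmap (𝓡∂ n) T x X = dmap (𝓡∂ n) (fun y => w y • S y) x X :=
      DFunLike.congr_fun he.mfderiv_eq X
    have h2 := dmap_bilin (ContinuousLinearMap.lsmul ℝ ℝ : ℝ →L[ℝ] EndF N →L[ℝ] EndF N)
      (hwd x) (hSd x hx) X
    simp only [ContinuousLinearMap.lsmul_apply] at h2
    rw [h2] at h1
    have h3 := hTd x X
    have hTS : T x = w x • S x := he.self_of_nhds
    rw [h1, hTS, smul_add, smul_comm (w x) (dmap (𝓡∂ n) w x X)] at h3
    have h4 : w x • w x • (dmap (𝓡∂ n) S x X + A.form x X * S x) = 0 := by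
      have h5 : w x • (A.form x X * (w x • S x)) = w x • w x • (A.form x X * S x) := by
        rw [mul_smul_comm]
      rw [h5] at h3
      rw [smul_add, smul_add]
      have h6 := add_left_cancel (a := dmap (𝓡∂ n) w x X • w x • S x)
        (h3.trans (sub_eq_add_neg _ _))
      rw [h6, neg_add_cancel]
    have h7 := (smul_eq_zero.1 h4).resolve_left hw0
    exact (smul_eq_zero.1 h7).resolve_left hw0
  have hlim : ∀ q ∈ (𝓡∂ n).boundary M, w q ≠ 0 → Tendsto S (𝓝[Mi n M] q) (𝓝 1) := by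
    intro q hq hwq
    have hc : ContinuousAt S q :=
      (hw.continuous.continuousAt.inv₀ hwq).smul hTs.continuous.continuousAt
    have hSq : S q = 1 := by
      simp only [hS, hT]
      rw [← colL_one (N := N), Finset.smul_sum]
      refine Finset.sum_congr rfl fun a _ => ?_
      rw [hb a q hq, colL_csmul, smul_smul, inv_mul_cancel₀ hwq, one_smul]
    rw [← hSq]
    exact hc.tendsto.mono_left nhdsWithin_le_nhds
  have huni : ∀ x ∈ Mi n M, ContinuousLinearMap.adjoint (S x) * S x = 1 := by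
    have hfs : ContMDiffOn (𝓡∂ n) 𝓘(ℝ, EndF N) ∞ (fun x => mulL (adjRE (S x)) (S x)) (Mi n M) :=
      adjmul_smooth.contMDiff.comp_contMDiffOn hSs
    have hc := const_of_dmap hfs
      (fun x hx X => adjmul_par (hSd x hx) (A.skew x X) (hSpar x hx X))
    intro x hx
    have hne : (𝓝[Mi n M] p).NeBot := mem_closure_iff_nhdsWithin_neBot.1 (hIcl p)
    have h1 : Tendsto (fun y => mulL (adjRE (S y)) (S y)) (𝓝[Mi n M] p)
        (𝓝 (mulL (adjRE 1) (1 : EndF N))) := by
      have hl := hlim p hp hwp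
      exact (adjmul_smooth.continuous.tendsto 1).comp hl
    have h2 : (fun y => mulL (adjRE (S y)) (S y)) =ᶠ[𝓝[Mi n M] p]
        fun _ => mulL (adjRE (S x)) (S x) := by
      filter_upwards [self_mem_nhdsWithin] with y hy
      exact hc y hy x hx
    have h3 := tendsto_nhds_unique (h1.congr' h2) tendsto_const_nhds
    rw [mulL_apply, mulL_apply, adjRE_apply, adjRE_apply] at h3
    rw [← h3, mul_one]
    exact star_one (EndF N)
  refine ⟨S, hSs, fun x hx => unit_of_left (huni x hx), hSpar, hlim, fun x hx a => ?_⟩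
  have hw0 : w x ≠ 0 := (hpos x hx).ne'
  have h1 : S x (EuclideanSpace.single a (1 : ℂ)) = (w x)⁻¹ • T x (EuclideanSpace.single a (1 : ℂ)) :=
    rfl
  have h2 : T x (EuclideanSpace.single a (1 : ℂ)) = u a x := by
    rw [hT]
    rw [ContinuousLinearMap.sum_apply, Finset.sum_eq_single a]
    · rw [colL_apply]
      simp
    · intro b _ hb
      rw [colL_apply]
      simp [hb]
    · simp
  rw [h1, smul_smul, mul_inv_cancel₀ hw0, one_smul, h2]

theorem m3 : M3_statement.{u} := by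
  intro n N _ M _ _ _ _ _ _ A w u p hw hpos hu hb hrel hp hwp
  obtain ⟨S, h1, h2, h3, h4, -⟩ := m3' n N M A w u p hw hpos hu hb hrel hp hwp
  exact ⟨S, h1, h2, h3, h4⟩

end Vale.Agent.P088.EYM.O

end
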