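import Vale.Agent.P088.H5.Calc
import Vale.Agent.P088.H5.M3
import Mathlib.Analysis.Calculus.FDeriv.Extend
import Mathlib.Topology.ExtendFrom

/-!
# P088, Theorem M: parallel unitary frames extend smoothly to the boundary
-/

open Bundle Manifold MeasureTheory Set Filter Topology
open scoped ContDiff Matrix NNReal

noncomputable section

set_option linter.all false

namespace Vale.Agent.P088.EYM.O

open Vale.Agent.P088 Vale.Agent.P088.EYM

universe u

section loc

variable {n N : ℕ} [NeZero n]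

/-- The candidate for the differential. -/
def m5T (B : Fin n → E n → EndF N) (S : E n → EndF N) (x : E n) : E n →L[ℝ] EndF N :=
  ∑ j, (EuclideanSpace.proj (𝕜 := ℝ) j : E n →L[ℝ] ℝ).smulRight (-(B j x * S x))

theorem m5T_ev (B : Fin n → E n → EndF N) (S : E n → EndF N) (x : E n) (i : Fin n) :
    m5T B S x (ev i) = -(B i x * S x) := by
  unfold m5T
  rw [ContinuousLinearMap.sum_apply]
  rw [Finset.sum_eq_single i]
  · rw [ContinuousLinearMap.smulRight_apply]
    have : (EuclideanSpace.proj (𝕜 := ℝ) i : E n →L[ℝ] ℝ) (ev i) = 1 := by simp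
    rw [this, one_smul]
  · intro j _ hj
    rw [ContinuousLinearMap.smulRight_apply]
    have : (EuclideanSpace.proj (𝕜 := ℝ) j : E n →L[ℝ] ℝ) (ev i) = 0 := by
      simp [hj]
    rw [this, zero_smul]
  · intro h
    exact absurd (Finset.mem_univ i) h

theorem m5_clm_ext {L L' : E n →L[ℝ] EndF N} (h : ∀ i, L (ev i) = L' (ev i)) : L = L' := by
  ext1 v
  rw [en_expand v, map_sum, map_sum]
  refine Finset.sum_congr rfl fun i _ => ?_
  rw [map_smul, map_smul, h i]

theorem m5T_smooth {m : WithTop ℕ∞} {D : Set (E n)} {B : Fin n → E n → EndF N}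
    {S : E n → EndF N} (hB : ∀ j, ContDiffOn ℝ m (B j) D) (hS : ContDiffOn ℝ m S D) :
    ContDiffOn ℝ m (m5T B S) D := by
  unfold m5T
  refine ContDiffOn.sum fun j _ => ?_
  have h1 : ContDiffOn ℝ m (fun x => -(B j x * S x)) D := (smooth_mul (hB j) hS).neg
  exact contDiffOn_const.smulRight h1

theorem m5_isOpen_pos : IsOpen {x : E n | 0 < x 0} :=
  isOpen_lt continuous_const (continuous_coord 0)

theorem m5_convex_pos : Convex ℝ {x : E n | 0 < x 0} := by
  have h : {x : E n | 0 < x 0} = interior (Hs n) :=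
    Subset.antisymm open_pos_subset fun y hy => BIntr_pos_of_interior hy
  rw [h]
  exact convex_Hs.interior

theorem m5_Hs_closure : Hs n ⊆ closure {x : E n | 0 < x 0} := by
  have h : {x : E n | 0 < x 0} = interior (Hs n) :=
    Subset.antisymm open_pos_subset fun y hy => BIntr_pos_of_interior hy
  rw [h]
  exact Hs_subset_closure

/-- the interior part of the half ball -/
theorem m5_U_eq (z : E n) (r : ℝ) :
    HB z r ∩ {x | 0 < x 0} = Metric.ball z r ∩ {x | 0 < x 0} := by
  ext x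
  constructor
  · rintro ⟨⟨a, -⟩, b⟩
    exact ⟨a, b⟩
  · rintro ⟨a, b⟩
    exact ⟨⟨a, show 0 ≤ x 0 from le_of_lt b⟩, b⟩

theorem m5_HB_closure (z : E n) (r : ℝ) : HB z r ⊆ closure (HB z r ∩ {x | 0 < x 0}) := by
  rw [m5_U_eq]
  intro x hx
  exact Metric.isOpen_ball.inter_closure ⟨hx.1, m5_Hs_closure hx.2⟩

theorem m5_fderiv {U : Set (E n)} (hU : IsOpen U) (hUp : U ⊆ {x | 0 < x 0})
    {B : Fin n → E n → EndF N} {S : E n → EndF N} (hS : ContDiffOn ℝ ∞ S U)
    (he : ∀ x ∈ U, ∀ j, pd j S x = -(B j x * S x)) {x : E n} (hx : x ∈ U) :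
    HasFDerivAt S (m5T B S x) x := by
  have h1 : HasFDerivAt S (fderiv ℝ S x) x :=
    ((hS.contDiffAt (hU.mem_nhds hx)).differentiableAt (by simp)).hasFDerivAt
  have h2 : fderiv ℝ S x = m5T B S x := by
    refine m5_clm_ext fun i => ?_
    have hxH : x ∈ Hs n := le_of_lt (show 0 < x 0 from hUp hx)
    rw [m5T_ev, ← he x hx i, pd_of_has hxH h1.hasFDerivWithinAt i]
  rw [← h2]
  exact h1

/-- The frame is Lipschitz near every point. -/
theorem m5_lip {z : E n} {r : ℝ} {B : Fin n → E n → EndF N} {S : E n → EndF N}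
    (hB : ∀ j, ContDiffOn ℝ ∞ (B j) (HB z r))
    (hS : ContDiffOn ℝ ∞ S (HB z r ∩ {x | 0 < x 0}))
    (hb : ∀ x ∈ HB z r ∩ {x | 0 < x 0}, ‖S x‖ ≤ 1)
    (he : ∀ x ∈ HB z r ∩ {x | 0 < x 0}, ∀ j, pd j S x = -(B j x * S x))
    {x : E n} (hx : x ∈ HB z r) :
    ∃ ρ > 0, Metric.closedBall x ρ ⊆ Metric.ball z r ∧
      ∃ C : ℝ≥0, LipschitzOnWith C S (Metric.ball x ρ ∩ {x | 0 < x 0}) := by
  obtain ⟨ρ, hρ, hρs⟩ := Metric.nhds_basis_closedBall.mem_iff.1
    (Metric.isOpen_ball.mem_nhds hx.1)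
  refine ⟨ρ, hρ, hρs, ?_⟩
  have hK : IsCompact (Metric.closedBall x ρ ∩ Hs n) :=
    (isCompact_closedBall x ρ).inter_right isClosed_Hs
  have hKs : Metric.closedBall x ρ ∩ Hs n ⊆ HB z r := inter_subset_inter_left _ hρs
  have hbd : ∀ j, ∃ C : ℝ, ∀ y ∈ Metric.closedBall x ρ ∩ Hs n, ‖B j y‖ ≤ C := fun j =>
    hK.exists_bound_of_continuousOn ((hB j).continuousOn.mono hKs)
  choose C hC using hbd
  have hU : IsOpen (HB z r ∩ {x | 0 < x 0}) := by
    rw [m5_U_eq]
    exact Metric.isOpen_ball.inter m5_isOpen_pos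
  have hVs : Metric.ball x ρ ∩ {x | 0 < x 0} ⊆ HB z r ∩ {x | 0 < x 0} := by
    rw [m5_U_eq]
    exact inter_subset_inter_left _ (Metric.ball_subset_closedBall.trans hρs)
  have hVc : Convex ℝ (Metric.ball x ρ ∩ {x : E n | 0 < x 0}) :=
    (convex_ball x ρ).inter m5_convex_pos
  set K : ℝ := ∑ j, ‖(EuclideanSpace.proj (𝕜 := ℝ) j : E n →L[ℝ] ℝ)‖ * |C j| with hKd
  refine ⟨K.toNNReal, hVc.lipschitzOnWith_of_nnnorm_hasFDerivWithin_le (f' := m5T B S)
    (fun y hy => (m5_fderiv hU inter_subset_right hS he (hVs hy)).hasFDerivWithinAt)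
    fun y hy => ?_⟩
  have hyK : y ∈ Metric.closedBall x ρ ∩ Hs n :=
    ⟨Metric.ball_subset_closedBall hy.1, le_of_lt (show 0 < y 0 from hy.2)⟩
  have h1 : ‖m5T B S y‖ ≤ K := by
    unfold m5T
    refine (norm_sum_le (E := E n →L[ℝ] EndF N) _ _).trans (Finset.sum_le_sum fun j _ => ?_)
    rw [ContinuousLinearMap.norm_smulRight_apply, norm_neg]
    refine mul_le_mul_of_nonneg_left ?_ (norm_nonneg _)
    calc ‖B j y * S y‖ ≤ ‖B j y‖ * ‖S y‖ := norm_mul_le _ _
      _ ≤ |C j| * 1 := mul_le_mul ((hC j y hyK).trans (le_abs_self _)) (hb y (hVs hy))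
        (norm_nonneg _) (abs_nonneg _)
      _ = |C j| := mul_one _
  rw [← NNReal.coe_le_coe, coe_nnnorm]
  exact h1.trans (Real.le_coe_toNNReal K)

theorem m5_gen (z : E n) (r : ℝ) (B : Fin n → E n → EndF N) (S : E n → EndF N)
    (hB : ∀ j, ContDiffOn ℝ ∞ (B j) (HB z r))
    (hS : ContDiffOn ℝ ∞ S (HB z r ∩ {x | 0 < x 0}))
    (hb : ∀ x ∈ HB z r ∩ {x | 0 < x 0}, ‖S x‖ ≤ 1)
    (he : ∀ x ∈ HB z r ∩ {x | 0 < x 0}, ∀ j, pd j S x = -(B j x * S x)) :
    ∃ S' : E n → EndF N, ContDiffOn ℝ ∞ S' (HB z r) ∧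
      (∀ x ∈ HB z r ∩ {x | 0 < x 0}, S' x = S x) ∧
      ∀ x ∈ HB z r, ∀ j, pd j S' x = -(B j x * S' x) := by
  have hU : IsOpen (HB z r ∩ {x | 0 < x 0}) := by
    rw [m5_U_eq]
    exact Metric.isOpen_ball.inter m5_isOpen_pos
  have hDr : RelOpen (HB z r) := relOpen_HB z r
  set U : Set (E n) := HB z r ∩ {x | 0 < x 0} with hUd
  have hlim : ∀ x ∈ HB z r, ∃ y, Tendsto S (𝓝[U] x) (𝓝 y) := by
    intro x hx
    obtain ⟨ρ, hρ, hρs, C, hC⟩ := m5_lip hB hS hb he hx
    have h1 : 𝓝[U] x ≤ 𝓟 (Metric.ball x ρ ∩ {x | 0 < x 0}) := by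
      rw [le_principal_iff]
      exact inter_mem (mem_nhdsWithin_of_mem_nhds (Metric.ball_mem_nhds x hρ))
        (mem_of_superset self_mem_nhdsWithin inter_subset_right)
    have hne : (𝓝[U] x).NeBot := mem_closure_iff_nhdsWithin_neBot.1 (m5_HB_closure z r hx)
    have hca : Cauchy (𝓝[U] x) := cauchy_nhds.mono nhdsWithin_le_nhds
    have h2 : Cauchy (map S (𝓝[U] x)) := hca.map_of_le hC.uniformContinuousOn h1
    exact CompleteSpace.complete h2
  set S' : E n → EndF N := extendFrom U S with hS'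
  have hcont : ContinuousOn S' (HB z r) := continuousOn_extendFrom (m5_HB_closure z r) hlim
  have hext : ∀ x ∈ U, S' x = S x := extendFrom_extends hS.continuousOn
  have hT : ContinuousOn (m5T B S') (HB z r) :=
    (m5T_smooth (m := 0) (fun j => (hB j).of_le (by simp)) (contDiffOn_zero.2 hcont)).continuousOn
  have hfU : ∀ x ∈ U, HasFDerivAt S' (m5T B S' x) x := by
    intro x hx
    have h1 := m5_fderiv hU inter_subset_right hS he hx
    have h2 : S' =ᶠ[𝓝 x] S := by
      filter_upwards [hU.mem_nhds hx] with y hy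
      exact hext y hy
    have h3 : m5T B S' x = m5T B S x := by
      unfold m5T
      rw [hext x hx]
    rw [h3]
    exact h1.congr_of_eventuallyEq h2
  have hfD : ∀ x ∈ HB z r, HasFDerivWithinAt S' (m5T B S' x) (Hs n) x := by
    intro x hx
    obtain ⟨ρ, hρ, hρs⟩ := Metric.nhds_basis_closedBall.mem_iff.1
      (Metric.isOpen_ball.mem_nhds hx.1)
    set V : Set (E n) := Metric.ball x ρ ∩ {x | 0 < x 0} with hV
    have hVU : V ⊆ U := by
      rw [hUd, m5_U_eq]
      exact inter_subset_inter_left _ (Metric.ball_subset_closedBall.trans hρs)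
    have hVo : IsOpen V := Metric.isOpen_ball.inter m5_isOpen_pos
    have hVc : Convex ℝ V := (convex_ball x ρ).inter m5_convex_pos
    have hVcl : closure V ⊆ HB z r := by
      have h1 : closure V ⊆ Metric.closedBall x ρ ∩ Hs n :=
        closure_minimal (fun y hy => ⟨Metric.ball_subset_closedBall hy.1,
          le_of_lt (show 0 < y 0 from hy.2)⟩) (Metric.isClosed_closedBall.inter isClosed_Hs)
      exact h1.trans (inter_subset_inter_left _ hρs)
    have h2 := hasFDerivWithinAt_closure_of_tendsto_fderiv (f := S') (s := V) (x := x)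
      (f' := m5T B S' x)
      (fun y hy => (hfU y (hVU hy)).differentiableAt.differentiableWithinAt) hVc hVo
      (fun y hy => (hcont y (hVcl hy)).mono (hVU.trans inter_subset_left)) (by
        have h3 : Tendsto (m5T B S') (𝓝[V] x) (𝓝 (m5T B S' x)) :=
          (hT x hx).mono_left (nhdsWithin_mono x (hVU.trans inter_subset_left))
        refine h3.congr' ?_
        filter_upwards [self_mem_nhdsWithin] with y hy
        exact (hfU y (hVU hy)).fderiv.symm)
    refine h2.mono_of_mem_nhdsWithin ?_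
    have h4 : Metric.ball x ρ ∩ Hs n ∈ 𝓝[Hs n] x :=
      inter_mem (mem_nhdsWithin_of_mem_nhds (Metric.ball_mem_nhds x hρ)) self_mem_nhdsWithin
    refine mem_of_superset h4 fun y hy => ?_
    exact Metric.isOpen_ball.inter_closure ⟨hy.1, m5_Hs_closure hy.2⟩
  have hfw : ∀ x ∈ HB z r, fderivWithin ℝ S' (HB z r) x = m5T B S' x := by
    intro x hx
    rw [hDr.fderivWithin_eq hx]
    exact (hfD x hx).fderivWithin (uniqueDiffOn_Hs x (hDr.subset hx))
  have hsm : ∀ m : ℕ, ContDiffOn ℝ m S' (HB z r) := by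
    intro m
    induction m with
    | zero => exact contDiffOn_zero.2 hcont
    | succ m ih =>
      have hm1 : (((m + 1 : ℕ) : ℕ∞) : WithTop ℕ∞) = ((m : ℕ∞) : WithTop ℕ∞) + 1 := rfl
      have hd : DifferentiableOn ℝ S' (HB z r) :=
        fun x hx => ((hfD x hx).mono hDr.subset).differentiableWithinAt
      have h5 : ContDiffOn ℝ ((m : ℕ∞) : WithTop ℕ∞) (m5T B S') (HB z r) :=
        m5T_smooth (fun j => (hB j).of_le (by exact_mod_cast le_top)) ih
      have h6 : ContDiffOn ℝ (((m : ℕ∞) : WithTop ℕ∞) + 1) S' (HB z r) :=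
        contDiffOn_succ_of_fderivWithin hd (fun h => absurd h (by simp)) (h5.congr hfw)
      exact h6
  refine ⟨S', contDiffOn_infty.2 hsm, hext, fun x hx j => ?_⟩
  rw [pd_of_has (hDr.subset hx) (hfD x hx) j, m5T_ev]

theorem m5 : M5_statement := by
  intro n N _ z r B S _ _ hB hS hb he
  exact m5_gen z r B S hB hS hb he

end loc

section glob

variable {n N : ℕ} [NeZero n] {M : Type u} [TopologicalSpace M]
  [ChartedSpace (EuclideanHalfSpace n) M] [IsManifold (𝓡∂ n) ∞ M]

theorem m5_boundary_iff (p x : M) (hx : x ∈ (xc n p).source) :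
    x ∈ (𝓡∂ n).boundary M ↔ xc n p x 0 = 0 := by
  letI : MeasurableSpace M := ⊤
  exact (TM.fLoc n 0 M).2.2.1 p x hx

theorem m5_norm_le {T : EndF N} (h : T ∈ unitary (EndF N)) : ‖T‖ ≤ 1 := by
  refine ContinuousLinearMap.opNorm_le_bound _ zero_le_one fun v => ?_
  have h1 : ContinuousLinearMap.adjoint T * T = 1 := h.1
  have h2 : (inner ℂ (T v) (T v) : ℂ) = inner ℂ v v := by
    rw [← ContinuousLinearMap.adjoint_inner_right]
    have h3 : ContinuousLinearMap.adjoint T (T v) = v := DFunLike.congr_fun h1 v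
    rw [h3]
  have h3 : ‖T v‖ = ‖v‖ := by
    rw [@norm_eq_sqrt_re_inner ℂ, @norm_eq_sqrt_re_inner ℂ _ _ _ _ v, h2]
  rw [h3, one_mul]

theorem m5g : M5G_statement.{u} := by
  intro n N _ M _ _ _ _ _ _ A S hS hU he
  obtain ⟨hIo, -, hIcl⟩ := TM.fConn n M
  have hrel : ∀ p : M, RelOpen (tg n p) := _root_.Vale.Agent.P088.S.brEq_relOpen (n := n)
  -- near every point the frame is the restriction of a smooth one
  have key : ∀ p : M, ∃ (r : ℝ) (s : E n → EndF N), 0 < r ∧ HB (xc n p p) r ⊆ tg n p ∧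
      ContDiffOn ℝ ∞ s (HB (xc n p p) r) ∧
      (∀ x ∈ (xc n p).source, xc n p x ∈ HB (xc n p p) r → x ∈ Mi n M → S x = s (xc n p x)) ∧
      ∀ y ∈ HB (xc n p p) r, ∀ j, pd j s y =
        -(A.form ((xc n p).symm y) (coordVec (𝓡∂ n) p ((xc n p).symm y) j) * s y) := by
    intro p
    set c := xc n p p with hc
    have hct : c ∈ tg n p := mem_extChartAt_target p
    obtain ⟨r, hr, hrD⟩ : ∃ r > 0, HB c r ⊆ tg n p := by
      obtain ⟨O, hO, hOe⟩ := hrel p
      rw [hOe] at hct
      obtain ⟨r, hr, hrO⟩ := Metric.isOpen_iff.1 hO c hct.1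
      exact ⟨r, hr, by rw [hOe]; exact inter_subset_inter_left _ hrO⟩
    have hint : ∀ y ∈ HB c r ∩ {x | 0 < x 0}, (xc n p).symm y ∈ Mi n M := by
      rintro y ⟨hy, hy0⟩
      by_contra hcon
      have h1 : (xc n p).symm y ∈ (𝓡∂ n).boundary M := by
        rw [← ModelWithCorners.compl_interior]
        exact hcon
      rw [m5_boundary_iff p _ ((xc n p).map_target (hrD hy)), (xc n p).right_inv (hrD hy)] at h1
      exact (show 0 < y 0 from hy0).ne' h1
    have hB : ∀ j, ContDiffOn ℝ ∞ (fun y =>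
        A.form ((xc n p).symm y) (coordVec (𝓡∂ n) p ((xc n p).symm y) j)) (HB c r) := by
      intro j
      rw [← contMDiffOn_iff_contDiffOn]
      exact (A.smooth p j).comp ((contMDiffOn_extChartAt_symm p).mono hrD)
        fun y hy => (xc n p).map_target (hrD hy)
    have hs : ContDiffOn ℝ ∞ (lu (𝓡∂ n) p S) (HB c r ∩ {x | 0 < x 0}) := by
      rw [← contMDiffOn_iff_contDiffOn]
      exact hS.comp ((contMDiffOn_extChartAt_symm p).mono fun y hy => hrD hy.1) hint
    obtain ⟨s, hs1, hs2, hs3⟩ := m5_gen c r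
      (fun j y => A.form ((xc n p).symm y) (coordVec (𝓡∂ n) p ((xc n p).symm y) j))
      (lu (𝓡∂ n) p S) hB hs (fun y hy => m5_norm_le (hU _ (hint y hy))) (by
        intro y hy j
        have hyt : y ∈ tg n p := hrD hy.1
        have hm : (xc n p).symm y ∈ (xc n p).source := (xc n p).map_target hyt
        have hmI := hint y hy
        have hfm : MDifferentiableAt (𝓡∂ n) 𝓘(ℝ, EndF N) S ((xc n p).symm y) :=
          (hS.contMDiffAt (hIo.mem_nhds hmI)).mdifferentiableAt (by simp)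
        have h3 := dmap_cc (𝓡∂ n) hm hfm (ev j)
        rw [(xc n p).right_inv hyt, cChart_range] at h3
        show fderivWithin ℝ (lu (𝓡∂ n) p S) (Hs n) y (ev j) = _
        rw [← h3]
        exact eq_neg_of_add_eq_zero_left (he _ hmI _))
    refine ⟨r, s, hr, hrD, hs1, fun x hx hxr hxI => ?_, hs3⟩
    have hx0 : 0 < xc n p x 0 := by
      have h1 : 0 ≤ xc n p x 0 := hxr.2
      refine lt_of_le_of_ne h1 fun h2 => ?_
      have h3 : x ∈ (𝓡∂ n).boundary M := (m5_boundary_iff p x hx).2 h2.symm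
      rw [← ModelWithCorners.compl_interior] at h3
      exact h3 hxI
    rw [hs2 _ ⟨hxr, hx0⟩]
    unfold lu
    rw [(xc n p).left_inv hx]
  -- the extension
  set S' : M → EndF N := extendFrom (Mi n M) S with hS'
  have hext : ∀ x ∈ Mi n M, S' x = S x := extendFrom_extends hS.continuousOn
  have hnear : ∀ (p : M) (r : ℝ) (s : E n → EndF N), 0 < r → HB (xc n p p) r ⊆ tg n p →
      ContDiffOn ℝ ∞ s (HB (xc n p p) r) →
      (∀ x ∈ (xc n p).source, xc n p x ∈ HB (xc n p p) r → x ∈ Mi n M → S x = s (xc n p x)) →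
      ∀ x ∈ (xc n p).source, xc n p x ∈ HB (xc n p p) r → S' x = s (xc n p x) := by
    intro p r s hr hrD hs1 hs2 x hx hxr
    refine extendFrom_eq (hIcl x) ?_
    have hO : IsOpen ((xc n p).source ∩ xc n p ⁻¹' Metric.ball (xc n p p) r) :=
      (continuousOn_extChartAt p).isOpen_inter_preimage (isOpen_extChartAt_source p)
        Metric.isOpen_ball
    have hOx : (xc n p).source ∩ xc n p ⁻¹' Metric.ball (xc n p p) r ∈ 𝓝 x :=
      hO.mem_nhds ⟨hx, hxr.1⟩
    have h1 : Tendsto (fun y => s (xc n p y)) (𝓝 x) (𝓝 (s (xc n p x))) := by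
      have h2 : Tendsto s (𝓝[HB (xc n p p) r] (xc n p x)) (𝓝 (s (xc n p x))) :=
        hs1.continuousOn _ hxr
      refine h2.comp (tendsto_nhdsWithin_iff.2 ⟨continuousAt_extChartAt' hx, ?_⟩)
      filter_upwards [hOx] with y hy
      exact ⟨hy.2, (hrel p).subset ((xc n p).map_source hy.1)⟩
    refine (h1.mono_left nhdsWithin_le_nhds).congr' ?_
    filter_upwards [mem_nhdsWithin_of_mem_nhds hOx, self_mem_nhdsWithin] with y hy hyI
    exact (hs2 y hy.1 ⟨hy.2, (hrel p).subset ((xc n p).map_source hy.1)⟩ hyI).symm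
  have hsm : ∀ p : M, ContMDiffAt (𝓡∂ n) 𝓘(ℝ, EndF N) ∞ S' p := by
    intro p
    obtain ⟨r, s, hr, hrD, hs1, hs2, -⟩ := key p
    have h1 := hnear p r s hr hrD hs1 hs2
    have hO : IsOpen ((xc n p).source ∩ xc n p ⁻¹' Metric.ball (xc n p p) r) :=
      (continuousOn_extChartAt p).isOpen_inter_preimage (isOpen_extChartAt_source p)
        Metric.isOpen_ball
    have hOp : (xc n p).source ∩ xc n p ⁻¹' Metric.ball (xc n p p) r ∈ 𝓝 p :=
      hO.mem_nhds ⟨mem_extChartAt_source p, Metric.mem_ball_self hr⟩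
    have hmaps : MapsTo (xc n p) ((xc n p).source ∩ xc n p ⁻¹' Metric.ball (xc n p p) r)
        (HB (xc n p p) r) := fun y hy => ⟨hy.2, (hrel p).subset ((xc n p).map_source hy.1)⟩
    have h2 : ContMDiffOn (𝓡∂ n) 𝓘(ℝ, EndF N) ∞ (fun x => s (xc n p x))
        ((xc n p).source ∩ xc n p ⁻¹' Metric.ball (xc n p p) r) := by
      have h3 : ContMDiffOn 𝓘(ℝ, E n) 𝓘(ℝ, EndF N) ∞ s (HB (xc n p p) r) :=
        contMDiffOn_iff_contDiffOn.2 hs1
      have h4 : ContMDiffOn (𝓡∂ n) 𝓘(ℝ, E n) ∞ (xc n p) (xc n p).source := by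
        have := contMDiffOn_extChartAt (I := 𝓡∂ n) (n := ∞) (x := p)
        rwa [← extChartAt_source (𝓡∂ n)] at this
      exact h3.comp (h4.mono inter_subset_left) hmaps
    refine (h2.contMDiffAt hOp).congr_of_eventuallyEq ?_
    filter_upwards [hOp] with y hy
    exact h1 y hy.1 (hmaps hy)
  have hcont : Continuous S' := continuous_iff_continuousAt.2 fun p => (hsm p).continuousAt
  refine ⟨S', ⟨fun p => hsm p, fun x => ?_⟩, hext, fun x X => ?_⟩
  · have hcl : IsClosed {y : M | ContinuousLinearMap.adjoint (S' y) * S' y = 1} := by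
      have h1 : Continuous fun y : M => mulL (adjRE (S' y)) (S' y) :=
        adjmul_smooth.continuous.comp hcont
      exact isClosed_eq h1 continuous_const
    have h2 : closure (Mi n M) ⊆ {y : M | ContinuousLinearMap.adjoint (S' y) * S' y = 1} :=
      closure_minimal (fun y hy => by
        show ContinuousLinearMap.adjoint (S' y) * S' y = 1
        rw [hext y hy]
        exact (hU y hy).1) hcl
    exact unit_of_left (h2 (hIcl x))
  · obtain ⟨r, s, hr, hrD, hs1, hs2, hs3⟩ := key x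
    have h1 := hnear x r s hr hrD hs1 hs2
    have hxs : x ∈ (xc n x).source := mem_extChartAt_source x
    have hcr : xc n x x ∈ HB (xc n x x) r :=
      ⟨Metric.mem_ball_self hr, (hrel x).subset ((xc n x).map_source hxs)⟩
    have hlus : EqOn (lu (𝓡∂ n) x S') s (HB (xc n x x) r) := by
      intro y hy
      have h2 := h1 ((xc n x).symm y) ((xc n x).map_target (hrD hy))
        (by rw [(xc n x).right_inv (hrD hy)]; exact hy)
      rw [(xc n x).right_inv (hrD hy)] at h2
      exact h2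
    have hfm : MDifferentiableAt (𝓡∂ n) 𝓘(ℝ, EndF N) S' x := (hsm x).mdifferentiableAt (by simp)
    have h3' := dmap_cc (𝓡∂ n) hxs hfm X
    rw [cChart_range] at h3'
    have h3 : dmap (𝓡∂ n) S' x X = fderivWithin ℝ (lu (𝓡∂ n) x S') (Hs n) (xc n x x) X :=
      (congrArg (dmap (𝓡∂ n) S' x) (cc_self (𝓡∂ n) x X)).symm.trans h3'
    have h5 : ∀ i, pd i s (xc n x x) = -(A.form x (ev i) * S' x) := by
      intro i
      have h6 := hs3 (xc n x x) hcr i
      rw [(xc n x).left_inv hxs] at h6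
      have h7 : coordVec (𝓡∂ n) x x i = (ev i : E n) := cc_self (𝓡∂ n) x (ev i)
      rw [h6, ← h1 x hxs hcr, h7]
    have h8 : ∀ Y : E n, fderivWithin ℝ (lu (𝓡∂ n) x S') (Hs n) (xc n x x) Y =
        -(A.form x Y * S' x) := by
      intro Y
      rw [fderivWithin_eq_sum]
      have h6 : A.form x Y = ∑ i, Y i • A.form x (ev i) := by
        have h9 := congrArg (A.form x) (en_expand Y)
        refine h9.trans ((map_sum (A.form x) _ _).trans ?_)
        exact Finset.sum_congr rfl fun i _ => (A.form x).map_smul (Y i) (ev i)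
      rw [h6, Finset.sum_mul, ← Finset.sum_neg_distrib]
      refine Finset.sum_congr rfl fun i _ => ?_
      rw [(relOpen_HB (xc n x x) r).pd_congr hlus hcr i, h5 i, smul_neg, smul_mul_assoc]
    have h9 : dmap (𝓡∂ n) S' x X = -(A.form x X * S' x) := h3.trans (h8 X)
    show dmap (𝓡∂ n) S' x X + A.form x X * S' x = 0
    rw [h9]
    exact neg_add_cancel _

end glob

end Vale.Agent.P088.EYM.O

end
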