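import Vale.Agent.P088.H5.Spec

/-!
# P088, Theorem M, block M6: comparison of the energies for ordered conductivities
-/

open Bundle Manifold MeasureTheory Set Filter Topology
open scoped ContDiff Matrix ENNReal

noncomputable section

namespace Vale.Agent.P088.EYM.O

open Vale.Agent.P088 Vale.Agent.P088.EYM

universe u

/-- A positive semidefinite real matrix whose form vanishes on `Z` kills `Z`. -/
theorem psd_zero {n : ℕ} {V : Type*} [NormedAddCommGroup V] [InnerProductSpace ℂ V]
    {K : Matrix (Fin n) (Fin n) ℝ} (hK : K.PosSemidef) (Z : Fin n → V)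
    (h : ∑ i, ∑ j, K i j • (inner ℂ (Z i) (Z j) : ℂ).re = 0) (i : Fin n) :
    ∑ j, ((K i j : ℝ) : ℂ) • Z j = 0 := by
  obtain ⟨B, hB⟩ := exists_conj hK
  rw [hB, psd_formula] at h
  have h1 : ∀ k, ∑ i, B k i • Z i = 0 := by
    intro k
    have := (Finset.sum_eq_zero_iff_of_nonneg fun k _ => by positivity).1 h k (Finset.mem_univ k)
    exact norm_eq_zero.1 (pow_eq_zero_iff (two_ne_zero) |>.1 this)
  have h2 : ∑ j, ((K i j : ℝ) : ℂ) • Z j = ∑ k, B k i • ∑ j, B k j • Z j := by
    simp only [Finset.smul_sum]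
    rw [Finset.sum_comm]
    refine Finset.sum_congr rfl fun j _ => ?_
    rw [hB]
    simp only [Matrix.mul_apply, Matrix.conjTranspose_apply, star_trivial, smul_smul,
      ← Finset.sum_smul]
    rw [Complex.coe_smul]
  rw [h2]
  simp [h1]

section

variable {n N : ℕ} [NeZero n] {M : Type u} [TopologicalSpace M]
  [ChartedSpace (EuclideanHalfSpace n) M] [IsManifold (𝓡∂ n) ∞ M]

/-- `√det g_Q / √det g_P`. -/
def rho (gP gQ : Metric (𝓡∂ n) M) (x : M) : ℝ :=
  √(gram gQ x x).det / √(gram gP x x).det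

theorem sqrt_det_gram (g : Metric (𝓡∂ n) M) (p x : M) :
    √(gram g p x).det = |(mat (cc (𝓡∂ n) p x)).det| * √(gram g x x).det := by
  rw [gram_eq, Matrix.det_mul, Matrix.det_mul, Matrix.det_transpose,
    mul_right_comm, Real.sqrt_mul (mul_self_nonneg _), Real.sqrt_mul_self_eq_abs]

theorem rho_eq (gP gQ : Metric (𝓡∂ n) M) {p x : M} (hx : x ∈ (xc n p).source) :
    rho gP gQ x = √(gram gQ p x).det / √(gram gP p x).det := by
  have h1 := Real.sqrt_pos.2 (gram_det_pos gP hx)
  rw [sqrt_det_gram gP p x] at h1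
  have h2 : |(mat (cc (𝓡∂ n) p x)).det| ≠ 0 := by
    intro h
    rw [h, zero_mul] at h1
    exact lt_irrefl _ h1
  rw [sqrt_det_gram gP p x, sqrt_det_gram gQ p x, mul_div_mul_left _ _ h2]
  rfl

theorem rho_pos (gP gQ : Metric (𝓡∂ n) M) (x : M) : 0 < rho gP gQ x :=
  div_pos (Real.sqrt_pos.2 (gram_det_pos gQ (mem_extChartAt_source x)))
    (Real.sqrt_pos.2 (gram_det_pos gP (mem_extChartAt_source x)))

theorem continuous_rho (gP gQ : Metric (𝓡∂ n) M) : Continuous (rho gP gQ) := by
  rw [continuous_iff_continuousAt]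
  intro p
  have h : ContinuousOn (rho gP gQ) (xc n p).source := by
    have h1 := contMDiffOn_comp_chart (I := 𝓡∂ n) (contDiffOn_dens gP p)
    have h2 := contMDiffOn_comp_chart (I := 𝓡∂ n) (contDiffOn_dens gQ p)
    refine (h2.continuousOn.div h1.continuousOn ?_).congr ?_
    · intro x hx
      exact (dens_pos gP ((xc n p).map_source hx)).ne'
    · intro x hx
      rw [rho_eq gP gQ hx]
      simp only [dens, Pi.div_apply]
      rw [(extChartAt (𝓡∂ n) p).left_inv hx]
  exact h.continuousAt (extChartAt_source_mem_nhds p)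

variable [MeasurableSpace M] [BorelSpace M]

theorem withDensity_rho [CompactSpace M] (P Q : One n N M) :
    Q.μ = P.μ.withDensity (fun x => ENNReal.ofReal (rho P.g Q.g x)) := by
  have hf : Measurable (fun x => ENNReal.ofReal (rho P.g Q.g x)) :=
    (continuous_rho P.g Q.g).measurable.ennreal_ofReal
  obtain ⟨t, ht⟩ := isCompact_univ.elim_finite_subcover (fun p : M => (xc n p).source)
    (fun p => isOpen_extChartAt_source p) (fun x _ => mem_iUnion.2 ⟨x, mem_extChartAt_source x⟩)
  have hcov : ⋃ p : t, (xc n (p : M)).source = univ := by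
    refine eq_univ_of_univ_subset (ht.trans ?_)
    intro x hx
    simp only [mem_iUnion] at hx ⊢
    obtain ⟨p, hp, hx⟩ := hx
    exact ⟨⟨p, hp⟩, hx⟩
  refine Measure.ext_of_iUnion_eq_univ hcov ?_
  rintro ⟨p, -⟩
  simp only
  have hs : MeasurableSet (xc n p).source := (isOpen_extChartAt_source p).measurableSet
  have hsymm : AEMeasurable (extChartAt (𝓡∂ n) p).symm
      (volume.restrict (extChartAt (𝓡∂ n) p).target) :=
    (continuousOn_extChartAt_symm p).aemeasurable (measurableSet_target p)
  ext s hsm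
  have hg : AEMeasurable (fun y => s.indicator (fun x => ENNReal.ofReal (rho P.g Q.g x))
      ((extChartAt (𝓡∂ n) p).symm y)) (volume.restrict (extChartAt (𝓡∂ n) p).target) :=
    (hf.indicator hsm).comp_aemeasurable hsymm
  rw [restrict_withDensity hs, withDensity_apply _ hsm, restrict_source_eq P.hμ p,
    restrict_source_eq Q.hμ p,
    Measure.map_apply_of_aemeasurable (hsymm.mono_ac (withDensity_absolutelyContinuous _ _)) hsm,
    ← lintegral_indicator hsm, lintegral_map' ((hf.indicator hsm).aemeasurable)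
      (hsymm.mono_ac (withDensity_absolutelyContinuous _ _)), withDensity_apply',
    lintegral_withDensity_eq_lintegral_mul₀
      (((contDiffOn_dens P.g p).continuousOn.aemeasurable (measurableSet_target p)).ennreal_ofReal)
      hg]
  have hms : NullMeasurableSet ((extChartAt (𝓡∂ n) p).symm ⁻¹' s)
      (volume.restrict (extChartAt (𝓡∂ n) p).target) :=
    AEMeasurable.nullMeasurable hsymm hsm
  rw [← lintegral_indicator₀ hms]
  refine setLIntegral_congr_fun (measurableSet_target p) ?_
  intro y hy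
  simp only [Pi.mul_apply]
  by_cases hys : (extChartAt (𝓡∂ n) p).symm y ∈ s
  · rw [indicator_of_mem (show y ∈ (extChartAt (𝓡∂ n) p).symm ⁻¹' s from hys),
      indicator_of_mem hys, rho_eq P.g Q.g ((xc n p).map_target hy),
      ← ENNReal.ofReal_mul (dens_pos P.g hy).le]
    congr 1
    have := (dens_pos P.g hy).ne'
    unfold dens at this ⊢
    field_simp
  · rw [indicator_of_notMem (show y ∉ (extChartAt (𝓡∂ n) p).symm ⁻¹' s from hys),
      indicator_of_notMem hys, mul_zero]

theorem re_energy [T2Space M] [CompactSpace M] (P : One n N M) (A : Connection (𝓡∂ n) N M)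
    {u : M → Fib N} (hu : SmS n u) :
    (energy P.g P.μ A u u).re = ∫ x, (pairing P.g A u u x).re ∂P.μ := by
  haveI : IsFiniteMeasure P.μ := ⟨measure_univ_lt_top P.hμ⟩
  have hi : Integrable (pairing P.g A u u) P.μ :=
    CEnergy_integrable P (continuous_pairing P.g A hu hu)
  unfold energy
  exact (integral_re (𝕜 := ℂ) hi).symm

theorem re_pairing (g : Metric (𝓡∂ n) M) (A : Connection (𝓡∂ n) N M) (u : M → Fib N) (x : M) :
    √(gram g x x).det * (pairing g A u u x).re = ∑ i, ∑ j, sig g x i j •
      (inner ℂ (cov A u x (coordVec (𝓡∂ n) x x i)) (cov A u x (coordVec (𝓡∂ n) x x j)) : ℂ).re := by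
  unfold pairing sig
  rw [Complex.re_sum, Finset.mul_sum]
  refine Finset.sum_congr rfl fun i _ => ?_
  rw [Complex.re_sum, Finset.mul_sum]
  refine Finset.sum_congr rfl fun j _ => ?_
  rw [Complex.re_ofReal_mul, Matrix.smul_apply, smul_eq_mul, smul_eq_mul]
  ring

/-- The difference of the two densities (relative to `P.μ`). -/
theorem diff_eq (P Q : One n N M) (A : Connection (𝓡∂ n) N M) (u : M → Fib N) (x : M) :
    rho P.g Q.g x * (pairing Q.g A u u x).re - (pairing P.g A u u x).re =
      (√(gram P.g x x).det)⁻¹ * ∑ i, ∑ j, (sig Q.g x - sig P.g x) i j •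
      (inner ℂ (cov A u x (coordVec (𝓡∂ n) x x i)) (cov A u x (coordVec (𝓡∂ n) x x j)) : ℂ).re := by
  have h0 := (Real.sqrt_pos.2 (gram_det_pos P.g (mem_extChartAt_source (I := 𝓡∂ n) x))).ne'
  have h1 := re_pairing P.g A u x
  have h2 := re_pairing Q.g A u x
  have h3 : ∑ i, ∑ j, (sig Q.g x - sig P.g x) i j •
      (inner ℂ (cov A u x (coordVec (𝓡∂ n) x x i)) (cov A u x (coordVec (𝓡∂ n) x x j)) : ℂ).re =
      √(gram Q.g x x).det * (pairing Q.g A u u x).re -
        √(gram P.g x x).det * (pairing P.g A u u x).re := by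
    rw [h1, h2, ← Finset.sum_sub_distrib]
    refine Finset.sum_congr rfl fun i _ => ?_
    rw [← Finset.sum_sub_distrib]
    refine Finset.sum_congr rfl fun j _ => ?_
    rw [Matrix.sub_apply, sub_smul]
  rw [h3]
  unfold rho
  field_simp

end

/-- (M6) -/
theorem m6 : M6_statement.{u} := by
  intro n N _ M _ _ _ _ _ _ _ _ P Q u hsig hu
  haveI : IsFiniteMeasure P.μ := ⟨measure_univ_lt_top P.hμ⟩
  haveI : P.μ.IsOpenPosMeasure := ⟨fun U hU hne => (measure_pos_of_isOpen P.hμ hU hne).ne'⟩
  have hrc := continuous_rho P.g Q.g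
  have hpP : Continuous fun x => (pairing P.g Q.A u u x).re :=
    Complex.continuous_re.comp (continuous_pairing P.g Q.A hu hu)
  have hpQ : Continuous fun x => (pairing Q.g Q.A u u x).re :=
    Complex.continuous_re.comp (continuous_pairing Q.g Q.A hu hu)
  have hint : ∀ {f : M → ℝ}, Continuous f → Integrable f P.μ := fun hf =>
    hf.integrable_of_hasCompactSupport (HasCompactSupport.of_compactSpace _)
  have hEP := re_energy P Q.A hu
  have hEQ : (Q.E u u).re = ∫ x, rho P.g Q.g x * (pairing Q.g Q.A u u x).re ∂P.μ := by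
    have h1 := re_energy Q Q.A hu
    unfold One.E
    rw [h1, withDensity_rho P Q, integral_withDensity_eq_integral_toReal_smul₀]
    · refine integral_congr_ae (Eventually.of_forall fun x => ?_)
      simp only [smul_eq_mul]
      rw [ENNReal.toReal_ofReal (rho_pos P.g Q.g x).le]
    · exact hrc.measurable.ennreal_ofReal.aemeasurable
    · exact Eventually.of_forall fun x => ENNReal.ofReal_lt_top
  have hD0 : ∀ x, 0 ≤ rho P.g Q.g x * (pairing Q.g Q.A u u x).re - (pairing P.g Q.A u u x).re := by
    intro x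
    rw [diff_eq]
    exact mul_nonneg (inv_nonneg.2 (Real.sqrt_nonneg _)) (psd_nonneg (hsig x) _)
  have hsub : (Q.E u u).re - (energy P.g P.μ Q.A u u).re =
      ∫ x, (rho P.g Q.g x * (pairing Q.g Q.A u u x).re - (pairing P.g Q.A u u x).re) ∂P.μ := by
    have h1 : Integrable (fun x => rho P.g Q.g x * (pairing Q.g Q.A u u x).re) P.μ :=
      hint (hrc.mul hpQ)
    rw [hEQ, hEP, integral_sub h1 (hint hpP)]
  have hnn : 0 ≤ (Q.E u u).re - (energy P.g P.μ Q.A u u).re := by
    rw [hsub]
    exact integral_nonneg hD0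
  refine ⟨by linarith, fun hle x i => ?_⟩
  have h0 : ∫ x, (rho P.g Q.g x * (pairing Q.g Q.A u u x).re - (pairing P.g Q.A u u x).re) ∂P.μ
      = 0 := by
    rw [← hsub]
    linarith
  have hDc : Continuous fun x =>
      rho P.g Q.g x * (pairing Q.g Q.A u u x).re - (pairing P.g Q.A u u x).re :=
    (hrc.mul hpQ).sub hpP
  have hae := (integral_eq_zero_iff_of_nonneg hD0 (hint hDc)).1 h0
  have hall := (Continuous.ae_eq_iff_eq P.μ hDc continuous_zero).1 hae
  have hx := congrFun hall x
  simp only [Pi.zero_apply] at hx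
  rw [diff_eq] at hx
  have hpos := inv_ne_zero
    (Real.sqrt_pos.2 (gram_det_pos P.g (mem_extChartAt_source (I := 𝓡∂ n) x))).ne'
  have hz := (mul_eq_zero.1 hx).resolve_left hpos
  exact psd_zero (hsig x) _ hz i

end Vale.Agent.P088.EYM.O

end
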