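import Vale.Agent.P088.H5.Spec
import Vale.Agent.P088.TM.H275BC

/-!
# P088, Theorem M: block M7 (the global strong maximum principle)
-/

set_option linter.all false

open Bundle Manifold MeasureTheory Set Filter Topology
open scoped ContDiff Matrix

noncomputable section

namespace Vale.Agent.P088.EYM.O

open Vale.Agent.P088 Vale.Agent.P088.EYM Vale.Agent.P088.TM

universe u

/-- (M7) from the local form and the scalar harmonic extensions. -/
theorem m7 (h : M7L_statement) (h0 : M0a_statement.{u}) : M7_statement.{u} := by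
  intro n N _ M _ _ _ _ _ _ _ _ P w hw hw0 hne
  obtain ⟨hIo, hIc, hIcl⟩ := fConn n M
  obtain ⟨hrel, hOk, hbd, -⟩ := fLoc n 1 M
  set P0 : One n 1 M := ⟨P.g, P.μ, zeroConn (𝓡∂ n) 1 M, P.hμ⟩ with hP0
  have hA : ∀ x X, P0.A.form x X = 0 := fun _ _ => rfl
  have hw' : Wk P0 w := ⟨hw.sm, hw.weak⟩
  set v : Fib 1 := EuclideanSpace.single 0 1 with hv
  have hv0 : v ≠ 0 := by
    intro hv1
    have h2 := congrArg (fun z : Fib 1 => z 0) hv1
    simp [hv] at h2
  set T : ℝ →L[ℝ] Fib 1 := (ContinuousLinearMap.id ℝ ℝ).smulRight v with hT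
  have hTa : ∀ t : ℝ, T t = (t : ℂ) • v := fun t => by simp [hT]
  have hTinj : ∀ t : ℝ, T t = 0 → t = 0 := by
    intro t ht
    rw [hTa] at ht
    rcases smul_eq_zero.1 ht with h1 | h1
    · exact_mod_cast h1
    · exact absurd h1 hv0
  have hH := h0 n 1 M P0 w v hA hw'
  have hloc : ∀ z ∈ Mi n M, w z = 0 → ∀ᶠ x in 𝓝 z, w x = 0 := by
    intro z hz hwz
    have hS := fHarm n 1 M P0 _ _ hH z
    set f : E n → ℝ := lu (𝓡∂ n) z w with hf
    have hc : lu (𝓡∂ n) z (fun x => (w x : ℂ) • v) = fun y => T (f y) := by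
      funext y
      rw [hTa]
      rfl
    rw [hc] at hS
    have hD := hrel z
    have hok := hOk P0 z
    have hfs : ContDiffOn ℝ ∞ f (tg n z) := by
      have h1 : ContMDiffOn 𝓘(ℝ, E n) 𝓘(ℝ, ℝ) ∞ (w ∘ (xc n z).symm) (tg n z) :=
        ContMDiff.comp_contMDiffOn hw.sm (contMDiffOn_extChartAt_symm z)
      exact contMDiffOn_iff_contDiffOn.1 h1
    have hgs : ∀ j k, ContDiffOn ℝ ∞ (gg (P0.loc z).g j k) (tg n z) :=
      hD.gg_smooth hok.g_smooth hok.g_pos
    have hB : ∀ j y, (P0.loc z).B j y = 0 := fun _ _ => rfl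
    have hnab : ∀ k, ∀ y ∈ tg n z, nab (P0.loc z) k (fun y => T (f y)) y = T (pd k f y) := by
      intro k y hy
      unfold nab
      rw [hB, hD.pd_clm T hfs hy k]
      simp
    have hflux : ∀ j, EqOn (flux (P0.loc z) j (fun y => T (f y)))
        (fun y => T (∑ k, gg (P0.loc z).g j k y * pd k f y)) (tg n z) := by
      intro j y hy
      unfold flux
      simp only [map_sum]
      refine Finset.sum_congr rfl fun k _ => ?_
      rw [hnab k y hy, ← smul_eq_mul, map_smul]
    have hL : ∀ x ∈ tg n z,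
        ∑ j, ∑ k, pd j (fun y => gg (P0.loc z).g j k y * pd k f y) x = 0 := by
      intro x hx
      have h1 := hS.2 x hx
      have h2 : Lop (P0.loc z) (fun y => T (f y)) x =
          T (∑ j, ∑ k, pd j (fun y => gg (P0.loc z).g j k y * pd k f y) x) := by
        unfold Lop
        rw [map_sum]
        refine Finset.sum_congr rfl fun j _ => ?_
        rw [hB, hD.pd_congr (hflux j) hx j]
        have hs : ∀ k ∈ (Finset.univ : Finset (Fin n)),
            ContDiffOn ℝ ∞ (fun y => gg (P0.loc z).g j k y * pd k f y) (tg n z) :=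
          fun k _ => (hgs j k).mul (hD.pd_smooth hfs k)
        rw [hD.pd_clm T (ContDiffOn.sum hs) hx j, hD.pd_sum Finset.univ hs hx j]
        simp
      rw [h2] at h1
      exact hTinj _ h1
    have hDo : IsOpen (tg n z ∩ {x : E n | 0 < x 0}) := cMatch_isOpen hD
    have hzs : z ∈ (xc n z).source := mem_extChartAt_source z
    have hzt : xc n z z ∈ tg n z := (xc n z).map_source hzs
    have hz0 : 0 < xc n z z 0 := by
      have h1 : 0 ≤ xc n z z 0 := hD.subset hzt
      refine lt_of_le_of_ne h1 fun h2 => ?_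
      have h3 := (hbd z z hzs).2 h2.symm
      rw [← ModelWithCorners.compl_interior] at h3
      exact h3 hz
    have hg : GOk (tg n z ∩ {x : E n | 0 < x 0}) (P0.loc z).g :=
      ⟨fun j k => (hok.g_smooth j k).mono inter_subset_left,
        fun x hx j k => by
          have h1 := (hok.g_pos x hx.1).isHermitian
          have h2 := congrFun (congrFun h1 k) j
          simpa using h2,
        fun x hx => hok.g_pos x hx.1⟩
    have key := h n _ (P0.loc z).g f hDo inter_subset_right hg (hfs.mono inter_subset_left)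
      (fun x hx => hL x hx.1) (fun x _ => hw0 _) (xc n z z) ⟨hzt, hz0⟩ (by
        rw [hf]
        show w ((xc n z).symm (xc n z z)) = 0
        rw [(xc n z).left_inv hzs, hwz])
    filter_upwards [(continuousAt_extChartAt (I := 𝓡∂ n) z).eventually key,
      (isOpen_extChartAt_source (I := 𝓡∂ n) z).mem_nhds hzs] with y hy hys
    have h1 : w ((xc n z).symm (xc n z y)) = 0 := hy
    rwa [(xc n z).left_inv hys] at h1
  intro x hx
  refine lt_of_le_of_ne (hw0 x) fun hx0 => ?_
  have hU : IsOpen {z | z ∈ Mi n M ∧ w z = 0} := by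
    rw [isOpen_iff_mem_nhds]
    rintro z ⟨hz, hzx⟩
    filter_upwards [hloc z hz hzx, hIo.mem_nhds hz] with t ht htI
    exact ⟨htI, ht⟩
  have hcont : Continuous w := hw.sm.continuous
  have hV : IsOpen {z | z ∈ Mi n M ∧ w z ≠ 0} :=
    hIo.inter (isOpen_ne_fun hcont continuous_const)
  have hall : ∀ y ∈ Mi n M, w y = 0 := by
    intro y hy
    by_contra hne
    obtain ⟨z, -, ⟨-, h1⟩, -, h2⟩ := hIc _ _ hU hV
      (fun z hz => (eq_or_ne (w z) 0).imp (fun h => ⟨hz, h⟩) fun h => ⟨hz, h⟩)
      ⟨x, hx, hx, hx0.symm⟩ ⟨y, hy, hy, hne⟩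
    exact h2 h1
  obtain ⟨y, hy⟩ := hne
  have hcl : IsClosed {z | w z = 0} := isClosed_eq hcont continuous_const
  exact hy (closure_minimal (fun z hz => hall z hz) hcl (hIcl y))

end Vale.Agent.P088.EYM.O

end
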