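import Vale.Agent.P088.H5.Spec
import Mathlib.Analysis.Calculus.DerivativeTest

/-!
# P088, Theorem M: blocks M7L (local strong maximum principle) and M8
-/

set_option linter.all false

open MeasureTheory Set Filter Topology Metric
open scoped ContDiff Matrix

noncomputable section

namespace Vale.Agent.P088.EYM.O

open Vale.Agent.P088 Vale.Agent.P088.EYM

/-! ## M8 -/

theorem m8 : M8_statement := by
  intro n G₁ G₂ hn h₁ h₂ h
  have hdet : ∀ G : Matrix (Fin n) (Fin n) ℝ, G.PosDef →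
      (√G.det • G⁻¹).det = (√G.det) ^ (n - 2) := by
    intro G hG
    have hd : 0 < G.det := hG.det_pos
    have hs : 0 < √G.det := Real.sqrt_pos.2 hd
    rw [Matrix.det_smul, Fintype.card_fin, Matrix.det_nonsing_inv, Ring.inverse_eq_inv']
    have h3 : G.det = √G.det ^ 2 := (Real.sq_sqrt hd.le).symm
    rw [show (√G.det) ^ n = (√G.det) ^ (n - 2) * (√G.det) ^ 2 by
      rw [← pow_add]; congr 1; omega]
    rw [Real.sq_sqrt hd.le, mul_assoc, mul_inv_cancel₀ hd.ne', mul_one]
  have h3 : (√G₁.det) ^ (n - 2) = (√G₂.det) ^ (n - 2) := by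
    rw [← hdet G₁ h₁, ← hdet G₂ h₂, h]
  have hn2 : n - 2 ≠ 0 := by omega
  have h4 : √G₁.det = √G₂.det :=
    (pow_left_inj₀ (Real.sqrt_nonneg _) (Real.sqrt_nonneg _) hn2).1 h3
  have hs : √G₂.det ≠ 0 := (Real.sqrt_pos.2 h₂.det_pos).ne'
  rw [h4] at h
  have h5 : G₁⁻¹ = G₂⁻¹ := smul_right_injective _ hs h
  have e1 : G₁⁻¹⁻¹ = G₁ := Matrix.nonsing_inv_nonsing_inv _ (isUnit_iff_ne_zero.2 h₁.det_pos.ne')
  have e2 : G₂⁻¹⁻¹ = G₂ := Matrix.nonsing_inv_nonsing_inv _ (isUnit_iff_ne_zero.2 h₂.det_pos.ne')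
  rw [← e1, ← e2, h5]

/-! ## M7L -/

section Pure

variable {n : ℕ}

/-- second derivative test -/
theorem mp_second {v : E n → ℝ} {p : E n} (hv : ContDiffAt ℝ 2 v p) (hmin : IsLocalMin v p)
    (b : E n) : 0 ≤ fderiv ℝ (fderiv ℝ v) p b b := by
  have hd : ∀ᶠ y in 𝓝 p, DifferentiableAt ℝ v y := by
    filter_upwards [hv.eventually (by simp)] with y hy
    exact hy.differentiableAt (by simp)
  have hd2 : DifferentiableAt ℝ (fderiv ℝ v) p :=
    (hv.fderiv_right (m := 1) (by norm_num)).differentiableAt (by simp)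
  set L : ℝ → E n := fun t => p + t • b with hL
  have hL0 : L 0 = p := by simp [hL]
  have hLd : ∀ t, HasDerivAt L b t := fun t => by
    exact (((hasDerivAt_id t).smul_const b).const_add p).congr_deriv (one_smul _ _)
  have hLc : Tendsto L (𝓝 0) (𝓝 p) := by
    have := (hLd 0).continuousAt.tendsto
    rwa [hL0] at this
  set φ : ℝ → ℝ := fun t => v (L t) with hφ
  have h1 : ∀ᶠ t in 𝓝 (0 : ℝ), HasDerivAt φ (fderiv ℝ v (L t) b) t := by
    filter_upwards [hLc.eventually hd] with t ht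
    exact ht.hasFDerivAt.comp_hasDerivAt t (hLd t)
  have h2 : deriv φ =ᶠ[𝓝 0] fun t => fderiv ℝ v (L t) b := by
    filter_upwards [h1] with t ht using ht.deriv
  have h3 : HasDerivAt (fun t => fderiv ℝ v (L t) b) (fderiv ℝ (fderiv ℝ v) p b b) 0 := by
    have h4 : HasFDerivAt (fderiv ℝ v) (fderiv ℝ (fderiv ℝ v) p) (L 0) := by
      rw [hL0]; exact hd2.hasFDerivAt
    have h5 := h4.comp_hasDerivAt 0 (hLd 0)
    have h6 := h5.clm_apply (hasDerivAt_const (0 : ℝ) b)
    simpa using h6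
  have h4 : deriv (deriv φ) 0 = fderiv ℝ (fderiv ℝ v) p b b := by
    rw [h2.deriv_eq, h3.deriv]
  have hminφ : IsLocalMin φ 0 := by
    have := hLc.eventually hmin
    filter_upwards [this] with t ht
    show v (L 0) ≤ v (L t)
    rw [hL0]
    exact ht
  by_contra hneg
  push Not at hneg
  have hmax : IsLocalMax φ 0 := by
    refine isLocalMax_of_deriv_deriv_neg ?_ ?_ ?_
    · rw [h4]; exact hneg
    · exact hminφ.deriv_eq_zero
    · exact (h1.self_of_nhds).continuousAt
  have hconst : φ =ᶠ[𝓝 0] fun _ => φ 0 := by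
    filter_upwards [hminφ, hmax] with t h5 h6 using le_antisymm h6 h5
  have h5 : deriv φ =ᶠ[𝓝 0] fun _ => 0 := by
    filter_upwards [hconst.eventually_nhds] with t ht
    have : φ =ᶠ[𝓝 t] fun _ => φ 0 := ht
    rw [this.deriv_eq, deriv_const]
  have h6 : deriv (deriv φ) 0 = 0 := by rw [h5.deriv_eq, deriv_const]
  rw [h4] at h6
  linarith

open scoped MatrixOrder Matrix.Norms.L2Operator in
/-- the trace test -/
theorem mp_trace {A : Matrix (Fin n) (Fin n) ℝ} (hA : A.PosSemidef)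
    (H : E n →L[ℝ] E n →L[ℝ] ℝ) (hH : ∀ b, 0 ≤ H b b) :
    0 ≤ ∑ j, ∑ k, A j k * H (ev j) (ev k) := by
  obtain ⟨B, rfl⟩ := CStarAlgebra.nonneg_iff_eq_star_mul_self.mp hA.nonneg
  have h1 : ∑ j, ∑ k, (star B * B) j k * H (ev j) (ev k) =
      ∑ l, H (∑ j, B l j • ev j) (∑ k, B l k • ev k) := by
    have h2 : ∀ l, H (∑ j, B l j • ev j) (∑ k, B l k • ev k) =
        ∑ j, ∑ k, B l j * B l k * H (ev j) (ev k) := by
      intro l
      calc H (∑ j, B l j • ev j) (∑ k, B l k • ev k)
          = (∑ j, B l j • H (ev j)) (∑ k, B l k • ev k) := by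
            congr 1
            rw [map_sum]
            exact Finset.sum_congr rfl fun j _ => map_smul _ _ _
        _ = ∑ j, B l j * H (ev j) (∑ k, B l k • ev k) := by
            rw [ContinuousLinearMap.sum_apply]
            rfl
        _ = ∑ j, B l j * ∑ k, B l k * H (ev j) (ev k) := by
            refine Finset.sum_congr rfl fun j _ => ?_
            rw [map_sum]
            congr 1
            exact Finset.sum_congr rfl fun k _ => map_smul _ _ _
        _ = ∑ j, ∑ k, B l j * B l k * H (ev j) (ev k) := by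
            simp only [Finset.mul_sum, mul_assoc]
    simp only [h2]
    symm
    rw [Finset.sum_comm]
    refine Finset.sum_congr rfl fun j _ => ?_
    rw [Finset.sum_comm]
    refine Finset.sum_congr rfl fun k _ => ?_
    rw [Matrix.mul_apply, Finset.sum_mul]
    refine Finset.sum_congr rfl fun l _ => ?_
    rw [Matrix.star_apply, star_trivial]
  rw [h1]
  exact Finset.sum_nonneg fun l _ => hH _

/-- the operator `∑ ∂_j (a_jk ∂_k f)` -/
def mpL (a : Fin n → Fin n → E n → ℝ) (f : E n → ℝ) (x : E n) : ℝ :=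
  ∑ j, ∑ k, fderiv ℝ (fun y => a j k y * fderiv ℝ f y (ev k)) x (ev j)

theorem mpL_expand {a : Fin n → Fin n → E n → ℝ} {f : E n → ℝ} {x : E n}
    (ha : ∀ j k, ContDiffAt ℝ ∞ (a j k) x) (hf : ContDiffAt ℝ ∞ f x) :
    mpL a f x = (∑ j, ∑ k, a j k x * fderiv ℝ (fderiv ℝ f) x (ev j) (ev k)) +
      ∑ j, ∑ k, fderiv ℝ (a j k) x (ev j) * fderiv ℝ f x (ev k) := by
  unfold mpL
  rw [← Finset.sum_add_distrib]
  refine Finset.sum_congr rfl fun j _ => ?_
  rw [← Finset.sum_add_distrib]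
  refine Finset.sum_congr rfl fun k _ => ?_
  have h1 : DifferentiableAt ℝ (a j k) x := (ha j k).differentiableAt (by simp)
  have h2 : DifferentiableAt ℝ (fderiv ℝ f) x :=
    (hf.fderiv_right (m := ∞) (by simp)).differentiableAt (by simp)
  have h3 : HasFDerivAt (fun y => fderiv ℝ f y (ev k))
      ((ContinuousLinearMap.apply ℝ ℝ (ev k : E n)).comp (fderiv ℝ (fderiv ℝ f) x)) x :=
    (ContinuousLinearMap.apply ℝ ℝ (ev k : E n)).hasFDerivAt.comp x h2.hasFDerivAt
  have h4 := h1.hasFDerivAt.mul h3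
  have h5 : fderiv ℝ (fun y => a j k y * fderiv ℝ f y (ev k)) x = _ := h4.fderiv
  rw [h5]
  simp only [ContinuousLinearMap.add_apply, ContinuousLinearMap.smul_apply, smul_eq_mul,
    ContinuousLinearMap.comp_apply, ContinuousLinearMap.apply_apply]
  ring

/-- `exp (-α |x - c|²)` -/
def mpH (α : ℝ) (c : E n) (x : E n) : ℝ := Real.exp (-α * ‖x - c‖ ^ 2)

theorem mpH_smooth (α : ℝ) (c : E n) : ContDiff ℝ ∞ (mpH α c) := by
  unfold mpH
  exact (contDiff_const.mul ((contDiff_id.sub contDiff_const).norm_sq ℝ)).exp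

theorem mpH_fderiv (α : ℝ) (c : E n) (x b : E n) :
    fderiv ℝ (mpH α c) x b = -(2 * α) * mpH α c x * inner ℝ (x - c) b := by
  have h1 : HasFDerivAt (fun x : E n => x - c) (ContinuousLinearMap.id ℝ (E n)) x :=
    (hasFDerivAt_id x).sub_const c
  have h2 := (h1.norm_sq).const_mul (-α)
  have h3 := h2.exp
  have h4 : fderiv ℝ (mpH α c) x = _ := h3.fderiv
  rw [h4]
  simp only [ContinuousLinearMap.smul_apply, smul_eq_mul, ContinuousLinearMap.comp_apply,
    ContinuousLinearMap.id_apply, innerSL_apply_apply]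
  unfold mpH
  ring

theorem mpH_second (α : ℝ) (c : E n) (x b d : E n) :
    fderiv ℝ (fderiv ℝ (mpH α c)) x b d = mpH α c x *
      (4 * α ^ 2 * inner ℝ (x - c) b * inner ℝ (x - c) d - 2 * α * inner ℝ b d) := by
  have hs := mpH_smooth (n := n) α c
  have h2 : DifferentiableAt ℝ (fderiv ℝ (mpH α c)) x :=
    (hs.contDiffAt.fderiv_right (m := ∞) (by simp)).differentiableAt (by simp)
  have h3 : HasFDerivAt (fun y => fderiv ℝ (mpH α c) y d)
      ((ContinuousLinearMap.apply ℝ ℝ d).comp (fderiv ℝ (fderiv ℝ (mpH α c)) x)) x :=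
    (ContinuousLinearMap.apply ℝ ℝ d).hasFDerivAt.comp x h2.hasFDerivAt
  have h4 : (fun y => fderiv ℝ (mpH α c) y d) =
      fun y => -(2 * α) * (mpH α c y * inner ℝ (y - c) d) := by
    funext y
    rw [mpH_fderiv]
    ring
  have h5 : HasFDerivAt (fun y : E n => (inner ℝ (y - c) d : ℝ)) (innerSL ℝ d) x := by
    have h6 : (fun y : E n => (inner ℝ (y - c) d : ℝ)) = fun y => innerSL ℝ d (y - c) := by
      funext y
      rw [innerSL_apply_apply, real_inner_comm]
    rw [h6]
    have h7 : HasFDerivAt (fun x : E n => x - c) (ContinuousLinearMap.id ℝ (E n)) x :=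
      (hasFDerivAt_id x).sub_const c
    exact (innerSL ℝ d).hasFDerivAt.comp x h7
  have h6 : HasFDerivAt (mpH α c) (fderiv ℝ (mpH α c) x) x :=
    (hs.differentiable (by simp) x).hasFDerivAt
  have h7 := (h6.mul h5).const_mul (-(2 * α))
  rw [h4] at h3
  have h8 := congrArg (fun T : E n →L[ℝ] ℝ => T b) (h3.unique h7)
  simp only [ContinuousLinearMap.comp_apply, ContinuousLinearMap.apply_apply,
    ContinuousLinearMap.smul_apply, ContinuousLinearMap.add_apply, smul_eq_mul,
    innerSL_apply_apply, mpH_fderiv] at h8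
  rw [h8, real_inner_comm b d]
  ring

/-- the operator on the barrier -/
theorem mpL_barrier {a : Fin n → Fin n → E n → ℝ} {x : E n}
    (ha : ∀ j k, ContDiffAt ℝ ∞ (a j k) x) (α : ℝ) (c : E n) :
    mpL a (mpH α c) x = mpH α c x * (4 * α ^ 2 * (∑ j, ∑ k, a j k x * ((x - c) j * (x - c) k)) -
      2 * α * ((∑ j, a j j x) + ∑ j, ∑ k, fderiv ℝ (a j k) x (ev j) * (x - c) k)) := by
  have hi : ∀ k, (inner ℝ (x - c) (ev k) : ℝ) = (x - c) k := fun k => by
    rw [real_inner_comm, EuclideanSpace.inner_single_left]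
    simp
  have hij : ∀ j k : Fin n, (inner ℝ (ev j : E n) (ev k) : ℝ) = if j = k then 1 else 0 := by
    intro j k
    rw [EuclideanSpace.inner_single_left]
    simp [EuclideanSpace.single_apply]
  rw [mpL_expand ha (mpH_smooth α c).contDiffAt]
  have h1 : ∑ j, ∑ k, a j k x * fderiv ℝ (fderiv ℝ (mpH α c)) x (ev j) (ev k) =
      mpH α c x * (4 * α ^ 2 * (∑ j, ∑ k, a j k x * ((x - c) j * (x - c) k)) -
        2 * α * ∑ j, a j j x) := by
    have h2 : ∀ j, ∑ k, a j k x * fderiv ℝ (fderiv ℝ (mpH α c)) x (ev j) (ev k) =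
        mpH α c x * (4 * α ^ 2 * (∑ k, a j k x * ((x - c) j * (x - c) k)) -
          2 * α * a j j x) := by
      intro j
      have h3 : ∀ k, a j k x * fderiv ℝ (fderiv ℝ (mpH α c)) x (ev j) (ev k) =
          mpH α c x * (4 * α ^ 2) * (a j k x * ((x - c) j * (x - c) k)) -
            mpH α c x * (2 * α) * (if j = k then a j k x else 0) := by
        intro k
        rw [mpH_second, hi, hi, hij]
        split_ifs <;> ring
      simp only [h3, Finset.sum_sub_distrib, ← Finset.mul_sum, Finset.sum_ite_eq,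
        Finset.mem_univ, if_true]
      ring
    simp only [h2, ← Finset.mul_sum, Finset.sum_sub_distrib]
  have h2 : ∑ j, ∑ k, fderiv ℝ (a j k) x (ev j) * fderiv ℝ (mpH α c) x (ev k) =
      mpH α c x * (-(2 * α) * ∑ j, ∑ k, fderiv ℝ (a j k) x (ev j) * (x - c) k) := by
    simp only [Finset.mul_sum]
    refine Finset.sum_congr rfl fun j _ => Finset.sum_congr rfl fun k _ => ?_
    rw [mpH_fderiv, hi]
    ring
  rw [h1, h2]
  ring

theorem mp_quad_pos {A : Matrix (Fin n) (Fin n) ℝ} (hA : A.PosDef) {v : E n} (hv : v ≠ 0) :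
    0 < ∑ j, ∑ k, A j k * (v j * v k) := by
  have hv' : (fun i => v i) ≠ (0 : Fin n → ℝ) := by
    intro h
    apply hv
    ext i
    exact congrFun h i
  have h1 := hA.dotProduct_mulVec_pos hv'
  have h2 : star (fun i => v i) ⬝ᵥ A.mulVec (fun i => v i) = ∑ j, ∑ k, A j k * (v j * v k) := by
    simp only [dotProduct, Matrix.mulVec, Pi.star_apply, star_trivial, Finset.mul_sum]
    refine Finset.sum_congr rfl fun j _ => Finset.sum_congr rfl fun k _ => ?_
    ring
  rwa [h2] at h1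

/-- no interior touching point -/
theorem mp_hopf {D : Set (E n)} (hD : IsOpen D) {a : Fin n → Fin n → E n → ℝ}
    (ha : ∀ j k, ContDiffOn ℝ ∞ (a j k) D)
    (hpos : ∀ x ∈ D, (Matrix.of fun j k => a j k x).PosDef) {w : E n → ℝ}
    (hw : ContDiffOn ℝ ∞ w D) (hL : ∀ x ∈ D, mpL a w x = 0) (hw0 : ∀ x ∈ D, 0 ≤ w x)
    {z c : E n} (hz : z ∈ D) (hwz : w z = 0) {r : ℝ} (hr : 0 < r) (hzc : ‖z - c‖ = r)
    (hcp : ∀ x ∈ D, ‖x - c‖ ≤ r → x ≠ z → 0 < w x) : False := by
  obtain ⟨δ, hδ, hδD, hδr⟩ : ∃ δ > 0, closedBall z δ ⊆ D ∧ δ ≤ r / 2 := by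
    obtain ⟨δ, h1, h2⟩ := Metric.isOpen_iff.1 hD z hz
    refine ⟨min (δ / 2) (r / 2), lt_min (half_pos h1) (half_pos hr), ?_, min_le_right _ _⟩
    refine (closedBall_subset_ball ?_).trans h2
    exact lt_of_le_of_lt (min_le_left _ _) (half_lt_self h1)
  set K := closedBall z δ with hK
  have hKc : IsCompact K := isCompact_closedBall z δ
  have hav : ∀ j k, ∀ x ∈ K, ContDiffAt ℝ ∞ (a j k) x := fun j k x hx =>
    (ha j k).contDiffAt (hD.mem_nhds (hδD hx))
  have hwv : ∀ x ∈ K, ContDiffAt ℝ ∞ w x := fun x hx => hw.contDiffAt (hD.mem_nhds (hδD hx))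
  -- lower bound of the quadratic form
  obtain ⟨q, hq, hqK⟩ : ∃ q, 0 < q ∧ ∀ x ∈ K,
      q ≤ ∑ j, ∑ k, a j k x * ((x - c) j * (x - c) k) := by
    refine hKc.exists_forall_le' ?_ ?_
    · refine continuousOn_finset_sum _ fun j _ => continuousOn_finset_sum _ fun k _ => ?_
      have h1 : ∀ i : Fin n, Continuous fun x : E n => (x - c) i := fun i =>
        (continuous_apply i).comp ((PiLp.continuous_ofLp 2 _).comp (continuous_id.sub continuous_const))
      exact ((ha j k).continuousOn.mono hδD).mul ((h1 j).mul (h1 k)).continuousOn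
    · intro x hx
      refine mp_quad_pos (hpos x (hδD hx)) ?_
      intro h0
      have h1 : x = c := sub_eq_zero.1 h0
      rw [hK, mem_closedBall, dist_eq_norm, h1, ← norm_neg, neg_sub, hzc] at hx
      linarith
  -- upper bound of the first order term
  obtain ⟨C, hC⟩ : ∃ C, ∀ x ∈ K,
      ‖(∑ j, a j j x) + ∑ j, ∑ k, fderiv ℝ (a j k) x (ev j) * (x - c) k‖ ≤ C := by
    refine hKc.exists_bound_of_continuousOn ?_
    have h1 : ∀ i : Fin n, Continuous fun x : E n => (x - c) i := fun i =>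
      (continuous_apply i).comp ((PiLp.continuous_ofLp 2 _).comp (continuous_id.sub continuous_const))
    refine ContinuousOn.add ?_ ?_
    · exact continuousOn_finset_sum _ fun j _ => (ha j j).continuousOn.mono hδD
    · refine continuousOn_finset_sum _ fun j _ => continuousOn_finset_sum _ fun k _ => ?_
      refine ContinuousOn.mul ?_ (h1 k).continuousOn
      have h2 : ContinuousOn (fderiv ℝ (a j k)) D :=
        (ha j k).continuousOn_fderiv_of_isOpen hD (by simp)
      exact (h2.mono hδD).clm_apply continuousOn_const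
  obtain ⟨α, hα, hαq⟩ : ∃ α : ℝ, 0 < α ∧ C < 2 * α * q := by
    refine ⟨(|C| + 1) / (2 * q), by positivity, ?_⟩
    have : 2 * ((|C| + 1) / (2 * q)) * q = |C| + 1 := by field_simp
    rw [this]
    linarith [le_abs_self C]
  -- the barrier
  have hbar : ∀ x ∈ K, 0 < mpL a (mpH α c) x := by
    intro x hx
    rw [mpL_barrier (fun j k => hav j k x hx)]
    have h1 := hqK x hx
    have h2 := (abs_le.1 (hC x hx)).2
    have h3 : 0 < mpH α c x := Real.exp_pos _
    refine mul_pos h3 ?_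
    have h4 : 2 * α * ((∑ j, a j j x) + ∑ j, ∑ k, fderiv ℝ (a j k) x (ev j) * (x - c) k) ≤
        2 * α * C := mul_le_mul_of_nonneg_left h2 (by positivity)
    have h5 : 4 * α ^ 2 * q ≤ 4 * α ^ 2 * ∑ j, ∑ k, a j k x * ((x - c) j * (x - c) k) :=
      mul_le_mul_of_nonneg_left h1 (by positivity)
    have h6 : 2 * α * C < 2 * α * (2 * α * q) := mul_lt_mul_of_pos_left hαq (by positivity)
    nlinarith
  -- lower bound of `w` on the part of the sphere
  obtain ⟨m, hm, hmS⟩ : ∃ m, 0 < m ∧ ∀ x ∈ sphere z δ ∩ closedBall c r, m ≤ w x := by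
    refine ((isCompact_sphere z δ).inter_right isClosed_closedBall).exists_forall_le' ?_ ?_
    · refine hw.continuousOn.mono ?_
      exact inter_subset_left.trans (sphere_subset_closedBall.trans hδD)
    · rintro x ⟨hx1, hx2⟩
      refine hcp x (hδD (sphere_subset_closedBall hx1)) ?_ ?_
      · rwa [mem_closedBall, dist_eq_norm] at hx2
      · rintro rfl
        rw [mem_sphere, dist_self] at hx1
        linarith
  set ε := m / 2 with hε
  have hε0 : 0 < ε := half_pos hm
  set κ := Real.exp (-α * r ^ 2) with hκ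
  set v : E n → ℝ := fun x => w x - ε * (mpH α c x - κ) with hv
  have hvc : ContinuousOn v K := by
    refine (hw.continuousOn.mono hδD).sub ?_
    exact (continuous_const.mul ((mpH_smooth α c).continuous.sub continuous_const)).continuousOn
  obtain ⟨p, hpK, hpm⟩ := hKc.exists_isMinOn ⟨z, mem_closedBall_self hδ.le⟩ hvc
  have hvz : v z = 0 := by
    simp only [hv, mpH, hzc, hwz, hκ]
    ring
  have hvp : v p ≤ 0 := by
    rw [← hvz]
    exact hpm (mem_closedBall_self hδ.le)
  have hH1 : ∀ x, mpH α c x ≤ 1 := fun x => by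
    unfold mpH
    rw [Real.exp_le_one_iff]
    nlinarith [sq_nonneg ‖x - c‖]
  rcases eq_or_lt_of_le (mem_closedBall.1 hpK) with hps | hpi
  · -- on the sphere
    by_cases hpr : ‖p - c‖ ≤ r
    · have h1 := hmS p ⟨mem_sphere.2 hps, by rw [mem_closedBall, dist_eq_norm]; exact hpr⟩
      have h2 : ε * (mpH α c p - κ) ≤ ε * 1 := by
        refine mul_le_mul_of_nonneg_left ?_ hε0.le
        have := hH1 p
        have h3 : 0 < κ := Real.exp_pos _
        linarith
      simp only [hv] at hvp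
      linarith
    · push Not at hpr
      have h1 : mpH α c p < κ := by
        unfold mpH
        rw [hκ, Real.exp_lt_exp]
        have : r ^ 2 < ‖p - c‖ ^ 2 := by nlinarith
        nlinarith
      have h2 : ε * (mpH α c p - κ) < 0 := mul_neg_of_pos_of_neg hε0 (by linarith)
      have h3 := hw0 p (hδD hpK)
      simp only [hv] at hvp
      linarith
  · -- in the interior
    have hpn : K ∈ 𝓝 p := by
      refine Filter.mem_of_superset (isOpen_ball.mem_nhds (mem_ball.2 hpi)) ball_subset_closedBall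
    have hmin : IsLocalMin v p := hpm.isLocalMin hpn
    have hHc : ContDiffAt ℝ ∞ (fun x => ε * (mpH α c x - κ)) p :=
      (contDiff_const.mul ((mpH_smooth α c).sub contDiff_const)).contDiffAt
    have hvs : ContDiffAt ℝ ∞ v p := (hwv p hpK).sub hHc
    have h1 : ∀ b, 0 ≤ fderiv ℝ (fderiv ℝ v) p b b := fun b =>
      mp_second (hvs.of_le (by norm_cast)) hmin b
    have h2 := mp_trace (hpos p (hδD hpK)).posSemidef (fderiv ℝ (fderiv ℝ v) p) h1
    have h3 : fderiv ℝ v p = 0 := hmin.fderiv_eq_zero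
    have h4 : 0 ≤ mpL a v p := by
      rw [mpL_expand (fun j k => hav j k p hpK) hvs, h3]
      simpa using h2
    have h5 : mpL a v p = mpL a w p - ε * mpL a (mpH α c) p := by
      have e1 : fderiv ℝ v =ᶠ[𝓝 p] fun y => fderiv ℝ w y - ε • fderiv ℝ (mpH α c) y := by
        filter_upwards [hD.mem_nhds (hδD hpK)] with y hy
        have g1 : HasFDerivAt w (fderiv ℝ w y) y :=
          ((hw.contDiffAt (hD.mem_nhds hy)).differentiableAt (by simp)).hasFDerivAt
        have g2 : HasFDerivAt (mpH α c) (fderiv ℝ (mpH α c) y) y :=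
          ((mpH_smooth α c).differentiable (by simp) y).hasFDerivAt
        exact (g1.sub ((g2.sub_const κ).const_mul ε)).fderiv
      have e2 : fderiv ℝ (fderiv ℝ v) p =
          fderiv ℝ (fderiv ℝ w) p - ε • fderiv ℝ (fderiv ℝ (mpH α c)) p := by
        rw [e1.fderiv_eq]
        have g1 : DifferentiableAt ℝ (fderiv ℝ w) p :=
          ((hwv p hpK).fderiv_right (m := ∞) (by simp)).differentiableAt (by simp)
        have g2 : DifferentiableAt ℝ (fderiv ℝ (mpH α c)) p :=
          ((mpH_smooth α c).contDiffAt.fderiv_right (m := ∞) (by simp)).differentiableAt (by simp)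
        exact (g1.hasFDerivAt.sub (g2.hasFDerivAt.const_smul ε)).fderiv
      rw [mpL_expand (fun j k => hav j k p hpK) hvs,
        mpL_expand (fun j k => hav j k p hpK) (hwv p hpK),
        mpL_expand (fun j k => hav j k p hpK) (mpH_smooth α c).contDiffAt, e2, e1.self_of_nhds]
      simp only [ContinuousLinearMap.sub_apply, ContinuousLinearMap.smul_apply, smul_eq_mul,
        mul_sub, Finset.sum_sub_distrib, mul_add, Finset.mul_sum]
      have f1 : ∀ j k, a j k p * (ε * fderiv ℝ (fderiv ℝ (mpH α c)) p (ev j) (ev k)) =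
          ε * (a j k p * fderiv ℝ (fderiv ℝ (mpH α c)) p (ev j) (ev k)) := fun j k => by ring
      have f2 : ∀ j k, fderiv ℝ (a j k) p (ev j) * (ε * fderiv ℝ (mpH α c) p (ev k)) =
          ε * (fderiv ℝ (a j k) p (ev j) * fderiv ℝ (mpH α c) p (ev k)) := fun j k => by ring
      simp only [f1, f2]
      ring
    have h6 := hbar p hpK
    rw [h5, hL p (hδD hpK)] at h4
    have h7 := mul_pos hε0 h6
    linarith

/-- the strong maximum principle -/
theorem mp_strong {D : Set (E n)} (hD : IsOpen D) {a : Fin n → Fin n → E n → ℝ}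
    (ha : ∀ j k, ContDiffOn ℝ ∞ (a j k) D)
    (hpos : ∀ x ∈ D, (Matrix.of fun j k => a j k x).PosDef) {w : E n → ℝ}
    (hw : ContDiffOn ℝ ∞ w D) (hL : ∀ x ∈ D, mpL a w x = 0) (hw0 : ∀ x ∈ D, 0 ≤ w x)
    {z : E n} (hz : z ∈ D) (hwz : w z = 0) : ∀ᶠ x in 𝓝 z, w x = 0 := by
  by_contra hcon
  obtain ⟨ρ, hρ, hρD⟩ := Metric.isOpen_iff.1 hD z hz
  have hfr : ∃ᶠ x in 𝓝 z, ¬ w x = 0 := Filter.not_eventually.1 hcon
  obtain ⟨x₁, hx₁, hx₁b⟩ := (hfr.and_eventually (ball_mem_nhds z (half_pos hρ))).exists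
  have hd1 : dist x₁ z < ρ / 2 := hx₁b
  have hsub : closedBall x₁ (dist x₁ z) ⊆ D := by
    intro y hy
    apply hρD
    rw [mem_closedBall] at hy
    rw [mem_ball]
    calc dist y z ≤ dist y x₁ + dist x₁ z := dist_triangle _ _ _
      _ < ρ := by linarith
  set Z := closedBall x₁ (dist x₁ z) ∩ w ⁻¹' {0} with hZ
  have hZc : IsCompact Z := by
    have h1 : IsClosed Z := by
      refine ContinuousOn.preimage_isClosed_of_isClosed (hw.continuousOn.mono hsub)
        isClosed_closedBall isClosed_singleton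
    exact (isCompact_closedBall x₁ (dist x₁ z)).of_isClosed_subset h1 inter_subset_left
  have hzZ : z ∈ Z := ⟨by rw [mem_closedBall, dist_comm], hwz⟩
  obtain ⟨z₁, hz₁, hzm⟩ := hZc.exists_isMinOn ⟨z, hzZ⟩
    (continuous_id.dist continuous_const : Continuous fun x : E n => dist x x₁).continuousOn
  have hz₁D : z₁ ∈ D := hsub hz₁.1
  have hw1 : w z₁ = 0 := hz₁.2
  set R := dist z₁ x₁ with hR
  have hR0 : 0 < R := by
    refine dist_pos.2 ?_
    rintro rfl
    exact hx₁ hw1
  have hRz : R ≤ dist x₁ z := by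
    have : dist z₁ x₁ ≤ dist z x₁ := hzm hzZ
    rwa [dist_comm z x₁] at this
  have hball : ∀ x, dist x x₁ < R → 0 < w x := by
    intro x hx
    have hxb : x ∈ closedBall x₁ (dist x₁ z) := mem_closedBall.2 (hx.le.trans hRz)
    refine lt_of_le_of_ne (hw0 x (hsub hxb)) fun h0 => ?_
    have h1 : dist z₁ x₁ ≤ dist x x₁ := hzm (show x ∈ Z from ⟨hxb, h0.symm⟩)
    linarith
  -- the half ball
  set c : E n := (1 / 2 : ℝ) • (z₁ + x₁) with hc
  have e1 : z₁ - c = (1 / 2 : ℝ) • (z₁ - x₁) := by rw [hc]; module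
  have e2 : c - x₁ = (1 / 2 : ℝ) • (z₁ - x₁) := by rw [hc]; module
  have hn1 : ‖z₁ - c‖ = R / 2 := by
    rw [e1, norm_smul, hR, dist_eq_norm]
    norm_num
    ring
  refine mp_hopf hD ha hpos hw hL hw0 hz₁D hw1 (half_pos hR0) hn1 ?_
  intro x hxD hxc hxz
  apply hball
  -- parallelogram law
  have hpar := parallelogram_law_with_norm ℝ (x - c) (z₁ - c)
  have e3 : x - c + (z₁ - c) = x - x₁ := by rw [hc]; module
  have e4 : x - c - (z₁ - c) = x - z₁ := by module
  rw [e3, e4, hn1] at hpar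
  have h1 : 0 < ‖x - z₁‖ := norm_pos_iff.2 (sub_ne_zero.2 hxz)
  rw [dist_eq_norm]
  have h2 : ‖x - c‖ * ‖x - c‖ ≤ (R / 2) * (R / 2) :=
    mul_self_le_mul_self (norm_nonneg _) hxc
  nlinarith [norm_nonneg (x - x₁)]

end Pure

theorem m7l : M7L_statement := by
  intro n _ D g w hD hDH hg hw hL hw0 z hz hwz
  have hrel : RelOpen D := ⟨D, hD, by
    ext x
    exact ⟨fun hx => ⟨hx, (show (0 : ℝ) ≤ x 0 from (hDH hx : (0 : ℝ) < x 0).le)⟩, fun hx => hx.1⟩⟩
  have hHs : ∀ x ∈ D, Hs n ∈ 𝓝 x := by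
    intro x hx
    refine Filter.mem_of_superset (hD.mem_nhds hx) fun y hy => ?_
    exact (show (0 : ℝ) ≤ y 0 from (hDH hy : (0 : ℝ) < y 0).le)
  have hpd : ∀ (f : E n → ℝ) (i : Fin n), ∀ x ∈ D, pd i f x = fderiv ℝ f x (ev i) := by
    intro f i x hx
    unfold pd
    rw [fderivWithin_of_mem_nhds (hHs x hx)]
  have hsg : ∀ j k, ContDiffOn ℝ ∞ (gg g j k) D := hrel.gg_smooth hg.smG hg.pos
  refine mp_strong hD (a := fun j k => gg g j k) hsg ?_ hw ?_ hw0 hz hwz
  · intro x hx
    have h1 : (Matrix.of fun j k => gg g j k x) = √(g x).det • (g x)⁻¹ := by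
      ext j k
      rfl
    rw [h1]
    exact (hg.pos x hx).inv.smul (Real.sqrt_pos.2 (hg.pos x hx).det_pos)
  · intro x hx
    rw [← hL x hx]
    unfold mpL
    refine Finset.sum_congr rfl fun j _ => Finset.sum_congr rfl fun k _ => ?_
    rw [hpd _ _ x hx]
    congr 1
    refine Filter.EventuallyEq.fderiv_eq ?_
    filter_upwards [hD.mem_nhds hx] with y hy
    rw [hpd _ _ y hy]

end Vale.Agent.P088.EYM.O
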