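import Vale.Agent.P088.H5.M0849

/-!
# P088, Theorem M: block M9a (one boundary function)
-/

set_option linter.all false

open Bundle Manifold MeasureTheory Set Filter Topology
open scoped ContDiff Matrix

noncomputable section

namespace Vale.Agent.P088.EYM.O

open Vale.Agent.P088 Vale.Agent.P088.EYM

universe u

theorem m9a (h2 : M2_statement.{u}) (h6 : M6_statement.{u}) :
    ∀ (n N : ℕ) [NeZero n] (M : Type u) [TopologicalSpace M] [ChartedSpace (EuclideanHalfSpace n) M]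
    [IsManifold (𝓡∂ n) ∞ M] [T2Space M] [CompactSpace M] [ConnectedSpace M] [MeasurableSpace M]
    [BorelSpace M] (P Q : One n N M) (Γ : Set M), 0 < N → (∀ x X, P.A.form x X = 0) →
    RelBd n Γ → Γ.Nonempty → SameD P Q Γ → (∀ x, (sig Q.g x - sig P.g x).PosSemidef) →
    ∀ (w φ : M → ℝ) (v : Fib N), Wk P w → (∀ x, 0 ≤ w x) → SmR n φ → Spt n Γ φ →
    (∀ y ∈ (𝓡∂ n).boundary M, w y = φ y ^ 2) → ‖v‖ = 1 →
    ∃ u : M → Fib N, SmS n u ∧ (∀ x ∈ (𝓡∂ n).boundary M, u x = (w x : ℂ) • v) ∧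
      (∀ (x : M) (X : TangentSpace (𝓡∂ n) x),
        (w x : ℂ) • cov Q.A u x X = ((dmap (𝓡∂ n) w x X : ℝ) : ℂ) • u x) ∧
      ∀ x i, ∑ j, (((sig Q.g x - sig P.g x) i j : ℝ) : ℂ) •
        cov Q.A u x (coordVec (𝓡∂ n) x x j) = 0 := by
  intro n N _ M _ _ _ _ _ _ _ _ P Q Γ hN hA hΓ hne hS hsig w φ v hw hpos hφ hspt hwφ hv
  have hb : ((𝓡∂ n).boundary M).Nonempty := by
    obtain ⟨O, -, rfl⟩ := hΓ
    exact hne.mono inter_subset_right
  have hf : IsBdryData (𝓡∂ n) Γ (fun x => (w x : ℂ) • v) := by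
    refine ⟨smS_sp hw.sm v, ?_⟩
    refine (closure_mono ?_).trans hspt
    rintro x ⟨hx, hx'⟩
    refine ⟨hx, fun h => hx' ?_⟩
    simp only [hwφ x hx, h, ne_eq, OfNat.ofNat_ne_zero, not_false_eq_true, zero_pow,
      Complex.ofReal_zero, zero_smul]
  obtain ⟨u₁, v₁, u₂, v₂, h1, h1', hu, hu', hE⟩ := hS _ _ hf hf
  have hP := (TM.fUniq n N M P hb).1
  have hQ := (TM.fUniq n N M Q hb).1
  have hW := m0a n N M P w v hA hw
  have e1 : u₁ = fun x => (w x : ℂ) • v := hP _ _ _ _ h1 hW fun _ _ => rfl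
  have e2 : v₁ = fun x => (w x : ℂ) • v := hP _ _ _ _ h1' hW fun _ _ => rfl
  have e3 : v₂ = u₂ := hQ _ _ _ _ hu' hu fun _ _ => rfl
  subst e1 e2 e3
  have h3 := m0c n N M P w v hA hw.sm hv
  have h4 : (Q.E v₂ v₂).re = ∫ x, gp P.g w w x ∂P.μ := by
    have h5 : Q.E v₂ v₂ = P.E (fun x => (w x : ℂ) • v) (fun x => (w x : ℂ) • v) := hE.symm
    rw [h5, h3, Complex.ofReal_re]
  obtain ⟨h7, h8⟩ := h6 n N M P Q v₂ hsig hu.smooth
  obtain ⟨h9, h10⟩ := h2 n N M P Q.A w φ v₂ v hw hpos hφ hwφ hv hu.smooth hu.boundary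
    (h7.trans h4.le)
  exact ⟨v₂, hu.smooth, hu.boundary, h10, h8 (h4.le.trans h9)⟩

end Vale.Agent.P088.EYM.O

end
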