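import Vale.Agent.P088.H5.Spec2
import Vale.Agent.P088.H5.M3
import Vale.Agent.P088.H5.M6_275
import Vale.Agent.P088.H5.M0849

/-!
# P088, Theorem M, block MF: full data, `A₁ = 0`, arbitrary metrics
-/

set_option linter.all false

open Bundle Manifold MeasureTheory Set Filter Topology
open scoped ContDiff Matrix

noncomputable section

namespace Vale.Agent.P088.EYM.O

open Vale.Agent.P088 Vale.Agent.P088.EYM

universe u

section

variable {n N : ℕ} [NeZero n] {M : Type u} [TopologicalSpace M]
  [ChartedSpace (EuclideanHalfSpace n) M] [IsManifold (𝓡∂ n) ∞ M]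

/-- `d_A u` vanishes if it vanishes on the coordinate vectors. -/
theorem cov_zero_of_coord (A : Connection (𝓡∂ n) N M) (u : M → Fib N) (x : M)
    (h : ∀ i, cov A u x (coordVec (𝓡∂ n) x x i) = 0) (X : TangentSpace (𝓡∂ n) x) :
    cov A u x X = 0 := by
  have h1 : ∀ i, covI A u x (es n i) = 0 := by
    intro i
    have h2 := h i
    rw [coordVec_eq, cc_self] at h2
    exact h2
  have hadd : ∀ a b : EuclideanSpace ℝ (Fin n), covI A u x (a + b) =
      covI A u x a + covI A u x b := by
    intro a b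
    have e1 : A.form x (a + b) = A.form x a + A.form x b := (A.form x).map_add a b
    rw [covI_eq, covI_eq, covI_eq, e1, map_add]
    show _ + (A.form x a (u x) + A.form x b (u x)) = _
    abel
  have hsmul : ∀ (c : ℝ) (a : EuclideanSpace ℝ (Fin n)), covI A u x (c • a) =
      c • covI A u x a := by
    intro c a
    have e1 : A.form x (c • a) = c • A.form x a := (A.form x).map_smul c a
    rw [covI_eq, covI_eq, e1, map_smul, smul_add]
    rfl
  set L : EuclideanSpace ℝ (Fin n) →ₗ[ℝ] Fib N :=
    { toFun := covI A u x, map_add' := hadd, map_smul' := hsmul } with hL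
  have h3 : ∀ a : EuclideanSpace ℝ (Fin n), covI A u x a = 0 := by
    intro a
    have h4 : L a = 0 := by
      rw [en_expand a, map_sum]
      refine Finset.sum_eq_zero fun i _ => ?_
      rw [map_smul]
      have h5 : L (ev i) = 0 := h1 i
      rw [h5, smul_zero]
    exact h4
  exact h3 X

/-- Sections of energy zero are parallel. -/
theorem cov_zero_of_energy [T2Space M] [CompactSpace M] [MeasurableSpace M] [BorelSpace M]
    (P : One n N M) {u : M → Fib N} (hu : SmS n u) (h : (P.E u u).re = 0) (x : M)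
    (X : TangentSpace (𝓡∂ n) x) : cov P.A u x X = 0 := by
  haveI : IsFiniteMeasure P.μ := ⟨measure_univ_lt_top P.hμ⟩
  haveI : P.μ.IsOpenPosMeasure := ⟨fun U hU hne => (measure_pos_of_isOpen P.hμ hU hne).ne'⟩
  have hc : Continuous fun x => (pairing P.g P.A u u x).re :=
    Complex.continuous_re.comp (continuous_pairing P.g P.A hu hu)
  have hint : Integrable (fun x => (pairing P.g P.A u u x).re) P.μ :=
    hc.integrable_of_hasCompactSupport (HasCompactSupport.of_compactSpace _)
  have h0 : ∫ x, (pairing P.g P.A u u x).re ∂P.μ = 0 := by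
    rw [← re_energy P P.A hu]
    exact h
  have hae := (integral_eq_zero_iff_of_nonneg
    (fun x => cForm_pairing_nonneg P.g P.A u x) hint).1 h0
  have hall := (Continuous.ae_eq_iff_eq P.μ hc continuous_zero).1 hae
  have hx := congrFun hall x
  simp only [Pi.zero_apply] at hx
  have hx' : ∑ i, ∑ j, (gram P.g x x)⁻¹ i j • (inner ℂ (cov P.A u x (coordVec (𝓡∂ n) x x i))
      (cov P.A u x (coordVec (𝓡∂ n) x x j)) : ℂ).re = 0 := by
    rw [← hx]
    unfold pairing
    rw [Complex.re_sum]
    refine Finset.sum_congr rfl fun i _ => ?_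
    rw [Complex.re_sum]
    refine Finset.sum_congr rfl fun j _ => ?_
    rw [Complex.re_ofReal_mul, smul_eq_mul]
  have hz := psd_zero (gram_inv_posDef P.g (mem_extChartAt_source x)).posSemidef
    (fun i => cov P.A u x (coordVec (𝓡∂ n) x x i)) hx'
  refine cov_zero_of_coord P.A u x (fun k => ?_) X
  have hdet : IsUnit (gram P.g x x).det :=
    (gram_det_pos P.g (mem_extChartAt_source (I := 𝓡∂ n) x)).ne'.isUnit
  have h1 : ∑ i, ((gram P.g x x k i : ℝ) : ℂ) • ∑ j, (((gram P.g x x)⁻¹ i j : ℝ) : ℂ) •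
      cov P.A u x (coordVec (𝓡∂ n) x x j) = cov P.A u x (coordVec (𝓡∂ n) x x k) := by
    simp only [Finset.smul_sum, smul_smul]
    rw [Finset.sum_comm]
    simp only [← Finset.sum_smul]
    have h2 : ∀ j, ∑ i, ((gram P.g x x k i : ℝ) : ℂ) * (((gram P.g x x)⁻¹ i j : ℝ) : ℂ) =
        (((1 : Matrix (Fin n) (Fin n) ℝ) k j : ℝ) : ℂ) := by
      intro j
      rw [← Matrix.mul_nonsing_inv _ hdet, Matrix.mul_apply]
      push_cast
      rfl
    simp only [h2, Matrix.one_apply]
    rw [Finset.sum_eq_single k]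
    · simp
    · intro j _ hj
      simp [Ne.symm hj]
    · simp
  rw [← h1]
  simp only [hz, smul_zero, Finset.sum_const_zero]

end

/-- (MF) -/
theorem mf : MF_statement.{u} := by
  intro n N _ M _ _ _ _ _ _ _ _ P Q hA hbd hS
  obtain ⟨hIo, hIc, hIcl⟩ := TM.fConn n M
  have hbc : IsClosed ((𝓡∂ n).boundary M) := by
    rw [← ModelWithCorners.compl_interior]
    exact hIo.isClosed_compl
  have key : ∀ a : Fin N, ∃ u : M → Fib N, SmS n u ∧
      (∀ x ∈ (𝓡∂ n).boundary M, u x = EuclideanSpace.single a (1 : ℂ)) ∧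
      ∀ (x : M) (X : TangentSpace (𝓡∂ n) x), cov Q.A u x X = 0 := by
    intro a
    set e : Fib N := EuclideanSpace.single a (1 : ℂ)
    have hcs : SmS n (fun _ : M => e) := contMDiff_const
    have hf : IsBdryData (𝓡∂ n) ((𝓡∂ n).boundary M) (fun _ : M => e) :=
      ⟨hcs, closure_minimal (fun x hx => hx.1) hbc⟩
    obtain ⟨u₁, v₁, u₂, v₂, h1, h2, h3, h4, h5⟩ := hS _ _ hf hf
    obtain ⟨-, -, hPe⟩ := TM.fUniq n N M P hbd
    obtain ⟨hQu, -, -⟩ := TM.fUniq n N M Q hbd
    have e1 : u₂ = v₂ := hQu _ _ _ _ h3 h4 fun _ _ => rfl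
    have e2 : P.E u₁ v₁ = P.E u₁ (fun _ => e) :=
      (hPe _ u₁ v₁ (fun _ => e) h1 h2.smooth hcs (fun x hx => h2.boundary x hx)).1
    have e3 : P.E u₁ (fun _ => e) = 0 := by
      have h6 : ∀ x, pairing P.g P.A u₁ (fun _ => e) x = 0 := by
        intro x
        have h7 : ∀ X : TangentSpace (𝓡∂ n) x, cov P.A (fun _ => e) x X = 0 := by
          intro X
          unfold cov dmap
          rw [mfderiv_const, hA]
          exact add_zero _
        unfold pairing
        simp only [h7, inner_zero_right, mul_zero, Finset.sum_const_zero]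
      unfold One.E energy
      simp only [h6, integral_zero]
    have e4 : Q.E u₂ u₂ = 0 := by
      have h6 : P.E u₁ v₁ = Q.E u₂ v₂ := h5
      rw [← e1, e2, e3] at h6
      exact h6.symm
    exact ⟨u₂, h3.smooth, h3.boundary, fun x X =>
      cov_zero_of_energy Q h3.smooth (by rw [e4, Complex.zero_re]) x X⟩
  choose u hu hub hcov using key
  obtain ⟨p, hp⟩ := hbd
  set T : M → EndF N := fun x => ∑ a, colL a (u a x) with hT
  have hTs : ContMDiff (𝓡∂ n) 𝓘(ℝ, EndF N) ∞ T := by
    have h : ∀ s : Finset (Fin N), ContMDiff (𝓡∂ n) 𝓘(ℝ, EndF N) ∞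
        (fun x => ∑ a ∈ s, colL a (u a x)) := by
      intro s
      induction s using Finset.induction_on with
      | empty => simpa using contMDiff_const
      | insert a s ha ih =>
        simp_rw [Finset.sum_insert ha]
        exact ((colL a).contMDiff.comp (hu a)).add ih
    exact h Finset.univ
  have hTd : ∀ x : M, MDifferentiableAt (𝓡∂ n) 𝓘(ℝ, EndF N) T x := fun x =>
    hTs.mdifferentiable (by simp) x
  have hud : ∀ a (x : M), MDifferentiableAt (𝓡∂ n) 𝓘(ℝ, Fib N) (u a) x := fun a x =>
    (hu a).mdifferentiable (by simp) x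
  have hpar : ∀ (x : M) (X : TangentSpace (𝓡∂ n) x),
      dmap (𝓡∂ n) T x X + Q.A.form x X * T x = 0 := by
    intro x X
    have h1 : dmap (𝓡∂ n) T x X = ∑ a, colL a (dmap (𝓡∂ n) (u a) x X) := by
      rw [hT, (dmap_sum (f := fun a y => colL a (u a y)) Finset.univ (fun a =>
        ((colL a).differentiable.mdifferentiable (u a x)).comp x (hud a x)) X).2]
      exact Finset.sum_congr rfl fun a _ => dmap_clm (colL a) (hud a x) X
    rw [h1, hT]
    simp only [Finset.mul_sum, ← Finset.sum_add_distrib]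
    refine Finset.sum_eq_zero fun a _ => ?_
    rw [← colL_comp, ← map_add]
    have h2 := hcov a x X
    unfold cov at h2
    rw [h2, map_zero]
  have hTb : ∀ x ∈ (𝓡∂ n).boundary M, T x = 1 := by
    intro x hx
    rw [← colL_one (N := N)]
    exact Finset.sum_congr rfl fun a _ => by rw [hub a x hx]
  have hone : ∀ x, ContinuousLinearMap.adjoint (T x) * T x = 1 := by
    set F : M → EndF N := fun x => mulL (adjRE (T x)) (T x) with hF
    have hFs : ContMDiff (𝓡∂ n) 𝓘(ℝ, EndF N) ∞ F := adjmul_smooth.contMDiff.comp hTs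
    have hc := const_of_dmap hFs.contMDiffOn
      (fun x _ X => adjmul_par (hTd x) (Q.A.skew x X) (hpar x X))
    obtain ⟨y, hy⟩ : (Mi n M).Nonempty := closure_nonempty_iff.1 ⟨p, hIcl p⟩
    have hall : ∀ x, F x = F y := by
      intro x
      have hcl : IsClosed {x | F x = F y} := isClosed_eq hFs.continuous continuous_const
      have hsub : Mi n M ⊆ {x | F x = F y} := fun z hz => hc z hz y hy
      exact hcl.closure_subset_iff.2 hsub (hIcl x)
    intro x
    have h1 : F x = F p := (hall x).trans (hall p).symm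
    have h2 : F p = 1 := by
      simp only [hF]
      rw [hTb p hp, mulL_apply, adjRE_apply, mul_one]
      exact star_one (EndF N)
    rw [h2] at h1
    exact h1
  have hTu : IsSmoothUnitary (𝓡∂ n) T := ⟨hTs, fun x => unit_of_left (hone x)⟩
  refine ⟨fun x => ContinuousLinearMap.adjoint (T x), ⟨contMDiff_adj hTs, fun x => ?_⟩,
    fun x hx => ?_, fun x X => ?_⟩
  · exact Unitary.star_mem (hTu.unitary x)
  · show ContinuousLinearMap.adjoint (T x) = 1
    rw [hTb x hx]
    exact star_one (EndF N)
  · have h2 : dmap (𝓡∂ n) (fun x => ContinuousLinearMap.adjoint (T x)) x X =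
        ContinuousLinearMap.adjoint (dmap (𝓡∂ n) T x X) := dI_adj hTs x X
    have h4 : T x * ContinuousLinearMap.adjoint (T x) = 1 := uni_right hTu x
    have h5 : dmap (𝓡∂ n) T x X = -(Q.A.form x X * T x) := eq_neg_of_add_eq_zero_left (hpar x X)
    have h6 : Q.A.form x X = T x * ContinuousLinearMap.adjoint (dmap (𝓡∂ n) T x X) := by
      rw [h5, map_neg, adj_mulE, Q.A.skew x X, mul_neg, neg_neg, ← mul_assoc, h4, one_mul]
    show Q.A.form x X = ContinuousLinearMap.adjoint (ContinuousLinearMap.adjoint (T x)) *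
      dmap (𝓡∂ n) (fun x => ContinuousLinearMap.adjoint (T x)) x X
    rw [h2, ContinuousLinearMap.adjoint_adjoint]
    exact h6

end Vale.Agent.P088.EYM.O

end
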