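import Vale.Agent.P088.H5.Spec2

/-!
# P088, Theorem M, block MG: a change of gauge which is trivial on `Γ` does not change the data
-/

open Bundle Manifold MeasureTheory Set Filter Topology
open scoped ContDiff

noncomputable section

namespace Vale.Agent.P088.EYM.O.MG590

open Vale.Agent.P088 Vale.Agent.P088.EYM

universe u

set_option linter.unusedSectionVars false

theorem isBB_app {N : ℕ} : IsBoundedBilinearMap ℝ (fun p : EndF N × Fib N => p.1 p.2) where
  add_left := fun x y z => rfl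
  smul_left := fun c x y => rfl
  add_right := fun x y z => map_add x y z
  smul_right := fun c x y => ContinuousLinearMap.map_smul_of_tower _ _ _
  bound := ⟨1, one_pos, fun x y => by rw [one_mul]; exact x.le_opNorm y⟩

variable {n N : ℕ} [NeZero n] {M : Type u} [TopologicalSpace M]
  [ChartedSpace (EuclideanHalfSpace n) M] [IsManifold (𝓡∂ n) ∞ M] [T2Space M] [CompactSpace M]
  [ConnectedSpace M] [MeasurableSpace M] [BorelSpace M]

/-- The relation between the two connections. -/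
def Rel (B A : Connection (𝓡∂ n) N M) (U : M → EndF N) : Prop :=
  ∀ (x : M) (X : TangentSpace (𝓡∂ n) x), A.form x X =
      ContinuousLinearMap.adjoint (U x) ∘L B.form x X ∘L U x +
        ContinuousLinearMap.adjoint (U x) ∘L dmap (𝓡∂ n) U x X

/-- The section `U^* u`. -/
def gs (U : M → EndF N) (u : M → Fib N) : M → Fib N :=
  fun x => ContinuousLinearMap.adjoint (U x) (u x)

/-- The section `U u`. -/
def gt (U : M → EndF N) (u : M → Fib N) : M → Fib N := fun x => U x (u x)

theorem gs_smooth {U : M → EndF N} (hU : IsSmoothUnitary (𝓡∂ n) U) {u : M → Fib N}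
    (hu : SmS n u) : SmS n (gs U u) :=
  contMDiff_bilin isBB_app (contMDiff_adj hU.smooth) hu

theorem gt_smooth {U : M → EndF N} (hU : IsSmoothUnitary (𝓡∂ n) U) {u : M → Fib N}
    (hu : SmS n u) : SmS n (gt U u) :=
  contMDiff_bilin isBB_app hU.smooth hu

theorem gs_gt {U : M → EndF N} (hU : IsSmoothUnitary (𝓡∂ n) U) (u : M → Fib N) :
    gs U (gt U u) = u := by
  funext x
  have h : ContinuousLinearMap.adjoint (U x) * U x = 1 := (Unitary.mem_iff.1 (hU.unitary x)).1
  exact congrArg (fun T : EndF N => T (u x)) h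

theorem gt_gs {U : M → EndF N} (hU : IsSmoothUnitary (𝓡∂ n) U) (u : M → Fib N) :
    gt U (gs U u) = u := by
  funext x
  exact congrArg (fun T : EndF N => T (u x)) (uni_right hU x)

theorem cov_gs {B A : Connection (𝓡∂ n) N M} {U : M → EndF N} (hU : IsSmoothUnitary (𝓡∂ n) U)
    (hA : Rel B A U) {u : M → Fib N} (hu : SmS n u) (x : M) (X : TangentSpace (𝓡∂ n) x) :
    cov A (gs U u) x X = ContinuousLinearMap.adjoint (U x) (cov B u x X) := by
  have h1 : dmap (𝓡∂ n) (gs U u) x X = ContinuousLinearMap.adjoint (U x) (dmap (𝓡∂ n) u x X) +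
      (dmap (𝓡∂ n) (fun x => ContinuousLinearMap.adjoint (U x)) x X) (u x) :=
    dI_bilin isBB_app (contMDiff_adj hU.smooth) hu x X
  have h2 : dmap (𝓡∂ n) (fun x => ContinuousLinearMap.adjoint (U x)) x X =
      ContinuousLinearMap.adjoint (dmap (𝓡∂ n) U x X) := dI_adj hU.smooth x X
  have h3 : U x * ContinuousLinearMap.adjoint (dmap (𝓡∂ n) U x X) +
      dmap (𝓡∂ n) U x X * ContinuousLinearMap.adjoint (U x) = 0 := d_uni_right hU x X
  have h4 : U x * ContinuousLinearMap.adjoint (U x) = 1 := uni_right hU x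
  have h5 : ContinuousLinearMap.adjoint (U x) * U x = 1 := (Unitary.mem_iff.1 (hU.unitary x)).1
  have key : ContinuousLinearMap.adjoint (dmap (𝓡∂ n) U x X) +
      (ContinuousLinearMap.adjoint (U x) * (B.form x X * U x) +
        ContinuousLinearMap.adjoint (U x) * dmap (𝓡∂ n) U x X) *
        ContinuousLinearMap.adjoint (U x) =
      ContinuousLinearMap.adjoint (U x) * B.form x X := by
    generalize B.form x X = a
    generalize ContinuousLinearMap.adjoint (dmap (𝓡∂ n) U x X) = dg' at h3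
    generalize dmap (𝓡∂ n) U x X = dg at h3
    generalize ContinuousLinearMap.adjoint (U x) = g' at h3 h4 h5
    generalize U x = g at h3 h4 h5
    have e2 : dg * g' = - (g * dg') := eq_neg_of_add_eq_zero_right h3
    calc dg' + (g' * (a * g) + g' * dg) * g'
        = dg' + (g' * a * (g * g') + g' * (dg * g')) := by noncomm_ring
      _ = dg' + (g' * a + - ((g' * g) * dg')) := by rw [h4, e2, mul_one]; noncomm_ring
      _ = g' * a := by rw [h5, one_mul]; abel
  have h6 := congrArg (fun T : EndF N => T (u x)) key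
  show dmap (𝓡∂ n) (gs U u) x X + A.form x X (gs U u x) =
    ContinuousLinearMap.adjoint (U x) (dmap (𝓡∂ n) u x X + B.form x X (u x))
  rw [h1, h2, hA x X, map_add, add_assoc]
  congr 1

theorem pairing_gs (g : Metric (𝓡∂ n) M) {B A : Connection (𝓡∂ n) N M} {U : M → EndF N}
    (hU : IsSmoothUnitary (𝓡∂ n) U) (hA : Rel B A U) {u v : M → Fib N} (hu : SmS n u)
    (hv : SmS n v) (x : M) : pairing g A (gs U u) (gs U v) x = pairing g B u v x := by
  unfold pairing
  refine Finset.sum_congr rfl fun i _ => Finset.sum_congr rfl fun j _ => ?_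
  rw [cov_gs hU hA hu, cov_gs hU hA hv, ContinuousLinearMap.adjoint_inner_left]
  have h4 : U x * ContinuousLinearMap.adjoint (U x) = 1 := uni_right hU x
  have h5 := congrArg (fun T : EndF N => T (cov B v x (coordVec (𝓡∂ n) x x j))) h4
  have h6 : U x (ContinuousLinearMap.adjoint (U x) (cov B v x (coordVec (𝓡∂ n) x x j))) =
    cov B v x (coordVec (𝓡∂ n) x x j) := h5
  rw [h6]

theorem energy_gs (g : Metric (𝓡∂ n) M) (μ : Measure M) {B A : Connection (𝓡∂ n) N M}
    {U : M → EndF N} (hU : IsSmoothUnitary (𝓡∂ n) U) (hA : Rel B A U) {u v : M → Fib N}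
    (hu : SmS n u) (hv : SmS n v) : energy g μ A (gs U u) (gs U v) = energy g μ B u v := by
  unfold energy
  exact integral_congr_ae (Eventually.of_forall fun x => pairing_gs g hU hA hu hv x)

theorem energy_gt (g : Metric (𝓡∂ n) M) (μ : Measure M) {B A : Connection (𝓡∂ n) N M}
    {U : M → EndF N} (hU : IsSmoothUnitary (𝓡∂ n) U) (hA : Rel B A U) {u v : M → Fib N}
    (hu : SmS n u) (hv : SmS n v) : energy g μ B (gt U u) (gt U v) = energy g μ A u v := by
  rw [← energy_gs g μ hU hA (gt_smooth hU hu) (gt_smooth hU hv), gs_gt hU, gs_gt hU]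

/-- the values of boundary data are not changed -/
theorem bd_gs {U : M → EndF N} {Γ : Set M} (h1 : ∀ x ∈ Γ, U x = 1) {f : M → Fib N}
    (hf : IsBdryData (𝓡∂ n) Γ f) {x : M} (hx : x ∈ (𝓡∂ n).boundary M) :
    ContinuousLinearMap.adjoint (U x) (f x) = f x ∧ U x (f x) = f x := by
  by_cases h : f x = 0
  · rw [h, map_zero, map_zero]; exact ⟨rfl, rfl⟩
  · have h2 : x ∈ Γ := hf.supp (subset_closure ⟨hx, h⟩)
    rw [h1 x h2]
    refine ⟨?_, rfl⟩
    have h3 : ContinuousLinearMap.adjoint (1 : EndF N) = 1 := star_one (EndF N)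
    rw [h3]
    rfl

theorem harm_gs (g : Metric (𝓡∂ n) M) (μ : Measure M) {B A : Connection (𝓡∂ n) N M}
    {U : M → EndF N} (hU : IsSmoothUnitary (𝓡∂ n) U) (hA : Rel B A U) {Γ : Set M}
    (h1 : ∀ x ∈ Γ, U x = 1) {f u : M → Fib N} (hf : IsBdryData (𝓡∂ n) Γ f)
    (hu : IsHarmonicExt g μ B f u) : IsHarmonicExt g μ A f (gs U u) where
  smooth := gs_smooth hU hu.smooth
  boundary := fun x hx => by
    show ContinuousLinearMap.adjoint (U x) (u x) = f x
    rw [hu.boundary x hx]
    exact (bd_gs h1 hf hx).1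
  weak := fun φ hφ hφ0 => by
    have e := energy_gs g μ hU hA hu.smooth (gt_smooth hU hφ)
    rw [gs_gt hU] at e
    rw [e]
    refine hu.weak _ (gt_smooth hU hφ) fun x hx => ?_
    show U x (φ x) = 0
    rw [hφ0 x hx, map_zero]

theorem harm_gt (g : Metric (𝓡∂ n) M) (μ : Measure M) {B A : Connection (𝓡∂ n) N M}
    {U : M → EndF N} (hU : IsSmoothUnitary (𝓡∂ n) U) (hA : Rel B A U) {Γ : Set M}
    (h1 : ∀ x ∈ Γ, U x = 1) {f u : M → Fib N} (hf : IsBdryData (𝓡∂ n) Γ f)
    (hu : IsHarmonicExt g μ A f u) : IsHarmonicExt g μ B f (gt U u) where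
  smooth := gt_smooth hU hu.smooth
  boundary := fun x hx => by
    show U x (u x) = f x
    rw [hu.boundary x hx]
    exact (bd_gs h1 hf hx).2
  weak := fun φ hφ hφ0 => by
    have e := energy_gt g μ hU hA hu.smooth (gs_smooth hU hφ)
    rw [gt_gs hU] at e
    rw [e]
    refine hu.weak _ (gs_smooth hU hφ) fun x hx => ?_
    show ContinuousLinearMap.adjoint (U x) (φ x) = 0
    rw [hφ0 x hx, map_zero]

end Vale.Agent.P088.EYM.O.MG590

namespace Vale.Agent.P088.EYM.O

open Vale.Agent.P088 Vale.Agent.P088.EYM MG590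

/-- (MG) -/
theorem mG : MG_statement := by
  intro n N _ M _ _ _ _ _ _ _ _ P Q Γ A U hU h1 hA
  refine ⟨⟨fun h f k hf hk => ?_, fun h f k hf hk => ?_⟩,
    ⟨fun h f k hf hk => ?_, fun h f k hf hk => ?_⟩⟩
  · obtain ⟨u₁, v₁, u₂, v₂, a1, a2, a3, a4, e⟩ := h f k hf hk
    exact ⟨gs U u₁, gs U v₁, u₂, v₂, harm_gs _ _ hU hA h1 hf a1, harm_gs _ _ hU hA h1 hk a2, a3, a4,
      (energy_gs _ _ hU hA a1.smooth a2.smooth).trans e⟩
  · obtain ⟨u₁, v₁, u₂, v₂, a1, a2, a3, a4, e⟩ := h f k hf hk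
    exact ⟨gt U u₁, gt U v₁, u₂, v₂, harm_gt _ _ hU hA h1 hf a1, harm_gt _ _ hU hA h1 hk a2, a3, a4,
      (energy_gt _ _ hU hA a1.smooth a2.smooth).trans e⟩
  · obtain ⟨u₁, v₁, u₂, v₂, a1, a2, a3, a4, e⟩ := h f k hf hk
    exact ⟨u₁, v₁, gs U u₂, gs U v₂, a1, a2, harm_gs _ _ hU hA h1 hf a3, harm_gs _ _ hU hA h1 hk a4,
      e.trans (energy_gs _ _ hU hA a3.smooth a4.smooth).symm⟩
  · obtain ⟨u₁, v₁, u₂, v₂, a1, a2, a3, a4, e⟩ := h f k hf hk
    exact ⟨u₁, v₁, gt U u₂, gt U v₂, a1, a2, harm_gt _ _ hU hA h1 hf a3, harm_gt _ _ hU hA h1 hk a4,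
      e.trans (energy_gt _ _ hU hA a3.smooth a4.smooth).symm⟩

end Vale.Agent.P088.EYM.O

end
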