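import Vale.Agent.P088.H5.M9
import Vale.Agent.P088.H5.M0849
import Vale.Agent.P088.H5.M1849
import Vale.Agent.P088.H5.M2779
import Vale.Agent.P088.H5.M5_823
import Vale.Agent.P088.H5.M6_275
import Vale.Agent.P088.H5.M7590
import Vale.Agent.P088.H5.M78
import Vale.Agent.P088.H5.M9a849
import Vale.Agent.P088.H5.MF332
import Vale.Agent.P088.H5.MG590

/-!
# P088, Theorem M: the closed theorems
-/

set_option linter.all false

open Bundle Manifold MeasureTheory Set Filter Topology
open scoped ContDiff Matrix

noncomputable section

namespace Vale.Agent.P088.EYM.O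

universe u

theorem m9_closed : M9_statement.{u} :=
  m9 ⟨m0b, m1, m4 m0a m0b, m5g, m7 m7l m0a, m8, m9a m2 m6⟩

theorem mf_closed : MF_statement.{u} := mf

theorem md_closed : MD_statement.{u} := md m6 m8

theorem mg_closed : MG_statement.{u} := mG

end Vale.Agent.P088.EYM.O

end
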