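import Vale.Agent.P088.TM.Br3
import Vale.Agent.P088.H5.St
import Vale.Agent.P088.H5.Clos

/-!
# P088, Theorem M: from the abstract theorem to the elementary statement
-/

set_option linter.all false

open Bundle Manifold MeasureTheory Set Filter
open scoped ContDiff Matrix Topology ENNReal

noncomputable section

namespace Vale.Agent.P088.B

open Vale.Agent.P088

universe u

section

variable {n : ℕ} [NeZero n] {N : ℕ} {M : Type u} [TopologicalSpace M]
  [ChartedSpace (EuclideanHalfSpace n) M] [IsManifold (𝓡∂ n) ∞ M]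

theorem formOf_es (c : Fin n → Matrix (Fin N) (Fin N) ℂ) (i : Fin n) :
    S.formOf c (es n i) = S.toE (c i) := by
  rw [S.formOf_apply, S.toE_rsum]
  congr 1
  simp

theorem formOf_zero : S.formOf (0 : Fin n → Matrix (Fin N) (Fin N) ℂ) = 0 := by
  ext1 v
  rw [S.formOf_apply, S.toE_rsum]
  simp only [Pi.zero_apply, smul_zero, Finset.sum_const_zero]
  exact map_zero (Matrix.toEuclideanCLM (n := Fin N) (𝕜 := ℂ))

theorem isSmU_toE {U : M → Matrix (Fin N) (Fin N) ℂ} (h1 : ∀ a, Sm (at_ n M) (fun x => U x a))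
    (h2 : ∀ x, (U x)ᴴ * U x = 1) : IsSmoothUnitary (𝓡∂ n) (fun x => S.toE (U x)) := by
  refine ⟨contMDiffOn_univ.1 (S.contMDiffOn_toE fun a b => h1 a b), fun x => ?_⟩
  have e3 := congrArg S.toE (h2 x)
  rw [S.toE_mul, S.toE_star, S.toE_one] at e3
  have e4 : (U x) * (U x)ᴴ = 1 := mul_eq_one_comm.1 (h2 x)
  have e5 := congrArg S.toE e4
  rw [S.toE_mul, S.toE_star, S.toE_one] at e5
  exact Unitary.mem_iff.2 ⟨e3, e5⟩

theorem toE_dM {V : M → EndF N} (hV : IsSmoothUnitary (𝓡∂ n) V) (x : M) (j : Fin n) :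
    S.toE (dM (fun y => S.ofE (V (pt (at_ n M) x y))) ((at_ n M).ch x x) j) =
      dI (𝓡∂ n) V x (es n j) := by
  have h1 : dM (fun y => S.ofE (V (pt (at_ n M) x y))) ((at_ n M).ch x x) j =
      S.ofE (dI (𝓡∂ n) V x (es n j)) := by
    rw [S.dI_ofE hV.smooth]
    ext a b
    exact dj_old (fun y => S.ofE (V (pt (at_ n M) x y)) a b) (at_nonneg x x) j
  rw [h1, S.toE_ofE]

theorem ext_es {F : Type*} [NormedAddCommGroup F] [NormedSpace ℝ F]
    {T S' : EuclideanSpace ℝ (Fin n) →L[ℝ] F} (h : ∀ i, T (es n i) = S' (es n i)) : T = S' := by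
  ext1 v
  have hv : v = ∑ i, v i • (es n i : EuclideanSpace ℝ (Fin n)) := by
    ext k
    rw [WithLp.ofLp_sum, Finset.sum_apply]
    simp only [PiLp.smul_apply, S.es_apply, smul_eq_mul]
    simp
  rw [hv, map_sum, map_sum]
  refine Finset.sum_congr rfl fun i _ => ?_
  rw [map_smul, map_smul, h]

/-- From the elementary gauge relation to the abstract one. -/
theorem toGauge {Γ : Set M} {a b : M → Fin n → Matrix (Fin N) (Fin N) ℂ}
    (h : GaugeEq Γ a b (at_ n M)) : ∃ V : M → EndF N, IsSmoothUnitary (𝓡∂ n) V ∧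
      (∀ x ∈ Γ, V x = 1) ∧ ∀ (x : M) (X : TangentSpace (𝓡∂ n) x),
        S.formOf (b x) X = ContinuousLinearMap.adjoint (V x) ∘L S.formOf (a x) X ∘L V x +
          ContinuousLinearMap.adjoint (V x) ∘L dmap (𝓡∂ n) V x X := by
  obtain ⟨U, h1, h2, h3, h4⟩ := h
  have hV := isSmU_toE h1 h2
  refine ⟨fun x => S.toE (U x), hV, fun x hx => ?_, fun x X => ?_⟩
  · show S.toE (U x) = 1
    rw [h3 x hx, S.toE_one]
  · set V : M → EndF N := fun x => S.toE (U x) with hVd
    let LA : EndF N →L[ℝ] EndF N :=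
      ((ContinuousLinearMap.mul ℝ (EndF N)) (ContinuousLinearMap.adjoint (V x)))
    let RA : EndF N →L[ℝ] EndF N := (ContinuousLinearMap.mul ℝ (EndF N)).flip (V x)
    let T2 : EuclideanSpace ℝ (Fin n) →L[ℝ] EndF N :=
      LA.comp (RA.comp (S.formOf (a x)) + dI (𝓡∂ n) V x)
    have hT : S.formOf (b x) = T2 := by
      refine ext_es fun i => ?_
      rw [formOf_es, h4 x i, S.toE_mul, S.toE_star, S.toE_add, S.toE_mul]
      show _ = ContinuousLinearMap.adjoint (V x) *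
        (S.formOf (a x) (es n i) * V x + dI (𝓡∂ n) V x (es n i))
      have e1 : dI (𝓡∂ n) V x (es n i) =
          S.toE (dM (fun y => U (pt (at_ n M) x y)) ((at_ n M).ch x x) i) := by
        rw [← toE_dM hV x i]
        congr 1
        simp only [hVd, S.ofE_toE]
      rw [formOf_es, e1]
    have h5 := DFunLike.congr_fun hT (X : EuclideanSpace ℝ (Fin n))
    refine h5.trans ?_
    show ContinuousLinearMap.adjoint (V x) * (S.formOf (a x) X * V x + dI (𝓡∂ n) V x X) = _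
    rw [mul_add]
    rfl

/-- From the abstract gauge relation to the elementary one. -/
theorem ofGauge {Γ : Set M} {a b : M → Fin n → Matrix (Fin N) (Fin N) ℂ} {V : M → EndF N}
    (hV : IsSmoothUnitary (𝓡∂ n) V) (h1 : ∀ x ∈ Γ, V x = 1)
    (h2 : ∀ (x : M) (X : TangentSpace (𝓡∂ n) x),
        S.formOf (b x) X = ContinuousLinearMap.adjoint (V x) ∘L S.formOf (a x) X ∘L V x +
          ContinuousLinearMap.adjoint (V x) ∘L dmap (𝓡∂ n) V x X) :
    GaugeEq Γ a b (at_ n M) := by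
  refine ⟨fun x => S.ofE (V x), (S.uni_ofE hV).1, (S.uni_ofE hV).2, fun x hx => ?_,
    fun x j => ?_⟩
  · apply S.toE_inj
    show S.toE (S.ofE (V x)) = _
    rw [S.toE_ofE, S.toE_one, h1 x hx]
  · apply S.toE_inj
    rw [S.toE_mul, S.toE_star, S.toE_add, S.toE_mul, S.toE_ofE, toE_dM hV x j, mul_add,
      ← formOf_es (b x) j, ← formOf_es (a x) j]
    exact h2 x (es n j)

theorem sameD_one {Γ : Set M} {P Q : Pair (at_ n M) N} (h : SameData Γ P Q) :
    @EYM.SameD n N _ M _ _ _ (borel M) (B2.one P) (B2.one Q) Γ :=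
  (S.data_iff Γ (conv P) (conv Q)).1 (data_conv h)

theorem sig_one (P : Pair (at_ n M) N) (x : M) :
    EYM.O.sig (S.gOf (conv P)) x = √(P.g x).det • (P.g x)⁻¹ := by
  unfold EYM.O.sig
  rw [S.gram_self_gOf]
  rfl

theorem met_of_inner {P Q : Pair (at_ n M) N}
    (h : ∀ (x : M) (v w : TangentSpace (𝓡∂ n) x),
      (S.gOf (conv Q)).inner x v w = (S.gOf (conv P)).inner x v w) : Q.g = P.g := by
  funext x
  have h1 := S.gram_self_gOf (conv Q) x
  have h2 := S.gram_self_gOf (conv P) x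
  have h3 : gram (S.gOf (conv Q)) x x = gram (S.gOf (conv P)) x x := by
    ext i j
    exact h x _ _
  rw [h1, h2] at h3
  exact h3

end

/-- Theorem M, elementary form. -/
theorem theoremM {n N : ℕ} [NeZero n] (hn : 3 ≤ n) (hN : 1 ≤ N) {M : Type u} [TopologicalSpace M]
    [ChartedSpace (EuclideanHalfSpace n) M] [IsManifold (𝓡∂ n) ∞ M] [T2Space M] [CompactSpace M]
    [ConnectedSpace M] (Z : At n M) (hZ : Z = at_ n M) (Γ O : Set M) (hO : IsOpen O)
    (hΓ : Γ = O ∩ bd Z) (hne : Γ.Nonempty) (P Q : Pair Z N) (hdata : SameData Γ P Q) :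
    (GaugeEq Γ 0 P.A Z → (Γ = bd Z ∨ P.g = Q.g) → GaugeEq Γ 0 Q.A Z) ∧
    (SigLe P Q → GaugeEq Γ 0 P.A Z → GaugeEq Γ 0 Q.A Z ∧ Q.g = P.g) ∧
    (SigLe P Q → GaugeEq Γ P.A Q.A Z → Q.g = P.g) := by
  subst hZ
  have hb : bd (at_ n M) = (𝓡∂ n).boundary M := bd_at
  let _ : MeasurableSpace M := borel M
  have _ : BorelSpace M := ⟨rfl⟩
  have hS : EYM.SameD (B2.one P) (B2.one Q) Γ := sameD_one hdata
  have hR : EYM.RelBd n Γ := ⟨O, hO, by rw [← hb]; exact hΓ⟩
  -- reduction to the zero connection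
  have hz : GaugeEq Γ 0 P.A (at_ n M) →
      EYM.SameD (EYM.O.wA (B2.one P) (zeroConn (𝓡∂ n) N M)) (B2.one Q) Γ := by
    intro h
    obtain ⟨V, hV, hV1, hV2⟩ := toGauge h
    have h3 := (EYM.O.mg_closed n N M (EYM.O.wA (B2.one P) (zeroConn (𝓡∂ n) N M)) (B2.one Q) Γ
      (B2.one P).A V hV hV1 (fun x X => ?_)).1
    · exact h3.2 hS
    · refine (hV2 x X).trans ?_
      rw [show (0 : M → Fin n → Matrix (Fin N) (Fin N) ℂ) x = 0 from rfl, formOf_zero]
      rfl
  have hout : (∃ U : M → EndF N, IsSmoothUnitary (𝓡∂ n) U ∧ (∀ x ∈ Γ, U x = 1) ∧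
        ∀ (x : M) (X : TangentSpace (𝓡∂ n) x),
          (B2.one Q).A.form x X = ContinuousLinearMap.adjoint (U x) ∘L dmap (𝓡∂ n) U x X) →
      GaugeEq Γ 0 Q.A (at_ n M) := by
    rintro ⟨U, hU, hU1, hU2⟩
    refine ofGauge hU hU1 fun x X => ?_
    rw [show (0 : M → Fin n → Matrix (Fin N) (Fin N) ℂ) x = 0 from rfl, formOf_zero]
    have h4 : S.formOf (Q.A x) X = ContinuousLinearMap.adjoint (U x) ∘L dmap (𝓡∂ n) U x X :=
      hU2 x X
    rw [h4]
    show _ = ContinuousLinearMap.adjoint (U x) ∘L ((0 : EndF N) ∘L U x) + _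
    rw [ContinuousLinearMap.zero_comp, ContinuousLinearMap.comp_zero, zero_add]
  have hsig : SigLe P Q → ∀ x, (EYM.O.sig (B2.one Q).g x - EYM.O.sig (B2.one P).g x).PosSemidef := by
    intro h x
    have h1 := sig_one P x
    have h2 := sig_one Q x
    show (EYM.O.sig (S.gOf (conv Q)) x - EYM.O.sig (S.gOf (conv P)) x).PosSemidef
    rw [h1, h2]
    exact h x
  refine ⟨fun h hor => ?_, fun hle h => ?_, fun hle h => ?_⟩
  · rcases hor with hfull | hg
    · rw [hb] at hfull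
      subst hfull
      exact hout (EYM.O.mf_closed n N M (EYM.O.wA (B2.one P) (zeroConn (𝓡∂ n) N M)) (B2.one Q)
        (fun _ _ => rfl) hne (hz h))
    · have hle : SigLe P Q := by
        intro x
        rw [hg, sub_self]
        exact Matrix.PosSemidef.zero
      exact hout (EYM.O.m9_closed n N M (EYM.O.wA (B2.one P) (zeroConn (𝓡∂ n) N M)) (B2.one Q) Γ
        hn hN (fun _ _ => rfl) hR hne (hz h) (hsig hle)).2
  · have h5 := EYM.O.m9_closed n N M (EYM.O.wA (B2.one P) (zeroConn (𝓡∂ n) N M)) (B2.one Q) Γ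
      hn hN (fun _ _ => rfl) hR hne (hz h) (hsig hle)
    exact ⟨hout h5.2, met_of_inner h5.1⟩
  · obtain ⟨V, hV, hV1, hV2⟩ := toGauge h
    have h3 := (EYM.O.mg_closed n N M (B2.one P) (B2.one Q) Γ (B2.one Q).A V hV hV1 hV2).1.1 hS
    exact met_of_inner (EYM.O.md_closed n N M (EYM.O.wA (B2.one P) (B2.one Q).A) (B2.one Q) Γ
      hn hN rfl hR hne h3 (hsig hle))

end Vale.Agent.P088.B

end
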