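import Vale.Agent.P088.H5.St2

open Manifold Set Vale.Agent.P088.B
open scoped ContDiff

namespace Vale.Agent.P088.H5

universe u

/-- Theorem M+, elementary form. -/
def MP_elem : Prop := ∀ {n N : ℕ} [NeZero n] (_ : 3 ≤ n) {M : Type u} [TopologicalSpace M]
    [ChartedSpace (EuclideanHalfSpace n) M] [IsManifold (𝓡∂ n) ∞ M] [T2Space M] [CompactSpace M]
    [ConnectedSpace M] (Z : At n M) (_ : Z = at_ n M) (Γ O : Set M) (_ : IsOpen O)
    (_ : Γ = O ∩ bd Z) (_ : Γ.Nonempty) (P Q : Pair Z N) (_ : SameData Γ P Q),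
    ((Γ = bd Z ∨ SigLe P Q) → ∀ e, Par P e → ∃ e', Par Q e' ∧ ∀ x ∈ Γ, e' x = e x) ∧
    (SigLe P Q → (∃ e, Par P e ∧ e ≠ 0) → Q.g = P.g)

end Vale.Agent.P088.H5
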