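import Vale.Agent.P088.H5.MF332

/-!
# P088, Theorem M+: parallel sections (flat summands)
-/

set_option linter.all false

open Bundle Manifold MeasureTheory Set Filter Topology
open scoped ContDiff Matrix

noncomputable section

namespace Vale.Agent.P088.EYM.O

open Vale.Agent.P088 Vale.Agent.P088.EYM

universe u

/-- Full data, arbitrary metrics and connections: every parallel section of the first connection
corresponds to a parallel section of the second one with the same values on `∂M`. -/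
theorem mfp (n N : ℕ) [NeZero n] (M : Type u) [TopologicalSpace M]
    [ChartedSpace (EuclideanHalfSpace n) M] [IsManifold (𝓡∂ n) ∞ M] [T2Space M] [CompactSpace M]
    [ConnectedSpace M] [MeasurableSpace M] [BorelSpace M] (P Q : One n N M)
    (hbd : ((𝓡∂ n).boundary M).Nonempty) (hS : SameD P Q ((𝓡∂ n).boundary M)) (e : M → Fib N)
    (he : SmS n e) (hp : ∀ (x : M) (X : TangentSpace (𝓡∂ n) x), cov P.A e x X = 0) :
    ∃ e' : M → Fib N, SmS n e' ∧ (∀ x ∈ (𝓡∂ n).boundary M, e' x = e x) ∧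
      ∀ (x : M) (X : TangentSpace (𝓡∂ n) x), cov Q.A e' x X = 0 := by
  obtain ⟨hIo, hIc, hIcl⟩ := TM.fConn n M
  have hbc : IsClosed ((𝓡∂ n).boundary M) := by
    rw [← ModelWithCorners.compl_interior]
    exact hIo.isClosed_compl
  have hf : IsBdryData (𝓡∂ n) ((𝓡∂ n).boundary M) e :=
    ⟨he, closure_minimal (fun x hx => hx.1) hbc⟩
  obtain ⟨u₁, v₁, u₂, v₂, h1, h2, h3, h4, h5⟩ := hS _ _ hf hf
  obtain ⟨-, -, hPe⟩ := TM.fUniq n N M P hbd
  obtain ⟨hQu, -, -⟩ := TM.fUniq n N M Q hbd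
  have e1 : u₂ = v₂ := hQu _ _ _ _ h3 h4 fun _ _ => rfl
  have e2 : P.E u₁ v₁ = P.E u₁ e :=
    (hPe _ u₁ v₁ e h1 h2.smooth he (fun x hx => h2.boundary x hx)).1
  have e3 : P.E u₁ e = 0 := by
    have h6 : ∀ x, pairing P.g P.A u₁ e x = 0 := by
      intro x
      unfold pairing
      simp only [hp, inner_zero_right, mul_zero, Finset.sum_const_zero]
    unfold One.E energy
    simp only [h6, integral_zero]
  have e4 : Q.E u₂ u₂ = 0 := by
    have h6 : P.E u₁ v₁ = Q.E u₂ v₂ := h5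
    rw [← e1, e2, e3] at h6
    exact h6.symm
  exact ⟨u₂, h3.smooth, h3.boundary, fun x X =>
    cov_zero_of_energy Q h3.smooth (by rw [e4, Complex.zero_re]) x X⟩

/-- One parallel section in the interior, from `w d_A u = u ⊗ dw`. -/
theorem m3p (n N : ℕ) [NeZero n] (M : Type u) [TopologicalSpace M]
    [ChartedSpace (EuclideanHalfSpace n) M] [IsManifold (𝓡∂ n) ∞ M] [T2Space M] [CompactSpace M]
    [ConnectedSpace M] (A : Connection (𝓡∂ n) N M) (w : M → ℝ) (u e : M → Fib N)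
    (hw : SmR n w) (hpos : ∀ x ∈ Mi n M, 0 < w x) (hu : SmS n u)
    (hb : ∀ x ∈ (𝓡∂ n).boundary M, u x = (w x : ℂ) • e x)
    (hrel : ∀ (x : M) (X : TangentSpace (𝓡∂ n) x),
      (w x : ℂ) • cov A u x X = ((dmap (𝓡∂ n) w x X : ℝ) : ℂ) • u x) :
    ∃ s : M → Fib N, ContMDiffOn (𝓡∂ n) 𝓘(ℝ, Fib N) ∞ s (Mi n M) ∧
      (∀ x ∈ Mi n M, u x = (w x : ℂ) • s x) ∧
      (∀ x ∈ Mi n M, ∀ X : TangentSpace (𝓡∂ n) x, cov A s x X = 0) ∧
      ∀ q ∈ (𝓡∂ n).boundary M, w q ≠ 0 → Tendsto s (𝓝[Mi n M] q) (𝓝 (e q)) := by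
  obtain ⟨hIo, hIc, hIcl⟩ := TM.fConn n M
  set S : M → Fib N := fun x => (w x)⁻¹ • u x with hS
  have hwi : ContMDiffOn (𝓡∂ n) 𝓘(ℝ, ℝ) ∞ (fun x => (w x)⁻¹) (Mi n M) :=
    ContMDiffOn.inv₀ hw.contMDiffOn fun x hx => (hpos x hx).ne'
  have hSs : ContMDiffOn (𝓡∂ n) 𝓘(ℝ, Fib N) ∞ S (Mi n M) := hwi.smul hu.contMDiffOn
  have hSd : ∀ x ∈ Mi n M, MDifferentiableAt (𝓡∂ n) 𝓘(ℝ, Fib N) S x := fun x hx =>
    (hSs.contMDiffAt (hIo.mem_nhds hx)).mdifferentiableAt (by simp)
  have hwd : ∀ x : M, MDifferentiableAt (𝓡∂ n) 𝓘(ℝ, ℝ) w x := fun x =>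
    hw.mdifferentiable (by simp) x
  refine ⟨S, hSs, fun x hx => ?_, fun x hx X => ?_, fun q hq hwq => ?_⟩
  · simp only [hS]
    rw [Complex.coe_smul, smul_smul, mul_inv_cancel₀ (hpos x hx).ne', one_smul]
  · have hw0 : w x ≠ 0 := (hpos x hx).ne'
    have he : u =ᶠ[𝓝 x] fun y => w y • S y := by
      filter_upwards [hIo.mem_nhds hx] with y hy
      simp only [hS, smul_smul, mul_inv_cancel₀ (hpos y hy).ne', one_smul]
    have h1 : dmap (𝓡∂ n) u x X = dmap (𝓡∂ n) (fun y => w y • S y) x X :=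
      DFunLike.congr_fun he.mfderiv_eq X
    have h2 := dmap_bilin (ContinuousLinearMap.lsmul ℝ ℝ : ℝ →L[ℝ] Fib N →L[ℝ] Fib N)
      (hwd x) (hSd x hx) X
    simp only [ContinuousLinearMap.lsmul_apply] at h2
    rw [h2] at h1
    have h3 := hrel x X
    have hTS : u x = w x • S x := he.self_of_nhds
    unfold cov at h3 ⊢
    rw [Complex.coe_smul, Complex.coe_smul, h1, hTS] at h3
    have h4 : A.form x X (w x • S x) = w x • A.form x X (S x) :=
      ContinuousLinearMap.map_smul_of_tower _ _ _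
    rw [h4] at h3
    have h5 : w x • w x • (dmap (𝓡∂ n) S x X + A.form x X (S x)) = 0 := by
      have h6 : w x • (dmap (𝓡∂ n) w x X • S x + w x • dmap (𝓡∂ n) S x X +
          w x • A.form x X (S x)) - dmap (𝓡∂ n) w x X • w x • S x =
          w x • w x • (dmap (𝓡∂ n) S x X + A.form x X (S x)) := by
        rw [smul_comm (dmap (𝓡∂ n) w x X) (w x) (S x)]
        module
      rw [← h6, h3, sub_self]
    exact (smul_eq_zero.1 ((smul_eq_zero.1 h5).resolve_left hw0)).resolve_left hw0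
  · have hc : ContinuousAt S q :=
      (hw.continuous.continuousAt.inv₀ hwq).smul hu.continuous.continuousAt
    have hSq : S q = e q := by
      simp only [hS]
      rw [hb q hq, Complex.coe_smul, smul_smul, inv_mul_cancel₀ hwq, one_smul]
    rw [← hSq]
    exact hc.tendsto.mono_left nhdsWithin_le_nhds

end Vale.Agent.P088.EYM.O

end
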