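import Vale.Agent.P088.H5.Spec
import Vale.Agent.P088.TM.H275BC

/-!
# P088, Theorem M: the differentials of the harmonic extensions of squares span (block M4)
-/

set_option linter.all false

open Bundle Manifold MeasureTheory Set Filter Topology
open scoped ContDiff Matrix

noncomputable section

namespace Vale.Agent.P088.EYM.O

open Vale.Agent.P088 Vale.Agent.P088.EYM Vale.Agent.P088.TM

universe u

section

variable {n N : ℕ} [NeZero n] {M : Type u} [TopologicalSpace M]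
  [ChartedSpace (EuclideanHalfSpace n) M] [IsManifold (𝓡∂ n) ∞ M]

theorem dd_eq_pd {w : M → ℝ} (hw : SmR n w) (x : M) (i : Fin n) :
    dd w x i = pd i (lu (𝓡∂ n) x w) (xc n x x) := by
  unfold dd
  have h1 : MDifferentiableAt (𝓡∂ n) 𝓘(ℝ, ℝ) w x := (hw x).mdifferentiableAt (by simp)
  rw [dmap_coordVec (𝓡∂ n) (mem_extChartAt_source x) h1 i]
  unfold pd
  rw [← CEnergy_range]

/-- smooth functions in charts -/
theorem lu_smooth {F : Type*} [NormedAddCommGroup F] [NormedSpace ℝ F] {u : M → F}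
    (hu : ContMDiff (𝓡∂ n) 𝓘(ℝ, F) ∞ u) (p : M) : ContDiffOn ℝ ∞ (lu (𝓡∂ n) p u) (tg n p) := by
  have h1 : ContMDiffOn 𝓘(ℝ, E n) 𝓘(ℝ, F) ∞ (u ∘ (xc n p).symm) (tg n p) :=
    hu.comp_contMDiffOn (contMDiffOn_extChartAt_symm p)
  exact contMDiffOn_iff_contDiffOn.1 h1

theorem m4_chi [T2Space M] [CompactSpace M] {Γ : Set M} (hΓ : RelBd n Γ)
    (hbd : IsClosed ((𝓡∂ n).boundary M)) {φ : M → ℝ} (hφ : Spt n Γ φ) :
    ∃ χ : M → ℝ, SmR n χ ∧ Spt n Γ χ ∧ ∀ y ∈ (𝓡∂ n).boundary M, φ y ≠ 0 → χ y = 1 := by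
  obtain ⟨O, hO, hΓO⟩ := hΓ
  have hKO : closure {x ∈ (𝓡∂ n).boundary M | φ x ≠ 0} ⊆ O := fun x hx => by
    have h1 : x ∈ Γ := hφ hx
    rw [hΓO] at h1
    exact h1.1
  obtain ⟨O', hO', hKO', hcl⟩ := normal_exists_closure_subset isClosed_closure hO hKO
  obtain ⟨f, hf0, hf1, -⟩ := exists_contMDiffMap_zero_one_of_isClosed (𝓡∂ n) (n := (⊤ : ℕ∞))
    (s := O'ᶜ) (t := closure {x ∈ (𝓡∂ n).boundary M | φ x ≠ 0}) hO'.isClosed_compl
    isClosed_closure (disjoint_compl_left_iff_subset.2 hKO')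
  refine ⟨f, f.contMDiff, ?_, ?_⟩
  · have h1 : closure {x ∈ (𝓡∂ n).boundary M | f x ≠ 0} ⊆ closure O' ∩ (𝓡∂ n).boundary M := by
      refine closure_minimal ?_ (isClosed_closure.inter hbd)
      rintro x ⟨hx, hx'⟩
      refine ⟨subset_closure (by_contra fun h => hx' ?_), hx⟩
      exact hf0 h
    intro x hx
    rw [hΓO]
    exact ⟨hcl (h1 hx).1, (h1 hx).2⟩
  · intro y hy hy'
    exact hf1 (subset_closure ⟨hy, hy'⟩)

theorem Spt.of {Γ : Set M} {φ a : M → ℝ} (h : Spt n Γ φ)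
    (ha : ∀ x ∈ (𝓡∂ n).boundary M, φ x = 0 → a x = 0) : Spt n Γ a := by
  refine (closure_mono ?_).trans h
  rintro x ⟨hx, hx'⟩
  exact ⟨hx, fun h0 => hx' (ha x hx h0)⟩

theorem Spt.of2 {Γ : Set M} {φ χ a : M → ℝ} (h : Spt n Γ φ) (h' : Spt n Γ χ)
    (ha : ∀ x ∈ (𝓡∂ n).boundary M, φ x = 0 → χ x = 0 → a x = 0) : Spt n Γ a := by
  have h1 : closure {x ∈ (𝓡∂ n).boundary M | a x ≠ 0} ⊆
      closure ({x ∈ (𝓡∂ n).boundary M | φ x ≠ 0} ∪ {x ∈ (𝓡∂ n).boundary M | χ x ≠ 0}) := by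
    refine closure_mono ?_
    rintro x ⟨hx, hx'⟩
    by_cases h0 : φ x = 0
    · exact Or.inr ⟨hx, fun h1 => hx' (ha x hx h0 h1)⟩
    · exact Or.inl ⟨hx, h0⟩
  rw [closure_union] at h1
  exact h1.trans (union_subset h h')

end

section

variable {n N : ℕ} [NeZero n] {M : Type u} [TopologicalSpace M]
  [ChartedSpace (EuclideanHalfSpace n) M] [IsManifold (𝓡∂ n) ∞ M] [T2Space M] [CompactSpace M]
  [ConnectedSpace M] [MeasurableSpace M] [BorelSpace M]

theorem harm_zero (P : One n N M) (hb : ((𝓡∂ n).boundary M).Nonempty) {f u : M → Fib N}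
    (h : P.Harm f u) : P.Harm 0 0 := by
  have h1 := (fUniq n N M P hb).2.1 f f u u 0 0 h h
  simpa using h1

theorem harm_sum (P : One n N M) (hb : ((𝓡∂ n).boundary M).Nonempty) {ι : Type*}
    (s : Finset ι) {f u : ι → M → Fib N} (h0 : P.Harm 0 0) (h : ∀ i ∈ s, P.Harm (f i) (u i)) :
    P.Harm (∑ i ∈ s, f i) (∑ i ∈ s, u i) := by
  classical
  induction s using Finset.induction_on with
  | empty => simpa using h0
  | insert a s ha ih =>
    rw [Finset.sum_insert ha, Finset.sum_insert ha]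
    have h1 := (fUniq n N M P hb).2.1 _ _ _ _ 1 1 (h a (Finset.mem_insert_self a s))
      (ih fun i hi => h i (Finset.mem_insert_of_mem hi))
    simpa only [one_smul] using h1

end

/-- imaginary part of a component -/
def imC {N : ℕ} (j0 : Fin N) : Fib N →L[ℝ] ℝ :=
  Complex.imCLM.comp ((EuclideanSpace.proj (𝕜 := ℂ) j0).restrictScalars ℝ)

theorem imC_apply {N : ℕ} (j0 : Fin N) (v : Fib N) : imC j0 v = (v j0).im := rfl

/-- (M4) -/
theorem m4 (h0a : M0a_statement.{u}) (h0b : M0b_statement.{u}) : M4_statement.{u} := by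
  intro n N _ M _ _ _ _ _ _ _ _ P Γ hn hN hA hΓ hΓne hSol x hx c hc
  have hbne : ((𝓡∂ n).boundary M).Nonempty := by
    obtain ⟨p, hp⟩ := hΓne
    obtain ⟨O, -, hO⟩ := hΓ
    rw [hO] at hp
    exact ⟨p, hp.2⟩
  have hbd : IsClosed ((𝓡∂ n).boundary M) := by
    rw [← ModelWithCorners.compl_interior]
    exact (fConn n M).1.isClosed_compl
  obtain ⟨hU1, hU2, hU3⟩ := fUniq n N M P hbne
  obtain ⟨hRel, -, -, -⟩ := fLoc n N M
  have hD : RelOpen (tg n x) := hRel x
  have hxt : xc n x x ∈ tg n x := mem_extChartAt_target x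
  have key : ∀ φ : M → ℝ, SmR n φ → Spt n Γ φ → ∃ w : M → ℝ, SmR n w ∧
      (∀ v : Fib N, P.Harm (fun y => (φ y : ℂ) • v) (fun y => (w y : ℂ) • v)) ∧
      ∑ i, c i * pd i (lu (𝓡∂ n) x w) (xc n x x) = 0 := by
    intro φ hφ hs
    obtain ⟨χ, hχ, hχs, hχ1⟩ := m4_chi hΓ hbd hs
    have ha : SmR n (fun y => (φ y + χ y) / 2) := by
      have h1 : SmR n (fun y => (φ y + χ y)) := hφ.add hχ
      simp only [div_eq_mul_inv]
      exact h1.mul contMDiff_const
    have hb : SmR n (fun y => (φ y - χ y) / 2) := by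
      have h1 : SmR n (fun y => (φ y - χ y)) := hφ.sub hχ
      simp only [div_eq_mul_inv]
      exact h1.mul contMDiff_const
    have ha2 : SmR n (fun y => ((φ y + χ y) / 2) ^ 2) := ha.pow 2
    have hb2 : SmR n (fun y => ((φ y - χ y) / 2) ^ 2) := hb.pow 2
    have sa : Spt n Γ (fun y => (φ y + χ y) / 2) := hs.of2 hχs fun y _ h1 h2 => by
      simp [h1, h2]
    have sb : Spt n Γ (fun y => (φ y - χ y) / 2) := hs.of2 hχs fun y _ h1 h2 => by
      simp [h1, h2]
    obtain ⟨w₁, hw₁, hb₁⟩ := h0b n N M P Γ _ hN hA hSol ha2 (sa.of fun y _ h => by simp [h])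
    obtain ⟨w₂, hw₂, hb₂⟩ := h0b n N M P Γ _ hN hA hSol hb2 (sb.of fun y _ h => by simp [h])
    have hsm : SmR n (fun y => w₁ y - w₂ y) := hw₁.sm.sub hw₂.sm
    refine ⟨fun y => w₁ y - w₂ y, hsm, fun v => ?_, ?_⟩
    · have e3 := hU2 _ _ _ _ 1 (-1) (h0a n N M P w₁ v hA hw₁) (h0a n N M P w₂ v hA hw₂)
      have e4 : (1 : ℂ) • (fun y => (w₁ y : ℂ) • v) + (-1 : ℂ) • (fun y => (w₂ y : ℂ) • v) =
          fun y => ((w₁ y - w₂ y : ℝ) : ℂ) • v := by
        funext y
        simp only [Pi.add_apply, Pi.smul_apply, Complex.ofReal_sub]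
        module
      rw [e4] at e3
      refine ⟨e3.smooth, fun y hy => ?_, e3.weak⟩
      have e5 : w₁ y - w₂ y = φ y := by
        rw [hb₁ y hy, hb₂ y hy]
        by_cases h0 : φ y = 0
        · rw [h0]; ring
        · rw [hχ1 y hy h0]; ring
      simp only [e5]
    · have h1 := hc w₁ _ hw₁ ha sa hb₁
      have h2 := hc w₂ _ hw₂ hb sb hb₂
      have e : ∀ i, pd i (lu (𝓡∂ n) x (fun y => w₁ y - w₂ y)) (xc n x x) =
          dd w₁ x i - dd w₂ x i := by
        intro i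
        rw [dd_eq_pd hw₁.sm, dd_eq_pd hw₂.sm]
        exact hD.pd_sub (lu_smooth hw₁.sm x) (lu_smooth hw₂.sm x) hxt i
      simp only [e, mul_sub, Finset.sum_sub_distrib, h1, h2, sub_zero]
  obtain ⟨b, hb, hbx⟩ := cGlobal_second fConn hΓ hΓne x hx
  set j0 : Fin N := ⟨0, hN⟩ with hj0
  obtain ⟨u, ⟨f, hf, hu⟩, hj, -⟩ := fRunge n N M P Γ x b 0 0
    (fun i => ((c i : ℝ) : ℂ) • EuclideanSpace.single j0 (1 : ℂ)) 0 (by omega) hΓ hΓne hSol hx hb
      hbx.symm
  -- real and imaginary parts of the components of the data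
  have hT : ∀ T : Fib N →L[ℝ] ℝ, SmR n (fun y => T (f y)) ∧ Spt n Γ (fun y => T (f y)) := by
    intro T
    refine ⟨T.contMDiff.comp hf.smooth, (closure_mono ?_).trans hf.supp⟩
    rintro y ⟨hy, hy'⟩
    refine ⟨hy, fun h0 => hy' ?_⟩
    simp [h0]
  have kr := fun k : Fin N => key (fun y => dfReC k (f y)) (hT _).1 (hT _).2
  have ki := fun k : Fin N => key (fun y => imC k (f y)) (hT _).1 (hT _).2
  choose wr hwr hhr hcr using kr
  choose wi hwi hhi hci using ki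
  have h0 := harm_zero P hbne hu
  have s1 := harm_sum P hbne Finset.univ h0 fun k _ => hhr k (EuclideanSpace.single k (1 : ℂ))
  have s2 := harm_sum P hbne Finset.univ h0 fun k _ =>
    hhi k (EuclideanSpace.single k Complex.I)
  have s3 := hU2 _ _ _ _ 1 1 s1 s2
  have hue := hU1 _ _ _ _ hu s3 ?_
  · have e1 : ∀ y, dfReC j0 (u y) = wr j0 y := by
      intro y
      rw [hue, reC_apply]
      simp only [one_smul, Pi.add_apply, Finset.sum_apply, PiLp.add_apply, WithLp.ofLp_sum,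
        Finset.sum_apply, WithLp.ofLp_smul, Pi.smul_apply, PiLp.ofLp_single, Pi.single_apply,
        smul_eq_mul, mul_ite, mul_one, mul_zero, Finset.sum_ite_eq, Finset.mem_univ, if_true]
      simp
    have e2 : ∀ i, pd i (lu (𝓡∂ n) x (wr j0)) (xc n x x) = c i := by
      intro i
      have e3 : lu (𝓡∂ n) x (wr j0) = fun y => dfReC j0 (lu (𝓡∂ n) x u y) := by
        funext y
        exact (e1 _).symm
      rw [e3, hD.pd_clm (dfReC j0) (lu_smooth hu.smooth x) hxt i, hj.2 i, reC_apply]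
      simp
    have h2 := hcr j0
    simp only [e2] at h2
    have h3 := (Finset.sum_eq_zero_iff_of_nonneg fun i _ => mul_self_nonneg (c i)).1 h2
    funext i
    exact mul_self_eq_zero.1 (h3 i (Finset.mem_univ i))
  · intro y _
    ext k
    simp only [one_smul, Pi.add_apply, Finset.sum_apply, PiLp.add_apply, WithLp.ofLp_sum,
        Finset.sum_apply, WithLp.ofLp_smul, Pi.smul_apply, PiLp.ofLp_single, Pi.single_apply,
        smul_eq_mul, mul_ite, mul_one, mul_zero, Finset.sum_ite_eq, Finset.mem_univ, if_true]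
    rw [reC_apply, imC_apply]
    exact (Complex.re_add_im _).symm

end Vale.Agent.P088.EYM.O

end
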