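import Vale.Agent.P088.H5.Spec2
import Vale.Agent.P088.TM.H275BC

/-!
# P088, Theorem M, block MD: the Dirichlet principle for ordered conductivities
-/

set_option linter.all false

open Bundle Manifold MeasureTheory Set Filter Topology
open scoped ContDiff Matrix

noncomputable section

namespace Vale.Agent.P088.EYM.O

open Vale.Agent.P088 Vale.Agent.P088.EYM

universe u

section

variable {n N : ℕ} [NeZero n] {M : Type u} [TopologicalSpace M]
  [ChartedSpace (EuclideanHalfSpace n) M] [IsManifold (𝓡∂ n) ∞ M]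

/-- Bilinear forms with the same matrices are equal. -/
theorem inner_of_gram {g g' : Metric (𝓡∂ n) M} {x : M} (h : gram g x x = gram g' x x)
    (v w : TangentSpace (𝓡∂ n) x) : g.inner x v w = g'.inner x v w := by
  have e : ∀ a b : EuclideanSpace ℝ (Fin n), gI g x a b = gI g' x a b := by
    intro a b
    rw [en_expand a, en_expand b]
    simp only [map_sum, map_smul, _root_.sum_apply, _root_.smul_apply]
    refine Finset.sum_congr rfl fun i _ => congrArg _ (Finset.sum_congr rfl fun j _ => ?_)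
    have h1 := congrFun (congrFun h j) i
    rw [gram_self, gram_self] at h1
    have h2 : gI g x (ev j) (ev i) = gI g' x (ev j) (ev i) := h1
    rw [h2]
  exact e v w

/-- The metrics are equal if they are equal in the interior. -/
theorem gram_of_int {g g' : Metric (𝓡∂ n) M} (hcl : ∀ x : M, x ∈ closure (Mi n M))
    (h : ∀ x ∈ Mi n M, gram g x x = gram g' x x) (x : M) : gram g x x = gram g' x x := by
  ext i j
  have h1 : ∀ y ∈ Mi n M, gram g x y = gram g' x y := fun y hy => by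
    rw [gram_eq g x y, gram_eq g' x y, h y hy]
  have hs := extChartAt_source_mem_nhds (I := 𝓡∂ n) x
  have c1 : ContinuousAt (fun y => gram g x y i j) x :=
    (contMDiffOn_gram g x i j).continuousOn.continuousAt hs
  have c2 : ContinuousAt (fun y => gram g' x y i j) x :=
    (contMDiffOn_gram g' x i j).continuousOn.continuousAt hs
  have hne : (𝓝[Mi n M] x).NeBot := mem_closure_iff_nhdsWithin_neBot.1 (hcl x)
  have t1 : Tendsto (fun y => gram g x y i j) (𝓝[Mi n M] x) (𝓝 (gram g x x i j)) :=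
    Tendsto.mono_left c1 nhdsWithin_le_nhds
  have t2 : Tendsto (fun y => gram g' x y i j) (𝓝[Mi n M] x) (𝓝 (gram g' x x i j)) :=
    Tendsto.mono_left c2 nhdsWithin_le_nhds
  refine tendsto_nhds_unique_of_eventuallyEq t1 t2 ?_
  filter_upwards [self_mem_nhdsWithin] with y hy
  rw [h1 y hy]

/-- `d_A u` at `x`, from the 1-jet of `u`. -/
theorem cov_of_jet (A : Connection (𝓡∂ n) N M) {u : M → Fib N} (hu : SmS n u) {x : M}
    {b : Fin n → Fib N} (h : HasJet u x 0 b) (i : Fin n) :
    cov A u x (coordVec (𝓡∂ n) x x i) = b i := by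
  unfold cov
  rw [h.1, dmap_coordVec (𝓡∂ n) (mem_extChartAt_source x) (hu.mdifferentiableAt (by simp)),
    CEnergy_range, map_zero, add_zero]
  exact h.2 i

end

section

variable {n N : ℕ} [NeZero n] {M : Type u} [TopologicalSpace M]
  [ChartedSpace (EuclideanHalfSpace n) M] [IsManifold (𝓡∂ n) ∞ M] [T2Space M] [CompactSpace M]
  [ConnectedSpace M] [MeasurableSpace M] [BorelSpace M]

/-- The Dirichlet principle. -/
theorem dirichlet (P : One n N M) (hne : ((𝓡∂ n).boundary M).Nonempty) {f u w : M → Fib N}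
    (hu : P.Harm f u) (hw : SmS n w) (h : ∀ x ∈ (𝓡∂ n).boundary M, w x = u x) :
    (P.E u u).re ≤ (P.E w w).re := by
  obtain ⟨-, -, h3⟩ := TM.fUniq n N M P hne
  obtain ⟨-, -, -, h4, h5⟩ := TM.fForm n N M P
  have e1 : P.E u w = P.E u u := (h3 f u w u hu hw hu.smooth h).1
  have e2 := h5 u w hu.smooth hw
  have e3 := h4 u hu.smooth
  have e4 := h4 w hw
  rw [e1] at e2
  have e5 : (P.E u u).re ≤ ‖P.E u u‖ := Complex.re_le_norm _
  have e6 : (P.E u u).re ^ 2 ≤ (P.E u u).re * (P.E w w).re :=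
    (pow_le_pow_left₀ e3 e5 2).trans e2
  rcases e3.eq_or_lt with e7 | e7
  · rw [← e7]; exact e4
  · rw [pow_two] at e6
    exact le_of_mul_le_mul_left e6 e7

/-- Solutions with the same data have the same energy. -/
theorem energy_same {P Q : One n N M} {Γ : Set M} (hΓ : RelBd n Γ) (hΓn : Γ.Nonempty)
    (hS : SameD P Q Γ) {u : (M → Fib N) × (M → Fib N)} (hu : u ∈ PP P Q Γ) :
    P.E u.1 u.1 = Q.E u.2 u.2 := by
  obtain ⟨-, hd⟩ := Vale.Agent.P088.EYM.cData TM.fUniq TM.fForm n N M P Q Γ hΓ hΓn hS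
  obtain ⟨f, hf, h1, h2⟩ := hu
  refine hd u ⟨f, hf, h1, h2⟩ u.1 u.2 h1.smooth h2.smooth
    (fun x hx => (h1.boundary x hx).trans (h2.boundary x hx).symm) ?_
  refine (closure_mono ?_).trans hf.supp
  rintro x ⟨hx, hx'⟩
  exact ⟨hx, by rwa [← h1.boundary x hx]⟩

/-- There is a solution of the second problem with data on `Γ` and given 1-jet. -/
theorem jet_ex {P Q : One n N M} {Γ : Set M} (hn : 2 ≤ n) (hΓ : RelBd n Γ) (hΓn : Γ.Nonempty)
    (hS : SameD P Q Γ) {x : M} (hx : x ∈ Mi n M) (a : Fib N) (b : Fin n → Fib N) :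
    ∃ u ∈ PP P Q Γ, HasJet u.2 x a b := by
  obtain ⟨⟨hPs, hQs, -⟩, -⟩ :=
    Vale.Agent.P088.EYM.cData TM.fUniq TM.fForm n N M P Q Γ hΓ hΓn hS
  obtain ⟨hrel, hok, hbd, hsm⟩ := TM.fLoc n N M
  obtain ⟨x', hx', hne⟩ := cCoord_second hrel hbd hx
  obtain ⟨u, ⟨f, hf, hu⟩, hj, -⟩ := TM.fRunge n N M Q Γ x x' a 0 b (fun _ => 0) hn hΓ
    hΓn hQs hx hx' hne
  obtain ⟨u', hu'⟩ := hPs f hf
  exact ⟨(u', u), ⟨f, hf, hu', hu⟩, hj⟩

end

theorem md (h6 : M6_statement.{u}) (h8 : M8_statement) : MD_statement.{u} := by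
  intro n N _ M _ _ _ _ _ _ _ _ P Q Γ hn hN hA hΓ hΓn hS hle
  obtain ⟨hIo, -, hcl⟩ := TM.fConn n M
  have hbne : ((𝓡∂ n).boundary M).Nonempty := by
    obtain ⟨O, -, rfl⟩ := hΓ
    exact ⟨_, hΓn.some_mem.2⟩
  -- the Dirichlet principle
  have hmain : ∀ u ∈ PP P Q Γ, ∀ x i,
      ∑ j, (((sig Q.g x - sig P.g x) i j : ℝ) : ℂ) • cov Q.A u.2 x (coordVec (𝓡∂ n) x x j) = 0 := by
    intro u hu
    have hE := energy_same hΓ hΓn hS hu
    obtain ⟨f, hf, h1, h2⟩ := hu
    refine (h6 n N M P Q u.2 hle h2.smooth).2 ?_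
    have e1 := dirichlet P hbne h1 (w := u.2) h2.smooth
      (fun x hx => (h2.boundary x hx).trans (h1.boundary x hx).symm)
    rw [← hE, ← hA]
    exact e1
  have key : ∀ x ∈ Mi n M, gram Q.g x x = gram P.g x x := by
    intro x hx
    have hs : sig Q.g x = sig P.g x := by
      ext i k
      obtain ⟨u, hu, hj⟩ := jet_ex (n := n) (N := N) (by omega) hΓ hΓn hS hx 0
        (fun j => if j = k then EuclideanSpace.single (⟨0, hN⟩ : Fin N) (1 : ℂ) else 0)
      have h1 := hmain u hu x i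
      obtain ⟨f, hf, h2, h3⟩ := hu
      simp only [cov_of_jet Q.A h3.smooth hj, smul_ite, smul_zero, Finset.sum_ite_eq',
        Finset.mem_univ, if_true] at h1
      have h4 := congrArg (fun v : Fib N => v ⟨0, hN⟩) h1
      simp only [PiLp.smul_apply, EuclideanSpace.single_apply, if_true, PiLp.zero_apply,
        smul_eq_mul, mul_one] at h4
      have h5 : (sig Q.g x - sig P.g x) i k = 0 := by exact_mod_cast h4
      rw [Matrix.sub_apply] at h5
      exact sub_eq_zero.1 h5
    exact h8 n _ _ hn (gram_posDef Q.g (mem_extChartAt_source x))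
      (gram_posDef P.g (mem_extChartAt_source x)) hs
  exact fun x v w => inner_of_gram (gram_of_int hcl key x) v w

end Vale.Agent.P088.EYM.O

end
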