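import Vale.Agent.P088.H5.S0_849
import Vale.Agent.P088.H5.M4332
import Vale.Agent.P088.H5.MD452
import Vale.Agent.P088.H5.MP332

/-!
# P088, Theorem M+: blocks S4, S3 and SF
-/

set_option linter.all false

open Bundle Manifold MeasureTheory Set Filter Topology
open scoped ContDiff Matrix

noncomputable section

namespace Vale.Agent.P088.EYM.O

open Vale.Agent.P088 Vale.Agent.P088.EYM Vale.Agent.P088.TM

universe u

section

variable {n N : ℕ} [NeZero n] {M : Type u} [TopologicalSpace M]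
  [ChartedSpace (EuclideanHalfSpace n) M] [IsManifold (𝓡∂ n) ∞ M]

theorem covI_of_cov (A : Connection (𝓡∂ n) N M) (u : M → Fib N) (x : M) (i : Fin n) :
    covI A u x (es n i) = cov A u x (coordVec (𝓡∂ n) x x i) := by
  rw [coordVec_eq, cc_self]
  rfl

/-- `Re ⟨e, u⟩` is harmonic if `e` is parallel. -/
theorem wk_reI [T2Space M] [CompactSpace M] [MeasurableSpace M] [BorelSpace M]
    (P : One n N M) {e f u : M → Fib N} (he : Par P.A e) (hu : P.Harm f u) :
    Wk P (reI e u) := by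
  refine ⟨smR_reI he.sm hu.smooth, fun ψ hψ h0 => ?_⟩
  have h2 := hu.weak (fun x => (ψ x : ℂ) • e x) (smS_mul hψ he.sm)
    (fun x hx => by simp [h0 x hx])
  have h2 := congrArg Complex.re h2
  unfold energy at h2
  rw [Complex.zero_re] at h2
  have hsw : ∀ x, pairing P.g P.A u (fun x => (ψ x : ℂ) • e x) x =
      (starRingEnd ℂ) (pairing P.g P.A (fun x => (ψ x : ℂ) • e x) u x) := fun x =>
    cForm_pairing_conj P.g P.A _ _ x
  have hint : Integrable (pairing P.g P.A u (fun x => (ψ x : ℂ) • e x)) P.μ := by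
    have := (TM.fInt n N M P).1
    exact integrable_of_continuous (continuous_pairing P.g P.A hu.smooth (smS_mul hψ he.sm))
  have h3 : (∫ x, pairing P.g P.A u (fun x => (ψ x : ℂ) • e x) x ∂P.μ).re =
      ∫ x, (pairing P.g P.A u (fun x => (ψ x : ℂ) • e x) x).re ∂P.μ :=
    (integral_re (𝕜 := ℂ) hint).symm
  rw [h3] at h2
  rw [← h2]
  refine integral_congr_ae (Eventually.of_forall fun x => ?_)
  simp only
  rw [hsw, Complex.conj_re, pairing_par P.g P.A hψ he hu.smooth]
  have h4 : gp P.g (reI e u) ψ x = gp P.g ψ (reI e u) x := by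
    unfold gp
    rw [Finset.sum_comm]
    refine Finset.sum_congr rfl fun i _ => Finset.sum_congr rfl fun j _ => ?_
    rw [gram_inv_symm P.g x j i]
    ring
  rw [h4]
  simp

end

/-- (S4) -/
theorem s4 : S4_statement.{u} := by
  intro n N _ M _ _ _ _ _ _ _ _ P Γ e hn he h1 hΓ hΓne hSol x hx c hc
  have hbne : ((𝓡∂ n).boundary M).Nonempty := by
    obtain ⟨p, hp⟩ := hΓne
    obtain ⟨O, -, hO⟩ := hΓ
    rw [hO] at hp
    exact ⟨p, hp.2⟩
  have hbd : IsClosed ((𝓡∂ n).boundary M) := by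
    rw [← ModelWithCorners.compl_interior]
    exact (fConn n M).1.isClosed_compl
  have hin : ∀ y, inner ℂ (e y) (e y) = (1 : ℂ) := by
    intro y
    rw [inner_self_eq_norm_sq_to_K, h1 y]
    simp
  obtain ⟨hU1, hU2, hU3⟩ := fUniq n N M P hbne
  obtain ⟨b, hb, hbx⟩ := cGlobal_second fConn hΓ hΓne x hx
  obtain ⟨u, ⟨f, hf, hu⟩, hj, -⟩ := fRunge n N M P Γ x b 0 0
    (fun i => ((c i : ℝ) : ℂ) • e x) 0 (by omega) hΓ hΓne hSol hx hb hbx.symm
  have hw := wk_reI P he.toPar hu
  -- boundary values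
  have hφ : SmR n (reI e f) := smR_reI he.sm hf.smooth
  have hφs : Spt n Γ (reI e f) := by
    refine (closure_mono ?_).trans hf.supp
    rintro y ⟨hy, hy'⟩
    refine ⟨hy, fun h0 => hy' ?_⟩
    rw [reI, h0, inner_zero_right]
    rfl
  have hwb : ∀ y ∈ (𝓡∂ n).boundary M, reI e u y = reI e f y := by
    intro y hy
    rw [reI, reI, hu.boundary y hy]
  obtain ⟨χ, hχ, hχs, hχ1⟩ := m4_chi hΓ hbd hφs
  have ha : SmR n (fun y => (reI e f y + χ y) / 2) := by
    have h2 : SmR n (fun y => (reI e f y + χ y)) := hφ.add hχ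
    simp only [div_eq_mul_inv]
    exact h2.mul contMDiff_const
  have hb : SmR n (fun y => (reI e f y - χ y) / 2) := by
    have h2 : SmR n (fun y => (reI e f y - χ y)) := hφ.sub hχ
    simp only [div_eq_mul_inv]
    exact h2.mul contMDiff_const
  have ha2 : SmR n (fun y => ((reI e f y + χ y) / 2) ^ 2) := ha.pow 2
  have hb2 : SmR n (fun y => ((reI e f y - χ y) / 2) ^ 2) := hb.pow 2
  have sa : Spt n Γ (fun y => (reI e f y + χ y) / 2) := hφs.of2 hχs fun y _ h1 h2 => by
    simp [h1, h2]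
  have sb : Spt n Γ (fun y => (reI e f y - χ y) / 2) := hφs.of2 hχs fun y _ h1 h2 => by
    simp [h1, h2]
  obtain ⟨w₁, hw₁, hb₁⟩ := s0b n N M P Γ _ e he h1 hSol ha2 (sa.of fun y _ h => by simp [h])
  obtain ⟨w₂, hw₂, hb₂⟩ := s0b n N M P Γ _ e he h1 hSol hb2 (sb.of fun y _ h => by simp [h])
  have hwe : ∀ y, reI e u y = w₁ y - w₂ y := by
    have e3 := hU2 _ _ _ _ 1 (-1) (harm_par P he.toPar hw₁) (harm_par P he.toPar hw₂)
    have e4 := hU1 _ _ _ _ (harm_par P he.toPar hw) e3 ?_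
    · intro y
      have e5 := congrFun e4 y
      simp only [Pi.add_apply, Pi.smul_apply, one_smul, neg_smul] at e5
      have e6 := congrArg (fun v => inner ℂ (e y) v) e5
      simp only [Pi.neg_apply, inner_add_right, inner_neg_right, inner_smul_right, hin,
        mul_one] at e6
      have e7 : reI e u y = w₁ y + -w₂ y := by exact_mod_cast e6
      rw [e7, sub_eq_add_neg]
    · intro y hy
      simp only [Pi.add_apply, Pi.smul_apply, one_smul, neg_smul]
      have e5 : reI e u y = w₁ y - w₂ y := by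
        rw [hwb y hy, hb₁ y hy, hb₂ y hy]
        by_cases h0 : reI e f y = 0
        · rw [h0]; ring
        · rw [hχ1 y hy h0]; ring
      simp only [Pi.neg_apply]
      rw [e5, Complex.ofReal_sub, sub_smul, sub_eq_add_neg]
  have hsum : ∑ i, c i * dd (reI e u) x i = 0 := by
    have h2 := hc w₁ _ hw₁ ha sa hb₁
    have h3 := hc w₂ _ hw₂ hb sb hb₂
    have e : ∀ i : Fin n, dd (reI e u) x i = dd w₁ x i - dd w₂ x i := by
      intro i
      have e8 : reI e u = fun y => w₁ y - w₂ y := funext hwe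
      have e9 : SmR n (fun y => w₁ y - w₂ y) := hw₁.sm.sub hw₂.sm
      rw [e8, dd_eq_pd e9, dd_eq_pd hw₁.sm, dd_eq_pd hw₂.sm]
      have hD : RelOpen (tg n x) := (fLoc n N M).1 x
      have hxt : xc n x x ∈ tg n x := mem_extChartAt_target x
      exact hD.pd_sub (lu_smooth hw₁.sm x) (lu_smooth hw₂.sm x) hxt i
    simp only [e, mul_sub, Finset.sum_sub_distrib, h2, h3, sub_zero]
  have hdd : ∀ i : Fin n, dd (reI e u) x i = c i := by
    intro i
    rw [dd_reI P.A he.toPar hu.smooth, covI_of_cov, cov_of_jet P.A hu.smooth hj i,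
      inner_smul_right, hin, mul_one, Complex.ofReal_re]
  simp only [hdd] at hsum
  have h3 := (Finset.sum_eq_zero_iff_of_nonneg fun i _ => mul_self_nonneg (c i)).1 hsum
  funext i
  exact mul_self_eq_zero.1 (h3 i (Finset.mem_univ i))

/-- `⟨v, w⟩` as a real bilinear map. -/
def inB {N : ℕ} : Fib N →L[ℝ] Fib N →L[ℝ] ℂ :=
  LinearMap.mkContinuous₂
    (LinearMap.mk₂ ℝ (fun v w : Fib N => (inner ℂ v w : ℂ))
      (fun a b c => inner_add_left a b c)
      (fun c a b => by
        rw [← Complex.coe_smul, inner_smul_left, Complex.conj_ofReal]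
        rfl)
      (fun a b c => inner_add_right a b c)
      (fun c a b => by
        rw [← Complex.coe_smul, inner_smul_right]
        rfl)) 1
    (fun v w => by
      rw [one_mul]
      exact norm_inner_le_norm v w)

theorem inB_apply {N : ℕ} (v w : Fib N) : inB v w = inner ℂ v w := rfl

/-- A parallel section in the interior has constant norm. -/
theorem norm_int {n N : ℕ} [NeZero n] {M : Type u} [TopologicalSpace M]
    [ChartedSpace (EuclideanHalfSpace n) M] [IsManifold (𝓡∂ n) ∞ M] [ConnectedSpace M]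
    (A : Connection (𝓡∂ n) N M) {s : M → Fib N}
    (hs : ContMDiffOn (𝓡∂ n) 𝓘(ℝ, Fib N) ∞ s (Mi n M))
    (hp : ∀ x ∈ Mi n M, ∀ X : TangentSpace (𝓡∂ n) x, cov A s x X = 0) :
    ∀ x ∈ Mi n M, ∀ y ∈ Mi n M, ‖s x‖ = ‖s y‖ := by
  obtain ⟨hIo, hIc, hIcl⟩ := TM.fConn n M
  have hsd : ∀ x ∈ Mi n M, MDifferentiableAt (𝓡∂ n) 𝓘(ℝ, Fib N) s x := fun x hx =>
    (hs.contMDiffAt (hIo.mem_nhds hx)).mdifferentiableAt (by simp)
  have hsm : ContDiff ℝ ∞ (fun v : Fib N => inB v v) :=
    inB.contDiff.clm_apply contDiff_id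
  have h3 := const_of_dmap (f := fun y => inB (s y) (s y))
    (hsm.contMDiff.comp_contMDiffOn hs) (fun x hx X => by
      rw [dmap_bilin inB (hsd x hx) (hsd x hx) X]
      have h1 : dmap (𝓡∂ n) s x X = -(A.form x X (s x)) :=
        eq_neg_of_add_eq_zero_left (hp x hx X)
      have h8 : inner ℂ (A.form x X (s x)) (s x) = -inner ℂ (s x) (A.form x X (s x)) := by
        rw [← ContinuousLinearMap.adjoint_inner_right, A.skew x X,
          ContinuousLinearMap.neg_apply, inner_neg_right]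
      rw [h1, inB_apply, inB_apply, inner_neg_left, inner_neg_right, h8, neg_neg, add_neg_cancel])
  intro x hx y hy
  have h5 := h3 x hx y hy
  simp only [inB_apply, inner_self_eq_norm_sq_to_K] at h5
  have h6 : ‖s x‖ ^ 2 = ‖s y‖ ^ 2 := by exact_mod_cast h5
  exact (pow_left_inj₀ (norm_nonneg _) (norm_nonneg _) two_ne_zero).1 h6

/-- (S3) -/
theorem s3 : S3_statement.{u} := by
  intro n N _ M _ _ _ _ _ _ A w u e p hw hpos hu he h1 hb hrel hp hwp
  obtain ⟨hIo, hIc, hIcl⟩ := TM.fConn n M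
  obtain ⟨s, hs, -, hpar, hlim⟩ := m3p n N M A w u e hw hpos hu hb hrel
  refine ⟨s, hs, fun x hx => ?_, hpar, hlim⟩
  have hne : (𝓝[Mi n M] p).NeBot := mem_closure_iff_nhdsWithin_neBot.1 (hIcl p)
  have h2 : Tendsto (fun y => ‖s y‖) (𝓝[Mi n M] p) (𝓝 ‖e p‖) := (hlim p hp hwp).norm
  have h3 : (fun y => ‖s y‖) =ᶠ[𝓝[Mi n M] p] fun _ => ‖s x‖ := by
    filter_upwards [self_mem_nhdsWithin] with y hy
    exact norm_int A hs hpar y hy x hx
  rw [h1 p] at h2
  exact (tendsto_nhds_unique (h2.congr' h3) tendsto_const_nhds).symm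

/-- (SF) -/
theorem sF : SF_statement.{u} := by
  intro n N _ M _ _ _ _ _ _ _ _ P Q hbd hS e he
  obtain ⟨e', h1, h2, h3⟩ := mfp n N M P Q hbd hS e he.sm he.par
  exact ⟨e', ⟨h1, h3⟩, h2⟩

end Vale.Agent.P088.EYM.O

end
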