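import Vale.Agent.P088.H5.St2

/-!
# P088: gauge equivalent connections and ordered metrics on a set
-/

open Manifold MeasureTheory Set
open scoped ContDiff Matrix

noncomputable section

namespace Vale.Agent.P088.B

universe u

variable {n N : ℕ} {M : Type u} {Z : At n M}

/-- `A₂ = U⁻¹ A₁ U + U⁻¹ dU` on `W` for a smooth `U : M → U(N)` with `U = I` on `Γ`. -/
def GaugeOn (W Γ : Set M) (A₁ A₂ : M → Fin n → Matrix (Fin N) (Fin N) ℂ) (Z : At n M) : Prop :=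
  ∃ U : M → Matrix (Fin N) (Fin N) ℂ, (∀ a, Sm Z (fun x => U x a)) ∧ (∀ x, (U x)ᴴ * U x = 1) ∧
    (∀ x ∈ Γ, U x = 1) ∧ ∀ x ∈ W, ∀ j, A₂ x j = (U x)ᴴ *
      (A₁ x j * U x + dM (fun y => U (pt Z x y)) (Z.ch x x) j)

/-- `√(det g₁) g₁⁻¹ ≤ √(det g₂) g₂⁻¹` on `W`. -/
def SigOn (W : Set M) (P Q : Pair Z N) : Prop :=
  ∀ x ∈ W, (√(Q.g x).det • (Q.g x)⁻¹ - √(P.g x).det • (P.g x)⁻¹).PosSemidef

end Vale.Agent.P088.B
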