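import Vale.Agent.P088.H5.S9_435
import Vale.Agent.P088.H5.S4_332
import Vale.Agent.P088.H5.MP332
import Vale.Agent.P088.H5.ElemMP
import Vale.Agent.P088.H5.St3
import Vale.Agent.P088.TM.Br2

/-!
# P088, Theorem M+: from the abstract theorems to the elementary statements
-/

open Bundle Manifold MeasureTheory Set Filter
open scoped ContDiff Matrix Topology ENNReal

noncomputable section

set_option linter.all false

namespace Vale.Agent.P088.B2

open Vale.Agent.P088 Vale.Agent.P088.B Vale.Agent.P088.EYM Vale.Agent.P088.EYM.O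

universe u

section

variable {n : ℕ} [NeZero n] {N : ℕ} {M : Type u} [TopologicalSpace M]
  [ChartedSpace (EuclideanHalfSpace n) M] [IsManifold (𝓡∂ n) ∞ M]

theorem covI_exp (A : Connection (𝓡∂ n) N M) (u : M → Fib N) (x : M)
    (v : EuclideanSpace ℝ (Fin n)) : covI A u x v = ∑ i, v i • covI A u x (es n i) := by
  rw [← covI_sum]
  congr 1
  ext k
  simp [es, Finset.sum_apply, Pi.single_apply]

/-- parallel sections -/
theorem par_toF (P : Pair (at_ n M) N) (e : M → Fin N → ℂ) :
    Par P e ↔ ParS (S.connOf (conv P)) (S.toF e) := by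
  constructor
  · rintro ⟨h1, h2⟩
    have h1' : Vale.Agent.P088.S.Sm n e := h1
    have key : ∀ (x : M) (X : EuclideanSpace ℝ (Fin n)),
        covI (S.connOf (conv P)) (S.toF e) x X = 0 := by
     intro x X
     rw [covI_exp]
     refine Finset.sum_eq_zero fun i _ => ?_
     rw [S.covI_toF (conv P) h1']
     have h3 : Vale.Agent.P088.S.cov (conv P) e x i = 0 := by
       funext a
       rw [← brst2_cov]
       exact h2 x i a
     rw [h3]
     simp
    exact ⟨(S.sm_iff e).1 h1', fun x X => key x X⟩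
  · rintro ⟨h1, h2⟩
    have h1' : Vale.Agent.P088.S.Sm n e := (S.sm_iff e).2 h1
    refine ⟨h1', fun x i a => ?_⟩
    rw [brst2_cov]
    have h3 : covI (S.connOf (conv P)) (S.toF e) x (es n i) = 0 := h2 x (es n i)
    rw [S.covI_toF (conv P) h1'] at h3
    have h4 : Vale.Agent.P088.S.cov (conv P) e x i = 0 :=
      (WithLp.toLp_injective 2) (h3.trans (WithLp.toLp_zero 2).symm)
    rw [h4]
    rfl

theorem par_ofF (P : Pair (at_ n M) N) {e : M → Fib N}
    (h : ParS (S.connOf (conv P)) e) : Par P (fun x a => e x a) :=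
  (par_toF P _).2 h

/-- metrics -/
theorem g_of_inner {P Q : Pair (at_ n M) N} {x : M}
    (h : ∀ v w : EuclideanSpace ℝ (Fin n), S.bil ((conv Q).mat x) v w = S.bil ((conv P).mat x) v w) :
    Q.g x = P.g x := by
  ext i j
  have h1 := h (es n i) (es n j)
  rw [S.bil_apply, S.bil_apply] at h1
  simp only [S.es_apply] at h1
  have h2 : (conv Q).mat x i j = (conv P).mat x i j := by simpa using h1
  exact h2

theorem sig_one (P : Pair (at_ n M) N) (x : M) :
    sig (S.gOf (conv P)) x = √(P.g x).det • (P.g x)⁻¹ := by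
  unfold sig
  rw [S.gram_self_gOf]
  rfl

theorem sameD_one {Γ : Set M} {P Q : Pair (at_ n M) N} (h : B.SameData Γ P Q) :
    @EYM.SameD n N _ M _ _ _ (borel M) (one P) (one Q) Γ := by
  intro f h' hf hh
  obtain ⟨u, v, u', v', a1, a2, a3, a4, a5⟩ := h _ _ (bdData' hf) (bdData' hh)
  refine ⟨S.toF u, S.toF v, S.toF u', S.toF v', harm_one a1, harm_one a2, harm_one a3,
    harm_one a4, ?_⟩
  rw [energy_one a1 a2, energy_one a3 a4] at a5
  exact a5

end

/-- Theorem M+, elementary form. -/
theorem elemMP (h9 : S9_statement.{u}) (hf : SF_statement.{u}) :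
    Vale.Agent.P088.H5.MP_elem.{u} := by
  intro n N _ hn M _ _ _ _ _ _ Z hZ Γ O hO hΓ hne P Q hd
  subst hZ
  rw [bd_at] at hΓ
  let _ : MeasurableSpace M := borel M
  have _ : BorelSpace M := ⟨rfl⟩
  have hS := sameD_one hd
  have hrel : RelBd n Γ := ⟨O, hO, hΓ⟩
  have key : SigLe P Q → ∀ e : M → Fin N → ℂ, Par P e →
      (∃ e', Par Q e' ∧ ∀ x ∈ Γ, e' x = e x) ∧ (e ≠ 0 → Q.g = P.g) := by
    intro hle e he
    have h1 := h9 n N M (one P) (one Q) Γ hn hrel hne hS
      (fun x => by
        show (sig (S.gOf (conv Q)) x - sig (S.gOf (conv P)) x).PosSemidef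
        rw [sig_one, sig_one]
        exact hle x) (S.toF e) ((par_toF P e).1 he)
    obtain ⟨⟨e', he', heq⟩, h2⟩ := h1
    refine ⟨⟨fun x a => e' x a, par_ofF Q he', fun x hx => ?_⟩, fun hne0 => ?_⟩
    · funext a
      show e' x a = e x a
      rw [heq x hx]
      rfl
    · funext x
      refine g_of_inner fun v w => h2 (fun h0 => hne0 ?_) x v w
      funext y
      have h3 : S.toF e y = 0 := congrFun h0 y
      exact (WithLp.toLp_injective 2) (h3.trans (WithLp.toLp_zero 2).symm)
  refine ⟨fun h e he => ?_, fun hle => fun ⟨e, he, hne0⟩ => (key hle e he).2 hne0⟩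
  rcases h with h | h
  · rw [bd_at] at h
    subst h
    obtain ⟨e', he', heq⟩ := hf n N M (one P) (one Q) hne hS (S.toF e) ((par_toF P e).1 he)
    refine ⟨fun x a => e' x a, par_ofF Q he', fun x hx => ?_⟩
    funext a
    show e' x a = e x a
    rw [heq x hx]
    rfl
  · exact (key h e he).1

theorem elemMP_closed : Vale.Agent.P088.H5.MP_elem.{u} := elemMP (s9 s4) sF

end Vale.Agent.P088.B2
end
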