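import Vale.Agent.P088.H5.Spec2
import Vale.Agent.P088.H5.M6_275
import Vale.Agent.P088.TM.H275BC

/-!
# P088, Theorem L: local monotonicity (metrics ordered on a connected open set which meets `Γ`)
-/

open Bundle Manifold MeasureTheory Set Filter Topology
open scoped ContDiff Matrix

noncomputable section

namespace Vale.Agent.P088.EYM.O

open Vale.Agent.P088 Vale.Agent.P088.EYM

universe u

/-- A positive semidefinite Hermitian form on smooth sections. -/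
structure Psd (n : ℕ) {N : ℕ} [NeZero n] {M : Type u} [TopologicalSpace M]
    [ChartedSpace (EuclideanHalfSpace n) M] (G : (M → Fib N) → (M → Fib N) → ℂ) : Prop where
  add : ∀ u v w : M → Fib N, SmS n u → SmS n v → SmS n w → G u (v + w) = G u v + G u w
  smul : ∀ (a : ℂ) (u v : M → Fib N), SmS n u → SmS n v → G u (a • v) = a * G u v
  conj : ∀ u v : M → Fib N, SmS n u → SmS n v → G v u = (starRingEnd ℂ) (G u v)
  nonneg : ∀ u : M → Fib N, SmS n u → 0 ≤ (G u u).re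

/-- The difference of the two energy densities, relative to `P.μ`. -/
def DD {n N : ℕ} [NeZero n] {M : Type u} [TopologicalSpace M]
    [ChartedSpace (EuclideanHalfSpace n) M] [IsManifold (𝓡∂ n) ∞ M] [MeasurableSpace M]
    (P Q : One n N M) (u v : M → Fib N) (x : M) : ℂ :=
  ((rho P.g Q.g x : ℝ) : ℂ) * pairing Q.g Q.A u v x - pairing P.g Q.A u v x

/-- (LB) propagation of the zero set and the commutator: `φ = χ h` with a cut-off `χ` which is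
`1` around the closed ball `cb n x ρ`. -/
def LB_statement : Prop :=
  ∀ (n N : ℕ) [NeZero n] (M : Type u) [TopologicalSpace M] [ChartedSpace (EuclideanHalfSpace n) M]
    [IsManifold (𝓡∂ n) ∞ M] [T2Space M] [CompactSpace M] [ConnectedSpace M] [MeasurableSpace M]
    [BorelSpace M] (P : One n N M) (Γ W : Set M) (x : M) (R ρ : ℝ), RelBd n Γ → IsClosed W →
    IsCB n x R → 0 < ρ → ρ < R → Disjoint (cb n x R) W →
    IsPreconnected (Mi n M \ (W ∪ cb n x ρ)) → (Γ \ W).Nonempty →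
    ∀ w : ℕ → M → Fib N, (∀ k, SmS n (w k)) → (∀ k, ∀ y ∈ (𝓡∂ n).boundary M, w k y = 0) →
    (∀ ε > 0, ∃ k₀, ∀ k ≥ k₀, ∀ l ≥ k₀, (P.E (w k - w l) (w k - w l)).re ≤ ε) →
    (∀ ε > 0, ∃ k₀, ∀ k ≥ k₀, ∀ l ≥ k₀, ∫ y, ‖w k y - w l y‖ ^ 2 ∂P.μ ≤ ε) →
    (∀ φ : M → Fib N, IsBdryData (𝓡∂ n) Γ φ → tsupport φ ⊆ (W ∪ cb n x ρ)ᶜ →
      Tendsto (fun k => P.E (w k) φ) atTop (𝓝 0)) →
    ∀ f h : M → Fib N, P.Harm f h → ∃ φ : M → Fib N, SmS n φ ∧
      (∀ y ∈ (𝓡∂ n).boundary M, φ y = 0) ∧ tsupport φ ⊆ Wᶜ ∧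
      tsupport (φ - h) ⊆ (cb n x ρ)ᶜ ∧ Tendsto (fun k => P.E (w k) φ) atTop (𝓝 0)

/-- (LR) the Runge approximation in the forms `G₁` (carried by the ball) and `G₂` (carried by
`W`): solutions which are close to `h` on the ball and small on `W`. -/
def LR_statement : Prop :=
  ∀ (n N : ℕ) [NeZero n] (M : Type u) [TopologicalSpace M] [ChartedSpace (EuclideanHalfSpace n) M]
    [IsManifold (𝓡∂ n) ∞ M] [T2Space M] [CompactSpace M] [ConnectedSpace M] [MeasurableSpace M]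
    [BorelSpace M] (P : One n N M) (Γ W : Set M) (x : M) (R ρ : ℝ)
    (G₁ G₂ : (M → Fib N) → (M → Fib N) → ℂ) (C : ℝ) (h : M → Fib N), RelBd n Γ → P.HasSol Γ →
    IsClosed W → IsCB n x R → 0 < ρ → ρ < R → Disjoint (cb n x R) W →
    IsPreconnected (Mi n M \ (W ∪ cb n x ρ)) → (Γ \ W).Nonempty → Psd n G₁ → Psd n G₂ →
    (∀ φ : M → Fib N, SmS n φ → tsupport φ ⊆ (cb n x ρ)ᶜ → G₁ φ φ = 0) →
    (∀ φ : M → Fib N, SmS n φ → tsupport φ ⊆ Wᶜ → G₂ φ φ = 0) →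
    (∀ φ : M → Fib N, SmS n φ → (∀ y ∈ (𝓡∂ n).boundary M, φ y = 0) →
      (G₁ φ φ).re + (G₂ φ φ).re ≤ C * (P.E φ φ).re) → h ∈ P.U Γ →
    ∀ ε > 0, ∃ u ∈ P.U Γ, (G₁ (u - h) (u - h)).re + (G₂ u u).re ≤ ε

/-- (LC) comparison of two energies. -/
def LC_statement : Prop :=
  ∀ (n N : ℕ) [NeZero n] (M : Type u) [TopologicalSpace M] [ChartedSpace (EuclideanHalfSpace n) M]
    [IsManifold (𝓡∂ n) ∞ M] [T2Space M] [CompactSpace M] [ConnectedSpace M] [MeasurableSpace M]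
    [BorelSpace M] (P Q : One n N M), ∃ C : ℝ, 0 < C ∧ ∀ v : M → Fib N, SmS n v →
      (P.E v v).re ≤ C * ((Q.E v v).re + ∫ x, ‖v x‖ ^ 2 ∂Q.μ)

/-- (LD) topology. -/
def LD_statement : Prop :=
  ∀ (n : ℕ) [NeZero n] (M : Type u) [TopologicalSpace M] [ChartedSpace (EuclideanHalfSpace n) M]
    [IsManifold (𝓡∂ n) ∞ M] [T2Space M] [CompactSpace M] [ConnectedSpace M] (O : Set M) (x : M)
    (R ρ : ℝ), 2 ≤ n → IsOpen O → IsPreconnected O → IsCB n x R → 0 < ρ → ρ < R →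
    cb n x R ⊆ O → IsPreconnected (Mi n M \ (Oᶜ ∪ cb n x ρ))

/-- (LE) the inequality for the solutions of the second problem. -/
def LE_statement : Prop :=
  ∀ (n N : ℕ) [NeZero n] (M : Type u) [TopologicalSpace M] [ChartedSpace (EuclideanHalfSpace n) M]
    [IsManifold (𝓡∂ n) ∞ M] [T2Space M] [CompactSpace M] [ConnectedSpace M] [MeasurableSpace M]
    [BorelSpace M] (P Q : One n N M) (Γ O B : Set M), RelBd n Γ → Γ.Nonempty → SameD P Q Γ →
    IsOpen O → (∀ x ∈ O, ∀ X : TangentSpace (𝓡∂ n) x, P.A.form x X = Q.A.form x X) →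
    (∀ x ∈ O, (sig Q.g x - sig P.g x).PosSemidef) → MeasurableSet B → B ⊆ O →
    ∀ u ∈ PP P Q Γ, (∫ x in B, (DD P Q u.2 u.2 x).re ∂P.μ) ≤
      ∫ x in Oᶜ, (pairing P.g P.A u.2 u.2 x).re ∂P.μ

/-- (LG) the two forms. -/
def LG_statement : Prop :=
  ∀ (n N : ℕ) [NeZero n] (M : Type u) [TopologicalSpace M] [ChartedSpace (EuclideanHalfSpace n) M]
    [IsManifold (𝓡∂ n) ∞ M] [T2Space M] [CompactSpace M] [ConnectedSpace M] [MeasurableSpace M]
    [BorelSpace M] (P Q : One n N M) (O K : Set M), ((𝓡∂ n).boundary M).Nonempty → IsOpen O →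
    IsClosed K → K ⊆ O → (∀ x ∈ O, (sig Q.g x - sig P.g x).PosSemidef) →
    Psd n (fun u v => ∫ x in K, DD P Q u v x ∂P.μ) ∧
      Psd n (fun u v => ∫ x in Oᶜ, pairing P.g P.A u v x ∂P.μ) ∧
      (∀ φ : M → Fib N, SmS n φ → tsupport φ ⊆ Kᶜ → ∫ x in K, DD P Q φ φ x ∂P.μ = 0) ∧
      (∀ φ : M → Fib N, SmS n φ → tsupport φ ⊆ O →
        ∫ x in Oᶜ, pairing P.g P.A φ φ x ∂P.μ = 0) ∧
      ∃ C : ℝ, ∀ φ : M → Fib N, SmS n φ → (∀ y ∈ (𝓡∂ n).boundary M, φ y = 0) →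
        (∫ x in K, DD P Q φ φ x ∂P.μ).re + (∫ x in Oᶜ, pairing P.g P.A φ φ x ∂P.μ).re ≤
          C * (Q.E φ φ).re

/-- (LL) Theorem L, abstract form. -/
def LL_statement : Prop :=
  ∀ (n N : ℕ) [NeZero n] (M : Type u) [TopologicalSpace M] [ChartedSpace (EuclideanHalfSpace n) M]
    [IsManifold (𝓡∂ n) ∞ M] [T2Space M] [CompactSpace M] [ConnectedSpace M] [MeasurableSpace M]
    [BorelSpace M] (P Q : One n N M) (Γ O : Set M), 3 ≤ n → 0 < N → RelBd n Γ → IsOpen O →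
    IsPreconnected O → (O ∩ Γ).Nonempty → SameD P Q Γ →
    (∀ x ∈ O, ∀ X : TangentSpace (𝓡∂ n) x, P.A.form x X = Q.A.form x X) →
    (∀ x ∈ O, (sig Q.g x - sig P.g x).PosSemidef) →
    ∀ x ∈ O, ∀ v w : TangentSpace (𝓡∂ n) x, Q.g.inner x v w = P.g.inner x v w

end Vale.Agent.P088.EYM.O

end
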