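import Vale.Agent.P088.H5.Br
import Vale.Agent.P088.H5.Spec4
import Vale.Agent.P088.H5.St3

/-!
# P088, Theorem L: from the abstract theorem to the elementary statement
-/

set_option linter.all false

open Bundle Manifold MeasureTheory Set Filter
open scoped ContDiff Matrix Topology ENNReal

noncomputable section

namespace Vale.Agent.P088.EYM.O

open Vale.Agent.P088 Vale.Agent.P088.EYM

universe u

section

variable {n N : ℕ} [NeZero n] {M : Type u} [TopologicalSpace M]
  [ChartedSpace (EuclideanHalfSpace n) M] [IsManifold (𝓡∂ n) ∞ M] [T2Space M] [CompactSpace M]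
  [ConnectedSpace M] [MeasurableSpace M] [BorelSpace M]

theorem d_uni_left' {U : M → EndF N} (hU : IsSmoothUnitary (𝓡∂ n) U) (x : M)
    (a : EuclideanSpace ℝ (Fin n)) :
    ContinuousLinearMap.adjoint (dmap (𝓡∂ n) U x a) * U x +
      ContinuousLinearMap.adjoint (U x) * dmap (𝓡∂ n) U x a = 0 := by
  have h3 : U x * ContinuousLinearMap.adjoint (dmap (𝓡∂ n) U x a) +
      dmap (𝓡∂ n) U x a * ContinuousLinearMap.adjoint (U x) = 0 := d_uni_right hU x a
  have h5 : ContinuousLinearMap.adjoint (U x) * U x = 1 := (Unitary.mem_iff.1 (hU.unitary x)).1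
  generalize ContinuousLinearMap.adjoint (dmap (𝓡∂ n) U x a) = dg' at h3
  generalize dmap (𝓡∂ n) U x a = dg at h3
  generalize ContinuousLinearMap.adjoint (U x) = g' at h3 h5
  generalize U x = g at h3 h5
  calc dg' * g + g' * dg = g' * (g * dg' + dg * g') * g := by
        rw [mul_add, add_mul, ← mul_assoc g' g dg', h5, one_mul, mul_assoc g' (dg * g') g,
          mul_assoc dg g' g, h5, mul_one]
    _ = 0 := by rw [h3, mul_zero, zero_mul]

/-- the connection `U⁻¹ A U + U⁻¹ dU` -/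
def gConn (B : Connection (𝓡∂ n) N M) {U : M → EndF N} (hU : IsSmoothUnitary (𝓡∂ n) U) :
    Connection (𝓡∂ n) N M where
  form x := ((ContinuousLinearMap.mul ℝ (EndF N) (ContinuousLinearMap.adjoint (U x))) ∘L
      ((ContinuousLinearMap.mul ℝ (EndF N)).flip (U x)) ∘L B.form x) +
    (ContinuousLinearMap.mul ℝ (EndF N) (ContinuousLinearMap.adjoint (U x))) ∘L
      dmap (𝓡∂ n) U x
  smooth p i := by
    have h1 := B.smooth p i
    have h2 : ContMDiffOn (𝓡∂ n) 𝓘(ℝ, EndF N) ∞ U (extChartAt (𝓡∂ n) p).source :=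
      hU.smooth.contMDiffOn
    have h3 : ContMDiffOn (𝓡∂ n) 𝓘(ℝ, EndF N) ∞ (fun x => ContinuousLinearMap.adjoint (U x))
        (extChartAt (𝓡∂ n) p).source := (contMDiff_adj hU.smooth).contMDiffOn
    have h4 := contMDiffOn_dmap_coordVec hU.smooth p i
    have h5 : ContMDiffOn (𝓡∂ n) 𝓘(ℝ, EndF N) ∞ (fun x => ContinuousLinearMap.adjoint (U x) *
        (B.form x (coordVec (𝓡∂ n) p x i) * U x)) (extChartAt (𝓡∂ n) p).source :=
      isBB_mul.contDiff.contMDiff.comp_contMDiffOn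
        (h3.prodMk_space (isBB_mul.contDiff.contMDiff.comp_contMDiffOn (h1.prodMk_space h2)))
    have h6 : ContMDiffOn (𝓡∂ n) 𝓘(ℝ, EndF N) ∞ (fun x => ContinuousLinearMap.adjoint (U x) *
        dmap (𝓡∂ n) U x (coordVec (𝓡∂ n) p x i)) (extChartAt (𝓡∂ n) p).source :=
      isBB_mul.contDiff.contMDiff.comp_contMDiffOn (h3.prodMk_space h4)
    exact h5.add h6
  skew x v := by
    have h1 := B.skew x v
    have h2 := d_uni_left' hU x v
    show ContinuousLinearMap.adjoint (ContinuousLinearMap.adjoint (U x) * (B.form x v * U x) +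
        ContinuousLinearMap.adjoint (U x) * dmap (𝓡∂ n) U x v) =
      -(ContinuousLinearMap.adjoint (U x) * (B.form x v * U x) +
        ContinuousLinearMap.adjoint (U x) * dmap (𝓡∂ n) U x v)
    simp only [← ContinuousLinearMap.star_eq_adjoint] at h1 h2 ⊢
    rw [star_add, star_mul, star_mul, star_mul, star_star, h1]
    have h3 : star (dmap (𝓡∂ n) U x v) * U x = -(star (U x) * dmap (𝓡∂ n) U x v) :=
      eq_neg_of_add_eq_zero_left h2
    rw [h3]
    noncomm_ring

theorem gConn_form (B : Connection (𝓡∂ n) N M) {U : M → EndF N} (hU : IsSmoothUnitary (𝓡∂ n) U)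
    (x : M) (X : TangentSpace (𝓡∂ n) x) : (gConn B hU).form x X =
      ContinuousLinearMap.adjoint (U x) ∘L B.form x X ∘L U x +
        ContinuousLinearMap.adjoint (U x) ∘L dmap (𝓡∂ n) U x X := rfl

end

end Vale.Agent.P088.EYM.O

namespace Vale.Agent.P088.B

open Vale.Agent.P088

universe u

section

variable {n : ℕ} [NeZero n] {N : ℕ} {M : Type u} [TopologicalSpace M]
  [ChartedSpace (EuclideanHalfSpace n) M] [IsManifold (𝓡∂ n) ∞ M]

/-- From the elementary gauge relation on `W` to the abstract one. -/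
theorem toGaugeOn {W Γ : Set M} {a b : M → Fin n → Matrix (Fin N) (Fin N) ℂ}
    (h : GaugeOn W Γ a b (at_ n M)) : ∃ V : M → EndF N, IsSmoothUnitary (𝓡∂ n) V ∧
      (∀ x ∈ Γ, V x = 1) ∧ ∀ x ∈ W, ∀ (X : TangentSpace (𝓡∂ n) x),
        S.formOf (b x) X = ContinuousLinearMap.adjoint (V x) ∘L S.formOf (a x) X ∘L V x +
          ContinuousLinearMap.adjoint (V x) ∘L dmap (𝓡∂ n) V x X := by
  obtain ⟨U, h1, h2, h3, h4⟩ := h
  have hV := isSmU_toE h1 h2
  refine ⟨fun x => S.toE (U x), hV, fun x hx => ?_, fun x hxW X => ?_⟩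
  · show S.toE (U x) = 1
    rw [h3 x hx, S.toE_one]
  · set V : M → EndF N := fun x => S.toE (U x) with hVd
    let LA : EndF N →L[ℝ] EndF N :=
      ((ContinuousLinearMap.mul ℝ (EndF N)) (ContinuousLinearMap.adjoint (V x)))
    let RA : EndF N →L[ℝ] EndF N := (ContinuousLinearMap.mul ℝ (EndF N)).flip (V x)
    let T2 : EuclideanSpace ℝ (Fin n) →L[ℝ] EndF N :=
      LA.comp (RA.comp (S.formOf (a x)) + dI (𝓡∂ n) V x)
    have hT : S.formOf (b x) = T2 := by
      refine ext_es fun i => ?_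
      rw [formOf_es, h4 x hxW i, S.toE_mul, S.toE_star, S.toE_add, S.toE_mul]
      show _ = ContinuousLinearMap.adjoint (V x) *
        (S.formOf (a x) (es n i) * V x + dI (𝓡∂ n) V x (es n i))
      have e1 : dI (𝓡∂ n) V x (es n i) =
          S.toE (dM (fun y => U (pt (at_ n M) x y)) ((at_ n M).ch x x) i) := by
        rw [← toE_dM hV x i]
        congr 1
        simp only [hVd, S.ofE_toE]
      rw [formOf_es, e1]
    have h5 := DFunLike.congr_fun hT (X : EuclideanSpace ℝ (Fin n))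
    refine h5.trans ?_
    show ContinuousLinearMap.adjoint (V x) * (S.formOf (a x) X * V x + dI (𝓡∂ n) V x X) = _
    rw [mul_add]
    rfl

theorem met_of_inner_at {P Q : Pair (at_ n M) N} {x : M}
    (h : ∀ v w : TangentSpace (𝓡∂ n) x,
      (S.gOf (conv Q)).inner x v w = (S.gOf (conv P)).inner x v w) : Q.g x = P.g x := by
  have h1 := S.gram_self_gOf (conv Q) x
  have h2 := S.gram_self_gOf (conv P) x
  have h3 : gram (S.gOf (conv Q)) x x = gram (S.gOf (conv P)) x x := by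
    ext i j
    exact h _ _
  rw [h1, h2] at h3
  exact h3

theorem data_mono {Γ Γ' : Set M} (h : Γ' ⊆ Γ) {f : M → Fin N → ℂ} (hf : Data (at_ n M) Γ' f) :
    Data (at_ n M) Γ f := ⟨hf.1, hf.2.trans h⟩

theorem sameData_mono {Γ Γ' : Set M} (h : Γ' ⊆ Γ) {P Q : Pair (at_ n M) N}
    (hS : SameData Γ P Q) : SameData Γ' P Q :=
  fun f k hf hk => hS f k (data_mono h hf) (data_mono h hk)

theorem sig_sub (P Q : Pair (at_ n M) N) (x : M) :
    EYM.O.sig (S.gOf (conv Q)) x - EYM.O.sig (S.gOf (conv P)) x =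
      √(Q.g x).det • (Q.g x)⁻¹ - √(P.g x).det • (P.g x)⁻¹ := by
  rw [sig_one P x, sig_one Q x]

end

/-- Theorem L, elementary form. -/
def L_elem : Prop := ∀ {n N : ℕ} [NeZero n] (_ : 3 ≤ n) (_ : 1 ≤ N) {M : Type u}
    [TopologicalSpace M] [ChartedSpace (EuclideanHalfSpace n) M] [IsManifold (𝓡∂ n) ∞ M]
    [T2Space M] [CompactSpace M] [ConnectedSpace M] (Z : At n M) (_ : Z = at_ n M) (Γ O : Set M)
    (_ : IsOpen O) (_ : Γ = O ∩ bd Z) (P Q : Pair Z N) (_ : SameData Γ P Q) (W : Set M)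
    (_ : IsOpen W) (_ : IsPreconnected W) (_ : (W ∩ Γ).Nonempty)
    (_ : GaugeOn W (W ∩ Γ) P.A Q.A Z) (_ : SigOn W P Q), ∀ x ∈ W, Q.g x = P.g x

theorem elemL (hLL : EYM.O.LL_statement.{u}) : L_elem.{u} := by
  intro n N _ hn hN M _ _ _ _ _ _ Z hZ Γ O hO hΓ P Q hdata W hW hWp hne hG hle x hx
  subst hZ
  have hb : bd (at_ n M) = (𝓡∂ n).boundary M := bd_at
  let _ : MeasurableSpace M := borel M
  have _ : BorelSpace M := ⟨rfl⟩
  have hS : EYM.SameD (B2.one P) (B2.one Q) (W ∩ Γ) :=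
    sameD_one (sameData_mono inter_subset_right hdata)
  have hR : EYM.RelBd n (W ∩ Γ) := ⟨W ∩ O, hW.inter hO, by rw [hΓ, hb, inter_assoc]⟩
  obtain ⟨V, hV, hV1, hV2⟩ := toGaugeOn hG
  have h3 := (EYM.O.mg_closed n N M (B2.one P) (B2.one Q) (W ∩ Γ)
    (EYM.O.gConn (B2.one P).A hV) V hV hV1 (EYM.O.gConn_form _ hV)).1.1 hS
  refine met_of_inner_at (P := P) (Q := Q) (hLL n N M
    (EYM.O.wA (B2.one P) (EYM.O.gConn (B2.one P).A hV)) (B2.one Q) (W ∩ Γ) W hn hN hR hW hWp
    (by rw [← inter_assoc, inter_self]; exact hne) h3 (fun y hy X => ?_) (fun y hy => ?_) x hx)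
  · exact (hV2 y hy X).symm
  · show (EYM.O.sig (S.gOf (conv Q)) y - EYM.O.sig (S.gOf (conv P)) y).PosSemidef
    rw [sig_sub P Q y]
    exact hle y hy

end Vale.Agent.P088.B

end
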