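import Vale.Agent.P088.H5.Spec4

/-!
# P088, Theorem L': piecewise ordered metrics (statement)
-/

open Bundle Manifold MeasureTheory Set Filter Topology
open scoped ContDiff Matrix

noncomputable section

namespace Vale.Agent.P088.EYM.O

open Vale.Agent.P088 Vale.Agent.P088.EYM

universe u

/-- Near `x` the set `O` consists, up to closure, of two connected regions: on the first one
`s_P ≤ s_Q`, on the second one `s_Q ≤ s_P` (each may be empty). -/
def LocO {n N : ℕ} [NeZero n] {M : Type u} [TopologicalSpace M]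
    [ChartedSpace (EuclideanHalfSpace n) M] [IsManifold (𝓡∂ n) ∞ M] [MeasurableSpace M]
    (P Q : One n N M) (O : Set M) (x : M) : Prop :=
  ∃ V D₁ D₂ : Set M, IsOpen V ∧ x ∈ V ∧ IsOpen D₁ ∧ IsPreconnected D₁ ∧ D₁ ⊆ O ∧
    IsOpen D₂ ∧ IsPreconnected D₂ ∧ D₂ ⊆ O ∧ V ⊆ closure (D₁ ∪ D₂) ∧
    (∀ y ∈ D₁, (sig Q.g y - sig P.g y).PosSemidef) ∧
    (∀ y ∈ D₂, (sig P.g y - sig Q.g y).PosSemidef)

/-- (LP) Theorem L', abstract form. -/
def LP_statement : Prop :=
  ∀ (n N : ℕ) [NeZero n] (M : Type u) [TopologicalSpace M] [ChartedSpace (EuclideanHalfSpace n) M]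
    [IsManifold (𝓡∂ n) ∞ M] [T2Space M] [CompactSpace M] [ConnectedSpace M] [MeasurableSpace M]
    [BorelSpace M] (P Q : One n N M) (Γ O D : Set M), 3 ≤ n → 0 < N → RelBd n Γ → IsOpen O →
    IsPreconnected O → SameD P Q Γ → IsOpen D → IsPreconnected D → D ⊆ O → (D ∩ Γ).Nonempty →
    ((∀ y ∈ D, (sig Q.g y - sig P.g y).PosSemidef) ∨
      (∀ y ∈ D, (sig P.g y - sig Q.g y).PosSemidef)) →
    (∀ x ∈ O, ∀ X : TangentSpace (𝓡∂ n) x, P.A.form x X = Q.A.form x X) →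
    (∀ x ∈ O, LocO P Q O x) →
    ∀ x ∈ closure O, ∀ v w : TangentSpace (𝓡∂ n) x, Q.g.inner x v w = P.g.inner x v w

end Vale.Agent.P088.EYM.O

end
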