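import Vale.Agent.P088.H5.BrL124
import Vale.Agent.P088.H5.LPS861

/-!
# P088, Theorem L': from the abstract theorem to the elementary statement
-/

set_option linter.all false

open Bundle Manifold MeasureTheory Set Filter
open scoped ContDiff Matrix Topology ENNReal

noncomputable section

namespace Vale.Agent.P088.B

open Vale.Agent.P088

universe u

/-- Near `x` the set `W` consists, up to closure, of two connected regions (each may be empty):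
on the first one `√(det g₁) g₁⁻¹ ≤ √(det g₂) g₂⁻¹`, on the second one `≥`. -/
def LocSig {n N : ℕ} {M : Type u} {Z : At n M} [TopologicalSpace M] (W : Set M) (P Q : Pair Z N)
    (x : M) : Prop :=
  ∃ V D₁ D₂ : Set M, IsOpen V ∧ x ∈ V ∧ IsOpen D₁ ∧ IsPreconnected D₁ ∧ D₁ ⊆ W ∧
    IsOpen D₂ ∧ IsPreconnected D₂ ∧ D₂ ⊆ W ∧ V ⊆ closure (D₁ ∪ D₂) ∧ SigOn D₁ P Q ∧ SigOn D₂ Q P

/-- Theorem L', elementary form. -/
def LP_elem : Prop := ∀ {n N : ℕ} [NeZero n] (_ : 3 ≤ n) (_ : 1 ≤ N) {M : Type u}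
    [TopologicalSpace M] [ChartedSpace (EuclideanHalfSpace n) M] [IsManifold (𝓡∂ n) ∞ M]
    [T2Space M] [CompactSpace M] [ConnectedSpace M] (Z : At n M) (_ : Z = at_ n M) (Γ O : Set M)
    (_ : IsOpen O) (_ : Γ = O ∩ bd Z) (P Q : Pair Z N) (_ : SameData Γ P Q) (W : Set M)
    (_ : IsOpen W) (_ : IsPreconnected W) (_ : GaugeOn W (W ∩ Γ) P.A Q.A Z)
    (_ : ∃ D : Set M, IsOpen D ∧ IsPreconnected D ∧ D ⊆ W ∧ (D ∩ Γ).Nonempty ∧
      (SigOn D P Q ∨ SigOn D Q P)) (_ : ∀ x ∈ W, LocSig W P Q x), ∀ x ∈ closure W, Q.g x = P.g x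

theorem elemLP (hLP : EYM.O.LP_statement.{u}) : LP_elem.{u} := by
  intro n N _ hn hN M _ _ _ _ _ _ Z hZ Γ O hO hΓ P Q hdata W hW hWp hG hD hloc x hx
  subst hZ
  have hb : bd (at_ n M) = (𝓡∂ n).boundary M := bd_at
  let _ : MeasurableSpace M := borel M
  have _ : BorelSpace M := ⟨rfl⟩
  have hS : EYM.SameD (B2.one P) (B2.one Q) (W ∩ Γ) :=
    sameD_one (sameData_mono inter_subset_right hdata)
  have hR : EYM.RelBd n (W ∩ Γ) := ⟨W ∩ O, hW.inter hO, by rw [hΓ, hb, inter_assoc]⟩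
  obtain ⟨V, hV, hV1, hV2⟩ := toGaugeOn hG
  have h3 := (EYM.O.mg_closed n N M (B2.one P) (B2.one Q) (W ∩ Γ)
    (EYM.O.gConn (B2.one P).A hV) V hV hV1 (EYM.O.gConn_form _ hV)).1.1 hS
  have hs1 : ∀ {D : Set M}, SigOn D P Q → ∀ y ∈ D, (EYM.O.sig (B2.one Q).g y -
      EYM.O.sig (EYM.O.wA (B2.one P) (EYM.O.gConn (B2.one P).A hV)).g y).PosSemidef := by
    intro D h y hy
    show (EYM.O.sig (S.gOf (conv Q)) y - EYM.O.sig (S.gOf (conv P)) y).PosSemidef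
    rw [sig_sub P Q y]
    exact h y hy
  have hs2 : ∀ {D : Set M}, SigOn D Q P → ∀ y ∈ D,
      (EYM.O.sig (EYM.O.wA (B2.one P) (EYM.O.gConn (B2.one P).A hV)).g y -
        EYM.O.sig (B2.one Q).g y).PosSemidef := by
    intro D h y hy
    show (EYM.O.sig (S.gOf (conv P)) y - EYM.O.sig (S.gOf (conv Q)) y).PosSemidef
    rw [sig_sub Q P y]
    exact h y hy
  obtain ⟨D, hDo, hDp, hDW, hDΓ, hDs⟩ := hD
  refine met_of_inner_at (P := P) (Q := Q) (hLP n N M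
    (EYM.O.wA (B2.one P) (EYM.O.gConn (B2.one P).A hV)) (B2.one Q) (W ∩ Γ) W D hn hN hR hW hWp h3
    hDo hDp hDW ?_ (hDs.imp hs1 hs2) (fun y hy X => (hV2 y hy X).symm) (fun y hy => ?_) x hx)
  · obtain ⟨y, hy, hyΓ⟩ := hDΓ
    exact ⟨y, hy, hDW hy, hyΓ⟩
  · obtain ⟨V', D₁, D₂, h1, h2, h4, h5, h6, h7, h8, h9, h10, h11, h12⟩ := hloc y hy
    exact ⟨V', D₁, D₂, h1, h2, h4, h5, h6, h7, h8, h9, h10, hs1 h11, hs2 h12⟩

end Vale.Agent.P088.B

end
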