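import Vale.Agent.P088.H5.BrS275

/-!
# P088, Theorem L', elementary form (final form)
-/

set_option linter.all false

open Manifold MeasureTheory Set
open scoped ContDiff Matrix

noncomputable section

namespace Vale.Agent.P088.B5

open Vale.Agent.P088.B

universe u

theorem smooth_local {n N : ℕ} [NeZero n] (hn : 3 ≤ n) (hN : 1 ≤ N) {M : Type u}
    [TopologicalSpace M] [ChartedSpace (EuclideanHalfSpace n) M] [IsManifold (𝓡∂ n) ∞ M]
    [T2Space M] [CompactSpace M] [ConnectedSpace M] (Z : B.At n M) (hZ : Z = at_ n M)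
    (Γ O : Set M) (hO : IsOpen O) (hΓ : Γ = O ∩ bd Z) (P Q : B.Pair Z N)
    (hd : B.SameData Γ P Q) (W : Set M) (hW : IsOpen W) (hWc : IsPreconnected W)
    (U : M → Matrix (Fin N) (Fin N) ℂ) (hU : GaugeBy U W (W ∩ Γ) P.A Q.A Z)
    (hp : PwLe W Γ P Q) :
    (∀ x ∈ closure W, Q.g x = P.g x) ∧ ∀ f u u', B.Data Z (W ∩ Γ) f → B.Harm P f u →
      B.Harm Q f u' → ∀ x ∈ W, u x = U x *ᵥ u' x := by
  obtain ⟨⟨D, h1, h2, h3, h4, h5⟩, hloc⟩ := hp
  refine elemLS hn hN Z hZ Γ O hO hΓ P Q hd W hW hWc U hU ⟨D, h2, h3, h1, h4, h5⟩ fun x hx => ?_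
  obtain ⟨V, a1, a2, D₁, b1, b2, b3, b4, D₂, c1, c2, c3, c4, c5⟩ := hloc x hx
  exact ⟨V, D₁, D₂, a1, a2, b2, b3, b1, c2, c3, c1, c5, b4, c4⟩

end Vale.Agent.P088.B5

end
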