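import Vale.Agent.P088.H5.LPS861
import Vale.Agent.P088.H5.MD452

/-!
# P088, Theorem L': piecewise ordered metrics, from Theorem L
-/

set_option linter.all false

open Bundle Manifold MeasureTheory Set Filter Topology
open scoped ContDiff Matrix

noncomputable section

namespace Vale.Agent.P088.EYM.O

open Vale.Agent.P088 Vale.Agent.P088.EYM

universe u

theorem lp_step {M : Type*} [TopologicalSpace M] {O Γ S V D D' : Set M} {E S₁ S₂ : M → Prop}
    {p : M} (hE₁ : ∀ x, E x → S₁ x) (hE₂ : ∀ x, E x → S₂ x) (hcl₂ : IsClosed {x | S₂ x})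
    (h₁ : ∀ W, IsOpen W → IsPreconnected W → W ⊆ O → (W ∩ Γ).Nonempty → (∀ x ∈ W, S₁ x) →
      ∀ x ∈ W, E x)
    (h₂ : ∀ W, IsOpen W → IsPreconnected W → W ⊆ O → (W ∩ Γ).Nonempty → (∀ x ∈ W, S₂ x) →
      ∀ x ∈ W, E x)
    (hS : IsOpen S) (hSc : IsPreconnected S) (hSO : S ⊆ O) (hpS : p ∈ S) (hpΓ : p ∈ Γ)
    (hSE : ∀ x ∈ S, E x) (hV : IsOpen V) (hVc : IsPreconnected V) (hVO : V ⊆ O)
    (hVS : (V ∩ S).Nonempty) (hD : IsOpen D) (hDc : IsPreconnected D) (hDO : D ⊆ O)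
    (hDS : (D ∩ S).Nonempty) (hD1 : ∀ y ∈ D, S₁ y) (hD2 : ∀ y ∈ D', S₂ y)
    (hVcl : V ⊆ closure (D ∪ D')) : ∀ y ∈ V, E y := by
  have e1 : ∀ y ∈ D, E y := fun y hy =>
    h₁ (D ∪ S) (hD.union hS) (hDc.union' hDS hSc) (union_subset hDO hSO) ⟨p, Or.inr hpS, hpΓ⟩
      (fun x hx => hx.elim (hD1 x) fun h => hE₁ x (hSE x h)) y (Or.inl hy)
  have e2 : ∀ y ∈ V, S₂ y := fun y hy => by
    have h3 : closure (D ∪ D') ⊆ {x | S₂ x} :=
      closure_minimal (union_subset (fun z hz => hE₂ z (e1 z hz)) fun z hz => hD2 z hz) hcl₂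
    exact h3 (hVcl hy)
  exact fun y hy =>
    h₂ (V ∪ S) (hV.union hS) (hVc.union' hVS hSc) (union_subset hVO hSO) ⟨p, Or.inr hpS, hpΓ⟩
      (fun x hx => hx.elim (e2 x) fun h => hE₂ x (hSE x h)) y (Or.inl hy)

theorem lp_top {M : Type*} [TopologicalSpace M] [LocallyConnectedSpace M] {O Γ D₀ : Set M}
    {E S₁ S₂ : M → Prop} (hO : IsOpen O) (hc : IsPreconnected O)
    (hD₀ : IsOpen D₀) (hD₀c : IsPreconnected D₀) (hD₀O : D₀ ⊆ O) (hne : (D₀ ∩ Γ).Nonempty)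
    (hs : (∀ y ∈ D₀, S₁ y) ∨ (∀ y ∈ D₀, S₂ y))
    (hE₁ : ∀ x, E x → S₁ x) (hE₂ : ∀ x, E x → S₂ x) (hcl₁ : IsClosed {x | S₁ x})
    (hcl₂ : IsClosed {x | S₂ x})
    (h₁ : ∀ W, IsOpen W → IsPreconnected W → W ⊆ O → (W ∩ Γ).Nonempty → (∀ x ∈ W, S₁ x) →
      ∀ x ∈ W, E x)
    (h₂ : ∀ W, IsOpen W → IsPreconnected W → W ⊆ O → (W ∩ Γ).Nonempty → (∀ x ∈ W, S₂ x) →
      ∀ x ∈ W, E x)
    (hloc : ∀ x ∈ O, ∃ V D₁ D₂ : Set M, IsOpen V ∧ x ∈ V ∧ IsOpen D₁ ∧ IsPreconnected D₁ ∧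
      D₁ ⊆ O ∧ IsOpen D₂ ∧ IsPreconnected D₂ ∧ D₂ ⊆ O ∧ V ⊆ closure (D₁ ∪ D₂) ∧
      (∀ y ∈ D₁, S₁ y) ∧ (∀ y ∈ D₂, S₂ y)) : ∀ x ∈ O, E x := by
  obtain ⟨p, hp, hpΓ⟩ := hne
  have hE0 : ∀ y ∈ D₀, E y := by
    rcases hs with hs | hs
    · exact h₁ D₀ hD₀ hD₀c hD₀O ⟨p, hp, hpΓ⟩ hs
    · exact h₂ D₀ hD₀ hD₀c hD₀O ⟨p, hp, hpΓ⟩ hs
  set 𝒲 : Set (Set M) := {W | IsOpen W ∧ IsPreconnected W ∧ W ⊆ O ∧ p ∈ W ∧ ∀ x ∈ W, E x}
    with h𝒲
  set S : Set M := ⋃₀ 𝒲 with hSdef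
  have hS : IsOpen S := isOpen_sUnion fun W hW => hW.1
  have hSc : IsPreconnected S := isPreconnected_sUnion p 𝒲 (fun W hW => hW.2.2.2.1)
    fun W hW => hW.2.1
  have hSO : S ⊆ O := sUnion_subset fun W hW => hW.2.2.1
  have hSE : ∀ x ∈ S, E x := by
    rintro x ⟨W, hW, hx⟩
    exact hW.2.2.2.2 x hx
  have hpS : p ∈ S := ⟨D₀, ⟨hD₀, hD₀c, hD₀O, hp, hE0⟩, hp⟩
  have hsub : O ⊆ S := by
    refine hc.subset_of_closure_inter_subset hS ⟨p, hD₀O hp, hpS⟩ ?_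
    rintro x ⟨hxS, hxO⟩
    obtain ⟨V, D₁, D₂, hV, hxV, hD₁, hD₁c, hD₁O, hD₂, hD₂c, hD₂O, hcl, hs₁, hs₂⟩ := hloc x hxO
    set V₀ : Set M := connectedComponentIn (V ∩ O) x with hV₀
    have hV₀o : IsOpen V₀ := (hV.inter hO).connectedComponentIn
    have hV₀c : IsPreconnected V₀ := isPreconnected_connectedComponentIn
    have hxV₀ : x ∈ V₀ := mem_connectedComponentIn ⟨hxV, hxO⟩
    have hV₀s : V₀ ⊆ V ∩ O := connectedComponentIn_subset _ _
    have hVS : (V₀ ∩ S).Nonempty := mem_closure_iff.1 hxS V₀ hV₀o hxV₀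
    obtain ⟨y, hyV, hyS⟩ := hVS
    have hycl : y ∈ closure (D₁ ∪ D₂) := hcl (hV₀s hyV).1
    obtain ⟨z, ⟨hzV, hzS⟩, hz⟩ := mem_closure_iff.1 hycl (V₀ ∩ S) (hV₀o.inter hS) ⟨hyV, hyS⟩
    have hE : ∀ y ∈ V₀, E y := by
      rcases hz with hz | hz
      · exact lp_step hE₁ hE₂ hcl₂ h₁ h₂ hS hSc hSO hpS hpΓ hSE hV₀o hV₀c
          (fun w hw => (hV₀s hw).2) ⟨y, hyV, hyS⟩ hD₁ hD₁c hD₁O ⟨z, hz, hzS⟩ hs₁ hs₂
          fun w hw => hcl (hV₀s hw).1
      · exact lp_step hE₂ hE₁ hcl₁ h₂ h₁ hS hSc hSO hpS hpΓ hSE hV₀o hV₀c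
          (fun w hw => (hV₀s hw).2) ⟨y, hyV, hyS⟩ hD₂ hD₂c hD₂O ⟨z, hz, hzS⟩ hs₂ hs₁
          fun w hw => by rw [union_comm]; exact hcl (hV₀s hw).1
    refine ⟨V₀ ∪ S, ⟨hV₀o.union hS, hV₀c.union' ⟨y, hyV, hyS⟩ hSc,
      union_subset (fun w hw => (hV₀s hw).2) hSO, Or.inr hpS, ?_⟩, Or.inl hxV₀⟩
    exact fun w hw => hw.elim (hE w) (hSE w)
  exact fun x hx => hSE x (hsub hx)

section Geo

variable {n N : ℕ} [NeZero n] {M : Type u} [TopologicalSpace M]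
  [ChartedSpace (EuclideanHalfSpace n) M] [IsManifold (𝓡∂ n) ∞ M]

/-- `sig` in the chart at `p`. -/
def sigp (g : Metric (𝓡∂ n) M) (p x : M) : Matrix (Fin n) (Fin n) ℝ :=
  √(gram g p x).det • (gram g p x)⁻¹

theorem sigp_self (g : Metric (𝓡∂ n) M) (x : M) : sigp g x x = sig g x := rfl

theorem sigp_eq (g : Metric (𝓡∂ n) M) {p x : M} (hx : x ∈ (xc n p).source) :
    sigp g p x = |(mat (cc (𝓡∂ n) p x)).det| •
      ((mat (cc (𝓡∂ n) p x))⁻¹ * sig g x * ((mat (cc (𝓡∂ n) p x))⁻¹)ᵀ) := by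
  have h1 : √(gram g p x).det = |(mat (cc (𝓡∂ n) p x)).det| * √(gram g x x).det := by
    rw [gram_eq, Matrix.det_mul, Matrix.det_mul, Matrix.det_transpose,
      mul_right_comm, Real.sqrt_mul (mul_self_nonneg _), Real.sqrt_mul_self_eq_abs]
  unfold sigp sig
  rw [h1, gram_eq g p x, Matrix.mul_inv_rev, Matrix.mul_inv_rev, Matrix.transpose_nonsing_inv,
    Matrix.mul_smul, Matrix.smul_mul, smul_smul, Matrix.mul_assoc]

theorem continuousOn_sigp (g : Metric (𝓡∂ n) M) (p : M) (i j : Fin n) :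
    ContinuousOn (fun x => sigp g p x i j) (xc n p).source := by
  have h1 : ContinuousOn (fun x => √(gram g p x).det) (xc n p).source := by
    have h1 := (contDiffOn_dens g p).continuousOn.comp (continuousOn_extChartAt p)
      (fun x hx => (extChartAt (𝓡∂ n) p).map_source hx)
    refine h1.congr fun x hx => ?_
    simp only [Function.comp_apply, dens, (extChartAt (𝓡∂ n) p).left_inv hx]
  exact h1.mul (contMDiffOn_gram_inv g p i j).continuousOn

theorem isHermitian_sig (g : Metric (𝓡∂ n) M) (x : M) : (sig g x).IsHermitian := by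
  have h : ((gram g x x)⁻¹).IsHermitian :=
    (gram_inv_posDef g (mem_extChartAt_source x)).isHermitian
  ext i j
  have h1 := congrFun (congrFun h i) j
  simp only [sig, Matrix.conjTranspose_apply, Matrix.smul_apply, smul_eq_mul, star_trivial] at h1 ⊢
  rw [h1]

/-- The set where `sig g ≤ sig g'` is closed. -/
theorem isClosed_psd (g g' : Metric (𝓡∂ n) M) :
    IsClosed {x : M | (sig g' x - sig g x).PosSemidef} := by
  rw [← closure_subset_iff_isClosed]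
  intro x hx
  set A : Set M := {x : M | (sig g' x - sig g x).PosSemidef} with hA
  have hs := extChartAt_source_mem_nhds (I := 𝓡∂ n) x
  have hne : (𝓝[A] x).NeBot := mem_closure_iff_nhdsWithin_neBot.1 hx
  show (sig g' x - sig g x).PosSemidef
  refine Matrix.PosSemidef.of_dotProduct_mulVec_nonneg
    ((isHermitian_sig g' x).sub (isHermitian_sig g x)) ?_
  intro c
  have hc : ∀ y : M, star c ⬝ᵥ ((sigp g' x y - sigp g x y).mulVec c) =
      ∑ i, ∑ j, c i * ((sigp g' x y i j - sigp g x y i j) * c j) := by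
    intro y
    simp only [dotProduct, Matrix.mulVec, Pi.star_apply, star_trivial, Finset.mul_sum,
      Matrix.sub_apply]
  have hcont : ContinuousAt (fun y => star c ⬝ᵥ ((sigp g' x y - sigp g x y).mulVec c)) x := by
    simp only [hc]
    refine ContinuousOn.continuousAt (s := (xc n x).source) ?_ hs
    refine continuousOn_finset_sum _ fun i _ => continuousOn_finset_sum _ fun j _ => ?_
    exact continuousOn_const.mul (((continuousOn_sigp g' x i j).sub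
      (continuousOn_sigp g x i j)).mul continuousOn_const)
  have ht : Tendsto (fun y => star c ⬝ᵥ ((sigp g' x y - sigp g x y).mulVec c)) (𝓝[A] x)
      (𝓝 (star c ⬝ᵥ ((sigp g' x x - sigp g x x).mulVec c))) :=
    Tendsto.mono_left hcont nhdsWithin_le_nhds
  refine ge_of_tendsto ht ?_
  filter_upwards [self_mem_nhdsWithin, mem_nhdsWithin_of_mem_nhds hs] with y hy hys
  have h1 : sigp g' x y - sigp g x y = |(mat (cc (𝓡∂ n) x y)).det| •
      ((mat (cc (𝓡∂ n) x y))⁻¹ * (sig g' y - sig g y) * ((mat (cc (𝓡∂ n) x y))⁻¹)ᵀ) := by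
    rw [sigp_eq g' hys, sigp_eq g hys, ← smul_sub, Matrix.mul_sub, Matrix.sub_mul]
  have h2 : (sigp g' x y - sigp g x y).PosSemidef := by
    rw [h1]
    have h3 : ((mat (cc (𝓡∂ n) x y))⁻¹ * (sig g' y - sig g y) *
        ((mat (cc (𝓡∂ n) x y))⁻¹)ᵀ).PosSemidef := by
      have h4 := Matrix.PosSemidef.mul_mul_conjTranspose_same (show (sig g' y - sig g y).PosSemidef
        from hy) ((mat (cc (𝓡∂ n) x y))⁻¹)
      rwa [Matrix.conjTranspose_eq_transpose_of_trivial] at h4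
    exact h3.smul (abs_nonneg _)
  exact h2.dotProduct_mulVec_nonneg c

theorem gram_of_met {g g' : Metric (𝓡∂ n) M} {x : M}
    (h : ∀ v w : TangentSpace (𝓡∂ n) x, g'.inner x v w = g.inner x v w) :
    gram g' x x = gram g x x := by
  ext i j
  exact h _ _

theorem sig_of_met {g g' : Metric (𝓡∂ n) M} {x : M}
    (h : ∀ v w : TangentSpace (𝓡∂ n) x, g'.inner x v w = g.inner x v w) : sig g' x = sig g x := by
  unfold sig
  rw [gram_of_met h]

/-- The metrics are equal on a closed set. -/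
theorem met_closure {g g' : Metric (𝓡∂ n) M} {O : Set M}
    (h : ∀ x ∈ O, ∀ v w : TangentSpace (𝓡∂ n) x, g'.inner x v w = g.inner x v w) :
    ∀ x ∈ closure O, ∀ v w : TangentSpace (𝓡∂ n) x, g'.inner x v w = g.inner x v w := by
  intro x hx
  refine inner_of_gram ?_
  ext i j
  have h1 : ∀ y ∈ O, gram g' x y = gram g x y := fun y hy => by
    rw [gram_eq g' x y, gram_eq g x y, gram_of_met (h y hy)]
  have hs := extChartAt_source_mem_nhds (I := 𝓡∂ n) x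
  have c1 : ContinuousAt (fun y => gram g' x y i j) x :=
    (contMDiffOn_gram g' x i j).continuousOn.continuousAt hs
  have c2 : ContinuousAt (fun y => gram g x y i j) x :=
    (contMDiffOn_gram g x i j).continuousOn.continuousAt hs
  have hne : (𝓝[O] x).NeBot := mem_closure_iff_nhdsWithin_neBot.1 hx
  have t1 : Tendsto (fun y => gram g' x y i j) (𝓝[O] x) (𝓝 (gram g' x x i j)) :=
    Tendsto.mono_left c1 nhdsWithin_le_nhds
  have t2 : Tendsto (fun y => gram g x y i j) (𝓝[O] x) (𝓝 (gram g x x i j)) :=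
    Tendsto.mono_left c2 nhdsWithin_le_nhds
  refine tendsto_nhds_unique_of_eventuallyEq t1 t2 ?_
  filter_upwards [self_mem_nhdsWithin] with y hy
  rw [h1 y hy]

theorem sameD_symm1 [MeasurableSpace M] {P Q : One n N M} {Γ : Set M} (h : SameD P Q Γ) :
    SameD Q P Γ := by
  intro f k hf hk
  obtain ⟨u₁, v₁, u₂, v₂, h1, h2, h3, h4, h5⟩ := h f k hf hk
  exact ⟨u₂, v₂, u₁, v₁, h3, h4, h1, h2, h5.symm⟩

end Geo

/-- Theorem L', abstract form, from Theorem L. -/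
theorem lP (hL : LL_statement.{u}) : LP_statement.{u} := by
  intro n N _ M _ _ _ _ _ _ _ _ P Q Γ O D hn hN hΓ hO hOc hS hD hDc hDO hDΓ hs hA hloc
  haveI : LocallyConnectedSpace M := ChartedSpace.locallyConnectedSpace (EuclideanHalfSpace n) M
  refine met_closure (O := O) ?_
  have hpsd : ∀ (R R' : One n N M) (x : M),
      (∀ v w : TangentSpace (𝓡∂ n) x, R'.g.inner x v w = R.g.inner x v w) →
      (sig R'.g x - sig R.g x).PosSemidef := by
    intro R R' x hx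
    rw [sig_of_met hx, sub_self]
    exact Matrix.PosSemidef.zero
  refine lp_top (Γ := Γ) (D₀ := D)
    (E := fun x => ∀ v w : TangentSpace (𝓡∂ n) x, Q.g.inner x v w = P.g.inner x v w)
    (S₁ := fun x => (sig Q.g x - sig P.g x).PosSemidef)
    (S₂ := fun x => (sig P.g x - sig Q.g x).PosSemidef) hO hOc hD hDc hDO hDΓ hs
    (fun x hx => hpsd P Q x hx) (fun x hx => hpsd Q P x fun v w => (hx v w).symm)
    (isClosed_psd P.g Q.g) (isClosed_psd Q.g P.g) ?_ ?_ hloc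
  · intro W hW hWc hWO hWΓ hWs
    exact hL n N M P Q Γ W hn hN hΓ hW hWc hWΓ hS (fun x hx => hA x (hWO hx)) hWs
  · intro W hW hWc hWO hWΓ hWs x hx v w
    exact (hL n N M Q P Γ W hn hN hΓ hW hWc hWΓ (sameD_symm1 hS)
      (fun x hx X => (hA x (hWO hx) X).symm) hWs x hx v w).symm

end Vale.Agent.P088.EYM.O

end
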