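import Vale.Agent.P088.H5.ClosL332
import Vale.Agent.P088.H5.LP861

/-!
# P088, Theorem L' (piecewise ordered metrics), closed
-/

namespace Vale.Agent.P088.EYM.O

universe u

/-- Theorem L', abstract form. -/
theorem lP_closed : LP_statement.{u} := lP lL_closed

end Vale.Agent.P088.EYM.O
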