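import Vale.Agent.P088.H5.Spec4

/-!
# P088, Theorem L, block LB, part 1: propagation of the zero set
-/

set_option linter.all false

open Bundle Manifold MeasureTheory Set Filter Topology
open scoped ContDiff Matrix

noncomputable section

namespace Vale.Agent.P088.EYM.O

open Vale.Agent.P088 Vale.Agent.P088.EYM

universe u

section prop

variable {n N : ℕ} [NeZero n] {M : Type u} [TopologicalSpace M]
  [ChartedSpace (EuclideanHalfSpace n) M] [IsManifold (𝓡∂ n) ∞ M] [T2Space M] [CompactSpace M]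
  [MeasurableSpace M] [BorelSpace M] {P : One n N M} {w : ℕ → M → Fib N}

theorem lb_test (hEn : CEnergy_statement.{u}) (hExt : CExt_statement.{u})
    (hbd : IsClosed ((𝓡∂ n).boundary M)) (hw : ∀ k, SmS n (w k)) {Γ K : Set M}
    (hlim : ∀ φ : M → Fib N, IsBdryData (𝓡∂ n) Γ φ → tsupport φ ⊆ Kᶜ →
      Tendsto (fun k => P.E (w k) φ) atTop (𝓝 0))
    (p : M) {D : Set (E n)} (hD : RelOpen D) (hDt : D ⊆ tg n p)
    (hDK : ∀ y ∈ D, (xc n p).symm y ∉ K)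
    (hDΓ : ∀ y ∈ D, (xc n p).symm y ∈ (𝓡∂ n).boundary M → (xc n p).symm y ∈ Γ)
    {ψ : E n → Fib N} (hψ : ContDiffOn ℝ ∞ ψ D) {K' : Set (E n)} (hK' : IsCompact K')
    (hK'D : K' ⊆ D) (h0 : ∀ y ∈ D, y ∉ K' → ψ y = 0) :
    Tendsto (fun k => En (P.loc p) D (lu (𝓡∂ n) p (w k)) ψ) atTop (𝓝 0) := by
  obtain ⟨φ, hφ, hφD, hφ0, hφs⟩ := hExt n N M p ψ D K' hD hDt hψ hK' hK'D h0
  have hcl : IsClosed ((xc n p).symm '' K') :=
    (hK'.image_of_continuousOn ((continuousOn_extChartAt_symm p).mono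
      (hK'D.trans hDt))).isClosed
  have hb : IsBdryData (𝓡∂ n) Γ φ := by
    refine ⟨hφ, ?_⟩
    have h1 : closure {x ∈ (𝓡∂ n).boundary M | φ x ≠ 0} ⊆
        (xc n p).symm '' K' ∩ (𝓡∂ n).boundary M := by
      refine closure_minimal ?_ (hcl.inter hbd)
      rintro x ⟨hx, hx'⟩
      exact ⟨by_contra fun h => hx' (hφ0 x h), hx⟩
    refine h1.trans ?_
    rintro x ⟨⟨y, hy, rfl⟩, hx⟩
    exact hDΓ y (hK'D hy) hx
  have hK0 : tsupport φ ⊆ Kᶜ := by
    refine hφs.trans ?_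
    rintro _ ⟨y, hy, rfl⟩
    exact hDK y (hK'D hy)
  have h2 := hlim φ hb hK0
  refine h2.congr fun k => ?_
  rw [(hEn n N M P p D hD hDt).1 (w k) φ (hw k) hφ (Or.inr (hφs.trans (image_mono hK'D)))]
  exact cRungeB_En_congr _ hD _ fun y hy => hφD y hy

/-- propagation in the interior -/
theorem lb_ii (hUI : AUcpInt_statement) (hInt : CInt_statement.{u})
    (hLoc : CLoc_statement.{u}) (hEn : CEnergy_statement.{u}) (hExt : CExt_statement.{u})
    (hbd : IsClosed ((𝓡∂ n).boundary M)) (hw : ∀ k, SmS n (w k))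
    (hcE : ∀ ε > 0, ∃ k₀, ∀ k ≥ k₀, ∀ l ≥ k₀, (P.E (w k - w l) (w k - w l)).re ≤ ε)
    (hcL : ∀ ε > 0, ∃ k₀, ∀ k ≥ k₀, ∀ l ≥ k₀, ∫ x, ‖w k x - w l x‖ ^ 2 ∂P.μ ≤ ε)
    {Γ K : Set M} (hK : IsClosed K)
    (hlim : ∀ φ : M → Fib N, IsBdryData (𝓡∂ n) Γ φ → tsupport φ ⊆ Kᶜ →
      Tendsto (fun k => P.E (w k) φ) atTop (𝓝 0))
    {m : M} (hm : m ∈ Mi n M) (hmK : m ∉ K) (hmZ : m ∈ closure (cRungeB_Z P w)) :
    m ∈ cRungeB_Z P w := by
  have hwc : ∀ k, Continuous (w k) := fun k => cRungeB_sm_cont (hw k)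
  set z := xc n m m with hz
  have hms : m ∈ (xc n m).source := mem_extChartAt_source m
  have hzt : z ∈ tg n m := (xc n m).map_source hms
  have hzm : (xc n m).symm z = m := (xc n m).left_inv hms
  have hz0 : 0 < z 0 := cRungeB_pos_of_mi hLoc m hms hm
  obtain ⟨r₁, hr₁, h1, h2⟩ := cRungeB_ball hLoc m hK.isOpen_compl hzt (by rw [hzm]; exact hmK)
  obtain ⟨r₂, hr₂, h3⟩ := cRungeB_ball_pos hz0
  obtain ⟨r, hr, hrr₁, hrr₂⟩ : ∃ r > 0, r ≤ r₁ ∧ r ≤ r₂ :=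
    ⟨min r₁ r₂, lt_min hr₁ hr₂, min_le_left _ _, min_le_right _ _⟩
  have hpos : Metric.closedBall z r ⊆ {y | 0 < y 0} := h3 r hrr₂
  have hHs : Metric.closedBall z r ⊆ Hs n := fun y hy =>
    show (0 : ℝ) ≤ y 0 from le_of_lt (hpos hy)
  have hin : Metric.closedBall z r ⊆ Metric.closedBall z r₁ ∩ Hs n := fun y hy =>
    ⟨Metric.closedBall_subset_closedBall hrr₁ hy, hHs hy⟩
  have hct : Metric.closedBall z r ⊆ tg n m := hin.trans h1
  have hbt : Metric.ball z r ⊆ tg n m := Metric.ball_subset_closedBall.trans hct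
  have hrel : ∀ (y : E n) (s : ℝ), Metric.ball y s ⊆ Hs n → RelOpen (Metric.ball y s) :=
    fun y s h => ⟨Metric.ball y s, Metric.isOpen_ball, (inter_eq_left.2 h).symm⟩
  have hbHs : Metric.ball z r ⊆ Hs n := Metric.ball_subset_closedBall.trans hHs
  have hD : RelOpen (Metric.ball z r) := hrel z r hbHs
  -- a point of `Z` in the coordinate ball
  have hV : IsOpen ((xc n m).symm '' Metric.ball z r) := cRungeB_open hLoc m hD hbt
  have hmV : m ∈ (xc n m).symm '' Metric.ball z r := ⟨z, Metric.mem_ball_self hr, hzm⟩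
  obtain ⟨_, ⟨y, hy, rfl⟩, hyZ⟩ := mem_closure_iff.1 hmZ _ hV hmV
  obtain ⟨r', hr', hsub, hlim'⟩ := cRungeB_small (P := P) hInt hLoc hwc m
    (fun x hx => ⟨hct hx, hpos hx⟩) hy hyZ
  have key := hUI n N (P.loc m) (Metric.ball z r) Metric.isOpen_ball hbHs
    (cRungeB_ok_mono ((hLoc n N M).2.1 P m) hbt) (convex_ball z r).isPreconnected
    (fun k => lu (𝓡∂ n) m (w k)) (fun k => ((hLoc n N M).2.2.2 (w k) (hw k) m).mono hbt)
    (fun K' _ hK' => cRungeB_cauchy hInt hLoc hEn hw hcE hcL m hD Metric.ball_subset_closedBall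
      (isCompact_closedBall z r) hct hK')
    (fun ψ hψ => lb_test hEn hExt hbd hw hlim m hD hbt
      (fun y hy => h2 y (hin (Metric.ball_subset_closedBall hy)))
      (fun y hy hyb => by
        have h4 := cRungeB_mi_of_pos hLoc m (hbt hy) (hpos (Metric.ball_subset_closedBall hy))
        rw [← ModelWithCorners.compl_interior] at hyb
        exact absurd h4 hyb)
      hψ.1.contDiffOn hψ.2.1.isCompact hψ.2.2
      (fun y _ hy => image_eq_zero_of_notMem_tsupport hy))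
    y r' hr' hsub hlim' (Metric.closedBall z (r / 2)) (isCompact_closedBall _ _)
    (Metric.closedBall_subset_ball (by (clear * - hr; linarith)))
  have hbb : Metric.ball z (r / 2) ⊆ Metric.closedBall z (r / 2) := Metric.ball_subset_closedBall
  have hcc : Metric.closedBall z (r / 2) ⊆ Metric.closedBall z r :=
    Metric.closedBall_subset_closedBall (by linarith only [hr])
  have key2 := cRungeB_up (P := P) hInt hLoc hwc m (isCompact_closedBall z r) hct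
    measurableSet_closedBall hcc key
  refine ⟨(xc n m).symm '' Metric.ball z (r / 2), ?_, ⟨z, Metric.mem_ball_self (by linarith only [hr]), hzm⟩,
    cRungeB_mono (fun k => cRungeB_integrable P hInt (hwc k)) (image_mono hbb) key2⟩
  exact cRungeB_open hLoc m (hrel _ _ (hbb.trans (hcc.trans hHs))) (hbb.trans (hcc.trans hct))

/-- the sequence tends to zero near `Γ` -/
theorem lb_i (hUB : AUcpBd_statement) (hInt : CInt_statement.{u})
    (hLoc : CLoc_statement.{u}) (hEn : CEnergy_statement.{u}) (hExt : CExt_statement.{u})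
    (hbd : IsClosed ((𝓡∂ n).boundary M)) (hw : ∀ k, SmS n (w k))
    (hw0 : ∀ k, ∀ x ∈ (𝓡∂ n).boundary M, w k x = 0)
    (hcE : ∀ ε > 0, ∃ k₀, ∀ k ≥ k₀, ∀ l ≥ k₀, (P.E (w k - w l) (w k - w l)).re ≤ ε)
    (hcL : ∀ ε > 0, ∃ k₀, ∀ k ≥ k₀, ∀ l ≥ k₀, ∫ x, ‖w k x - w l x‖ ^ 2 ∂P.μ ≤ ε)
    {Γ K : Set M} (hK : IsClosed K) (hΓ : RelBd n Γ)
    (hlim : ∀ φ : M → Fib N, IsBdryData (𝓡∂ n) Γ φ → tsupport φ ⊆ Kᶜ →
      Tendsto (fun k => P.E (w k) φ) atTop (𝓝 0))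
    {p : M} (hp : p ∈ Γ) (hpK : p ∉ K) : p ∈ cRungeB_Z P w := by
  have hwc : ∀ k, Continuous (w k) := fun k => cRungeB_sm_cont (hw k)
  obtain ⟨O, hO, hΓO⟩ := hΓ
  have hpO : p ∈ O ∩ (𝓡∂ n).boundary M := hΓO ▸ hp
  set z := xc n p p with hz
  have hps : p ∈ (xc n p).source := mem_extChartAt_source p
  have hzt : z ∈ tg n p := (xc n p).map_source hps
  have hzp : (xc n p).symm z = p := (xc n p).left_inv hps
  have hz0 : z 0 = 0 := ((hLoc n 0 M).2.2.1 p p hps).1 hpO.2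
  obtain ⟨r, hr, h1, h2⟩ := cRungeB_ball hLoc p (hO.inter hK.isOpen_compl) hzt
    (by rw [hzp]; exact ⟨hpO.1, hpK⟩)
  have hC : IsCompact (Metric.closedBall z r ∩ Hs n) :=
    (isCompact_closedBall z r).inter_right isClosed_Hs
  have hDC : HB z r ⊆ Metric.closedBall z r ∩ Hs n :=
    inter_subset_inter_left _ Metric.ball_subset_closedBall
  have hD : RelOpen (HB z r) := ⟨Metric.ball z r, Metric.isOpen_ball, rfl⟩
  have hDt : HB z r ⊆ tg n p := hDC.trans h1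
  obtain ⟨r', hr', hrr, hlim'⟩ := hUB n N (P.loc p) z r hr hz0
    (cRungeB_ok_mono ((hLoc n N M).2.1 P p) hDt)
    (fun k => lu (𝓡∂ n) p (w k)) (fun k => ((hLoc n N M).2.2.2 (w k) (hw k) p).mono hDt)
    (fun k y hy hy0 => by
      refine hw0 k _ (((hLoc n 0 M).2.2.1 p _ ((xc n p).map_target (hDt hy))).2 ?_)
      rw [(xc n p).right_inv (hDt hy)]
      exact hy0)
    (cRungeB_cauchy hInt hLoc hEn hw hcE hcL p hD hDC hC h1 subset_rfl)
    (fun k => (((cRungeB_h1_cont hLoc p (hw k)).mono h1).integrableOn_compact hC).mono_set hDC)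
    (fun ψ hψ => lb_test hEn hExt hbd hw hlim p hD hDt
      (fun y hy => (h2 y (hDC hy)).2)
      (fun y hy hyb => by
        rw [hΓO]
        exact ⟨(h2 y (hDC hy)).1, hyb⟩)
      hψ.1.contDiffOn (hψ.2.1.isCompact.inter_right isClosed_Hs)
      (inter_subset_inter_left _ hψ.2.2)
      (fun y hy hy' => image_eq_zero_of_notMem_tsupport fun h => hy' ⟨h, hy.2⟩))
  have hrel : RelOpen (HB z r') := ⟨Metric.ball z r', Metric.isOpen_ball, rfl⟩
  have hsub : HB z r' ⊆ HB z r := inter_subset_inter_left _ (Metric.ball_subset_ball hrr)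
  refine ⟨(xc n p).symm '' HB z r', cRungeB_open hLoc p hrel (hsub.trans hDt),
    ⟨z, ⟨Metric.mem_ball_self hr', le_of_eq hz0.symm⟩, hzp⟩, ?_⟩
  exact cRungeB_up hInt hLoc hwc p hC h1
    (measurableSet_ball.inter isClosed_Hs.measurableSet) (hsub.trans hDC) hlim'

end prop

/-- (LB1) -/
theorem lb1 (n N : ℕ) [NeZero n] (M : Type u) [TopologicalSpace M]
    [ChartedSpace (EuclideanHalfSpace n) M] [IsManifold (𝓡∂ n) ∞ M] [T2Space M] [CompactSpace M]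
    [ConnectedSpace M] [MeasurableSpace M] [BorelSpace M] (P : One n N M) (Γ W : Set M) (x : M)
    (R ρ : ℝ) (hΓ : RelBd n Γ) (hW : IsClosed W) (hR : IsCB n x R) (hρ : 0 < ρ) (hρR : ρ < R)
    (hdis : Disjoint (cb n x R) W) (hconn : IsPreconnected (Mi n M \ (W ∪ cb n x ρ)))
    (hne : (Γ \ W).Nonempty) (w : ℕ → M → Fib N) (hw : ∀ k, SmS n (w k))
    (hw0 : ∀ k, ∀ y ∈ (𝓡∂ n).boundary M, w k y = 0)
    (hcE : ∀ ε > 0, ∃ k₀, ∀ k ≥ k₀, ∀ l ≥ k₀, (P.E (w k - w l) (w k - w l)).re ≤ ε)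
    (hcL : ∀ ε > 0, ∃ k₀, ∀ k ≥ k₀, ∀ l ≥ k₀, ∫ y, ‖w k y - w l y‖ ^ 2 ∂P.μ ≤ ε)
    (hlim : ∀ φ : M → Fib N, IsBdryData (𝓡∂ n) Γ φ → tsupport φ ⊆ (W ∪ cb n x ρ)ᶜ →
      Tendsto (fun k => P.E (w k) φ) atTop (𝓝 0)) :
    ∀ K : Set (E n), IsCompact K →
      K ⊆ Metric.ball (xc n x x) R \ Metric.closedBall (xc n x x) ρ →
      Tendsto (fun k => ∫ y in K, ‖lu (𝓡∂ n) x (w k) y‖ ^ 2) atTop (𝓝 0) := by
  intro K hK hKs
  have hUI := aUcpInt
  have hUB := aUcpBd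
  have hLoc := TM.fLoc.{u}
  have hEn := TM.fEn.{u}
  have hInt := TM.fInt.{u}
  have hExt := TM.fExt.{u}
  have hwc : ∀ k, Continuous (w k) := fun k => cRungeB_sm_cont (hw k)
  obtain ⟨hIo, hIp, hId⟩ := TM.fConn n M
  have hbd : IsClosed ((𝓡∂ n).boundary M) := by
    rw [← ModelWithCorners.compl_interior]
    exact hIo.isClosed_compl
  have hK₁ := cRungeB_cb_closed hR hρR
  have hK₀ : IsClosed (W ∪ cb n x ρ) := hW.union hK₁
  have hcm : cb n x R ⊆ Mi n M := cRungeB_cb_mi hLoc hR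
  have hsub₁ : cb n x ρ ⊆ cb n x R := image_mono (Metric.closedBall_subset_closedBall hρR.le)
  obtain ⟨p, hpΓ, hpW⟩ := hne
  have hpb : p ∈ (𝓡∂ n).boundary M := by
    obtain ⟨O, -, hΓO⟩ := hΓ
    rw [hΓO] at hpΓ
    exact hpΓ.2
  have hpK : p ∉ W ∪ cb n x ρ := by
    rintro (h | h)
    · exact hpW h
    · rw [← ModelWithCorners.compl_interior] at hpb
      exact hpb (hcm (hsub₁ h))
  have hpZ : p ∈ cRungeB_Z P w :=
    lb_i hUB hInt hLoc hEn hExt hbd hw hw0 hcE hcL hK₀ hΓ hlim hpΓ hpK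
  have hA : Mi n M \ (W ∪ cb n x ρ) ⊆ cRungeB_Z P w := by
    refine hconn.subset_of_closure_inter_subset (cRungeB_Z_open P w) ?_ ?_
    · obtain ⟨q, ⟨hqZ, hqK⟩, hqI⟩ := mem_closure_iff.1 (hId p)
        (cRungeB_Z P w ∩ (W ∪ cb n x ρ)ᶜ) ((cRungeB_Z_open P w).inter hK₀.isOpen_compl)
        ⟨hpZ, hpK⟩
      exact ⟨q, ⟨hqI, hqK⟩, hqZ⟩
    · rintro m ⟨hmZ, hmI, hmK⟩
      exact lb_ii hUI hInt hLoc hEn hExt hbd hw hcE hcL hK₀ hlim hmI hmK hmZ
  refine cRungeB_v (P := P) hInt hLoc hwc hR hρR ?_ hK hKs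
  rintro m ⟨hm, hm'⟩
  have hmc : m ∈ cb n x R := image_mono Metric.ball_subset_closedBall hm
  exact hA ⟨hcm hmc, fun h => h.elim (fun h1 => disjoint_left.1 hdis hmc h1) hm'⟩

end Vale.Agent.P088.EYM.O

end
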