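import Vale.Agent.P088.H5.Spec4
import Vale.Agent.P088.TM.H275BC

/-!
# P088, Theorem L, block LD: topology of `O ∩ Int M` minus a closed coordinate ball
-/

open Bundle Manifold MeasureTheory Set Filter Topology
open scoped ContDiff Matrix

noncomputable section

set_option linter.unusedSectionVars false

namespace Vale.Agent.P088.EYM.O

open Vale.Agent.P088 Vale.Agent.P088.EYM

universe u

namespace D779

/-- A dense subset of a preconnected open set which is locally preconnected around every point is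
preconnected. -/
theorem top_sub {X : Type u} [TopologicalSpace X] {O S : Set X} (hO : IsPreconnected O)
    (hSO : S ⊆ O) (hd : ∀ x ∈ O, x ∈ closure S)
    (hl : ∀ x ∈ O, ∃ W, IsOpen W ∧ x ∈ W ∧ IsPreconnected (W ∩ S)) : IsPreconnected S := by
  rw [isPreconnected_iff_subset_of_disjoint]
  intro U V hU hV hS hUV
  by_contra hcon
  push Not at hcon
  obtain ⟨hSU, hSV⟩ := hcon
  rw [not_subset] at hSU hSV
  obtain ⟨a, haS, haU⟩ := hSU
  obtain ⟨b, hbS, hbV⟩ := hSV
  have haV : a ∈ V := (hS haS).resolve_left haU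
  have hbU : b ∈ U := (hS hbS).resolve_right hbV
  set A : Set X := {x | ∃ W, IsOpen W ∧ x ∈ W ∧ W ∩ S ⊆ U} with hA
  set B : Set X := {x | ∃ W, IsOpen W ∧ x ∈ W ∧ W ∩ S ⊆ V} with hB
  have hAo : IsOpen A := by
    rw [isOpen_iff_forall_mem_open]
    rintro x ⟨W, hW, hx, hs⟩
    exact ⟨W, fun y hy => ⟨W, hW, hy, hs⟩, hW, hx⟩
  have hBo : IsOpen B := by
    rw [isOpen_iff_forall_mem_open]
    rintro x ⟨W, hW, hx, hs⟩
    exact ⟨W, fun y hy => ⟨W, hW, hy, hs⟩, hW, hx⟩
  have hAB : O ∩ (A ∩ B) = ∅ := by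
    rw [eq_empty_iff_forall_notMem]
    rintro x ⟨hxO, ⟨W, hW, hx, hs⟩, ⟨W', hW', hx', hs'⟩⟩
    obtain ⟨y, ⟨hy1, hy2⟩, hyS⟩ := mem_closure_iff.1 (hd x hxO) (W ∩ W') (hW.inter hW') ⟨hx, hx'⟩
    have : y ∈ S ∩ (U ∩ V) := ⟨hyS, hs ⟨hy1, hyS⟩, hs' ⟨hy2, hyS⟩⟩
    rw [hUV] at this
    exact this
  have hcov : O ⊆ A ∪ B := by
    intro x hxO
    obtain ⟨W, hW, hx, hp⟩ := hl x hxO
    have h1 := isPreconnected_iff_subset_of_disjoint.1 hp U V hU hV
      (inter_subset_right.trans hS) (by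
        rw [eq_empty_iff_forall_notMem]
        rintro y ⟨⟨_, hy⟩, hy2⟩
        have : y ∈ S ∩ (U ∩ V) := ⟨hy, hy2⟩
        rw [hUV] at this
        exact this)
    rcases h1 with h1 | h1
    · exact Or.inl ⟨W, hW, hx, h1⟩
    · exact Or.inr ⟨W, hW, hx, h1⟩
  have haB : a ∈ B := ⟨V, hV, haV, inter_subset_left⟩
  have hbA : b ∈ A := ⟨U, hU, hbU, inter_subset_left⟩
  rcases isPreconnected_iff_subset_of_disjoint.1 hO A B hAo hBo hcov hAB with h | h
  · have : a ∈ O ∩ (A ∩ B) := ⟨hSO haS, h (hSO haS), haB⟩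
    rw [hAB] at this
    exact this
  · have : b ∈ O ∩ (A ∩ B) := ⟨hSO hbS, hbA, h (hSO hbS)⟩
    rw [hAB] at this
    exact this

/-- Removing a compact subset of an open set `B` with `B \ K` preconnected. -/
theorem top_diff {X : Type u} [TopologicalSpace X] {S K B : Set X} (hS : IsPreconnected S)
    (hK : IsClosed K) (hB : IsOpen B) (hBS : B ⊆ S) (hKB : K ⊆ B) (hKn : K.Nonempty)
    (hA : IsPreconnected (B \ K)) : IsPreconnected (S \ K) := by
  have key : ∀ U V : Set X, IsOpen U → IsOpen V → S \ K ⊆ U ∪ V → (S \ K) ∩ (U ∩ V) = ∅ →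
      B \ K ⊆ U → S \ K ⊆ U := by
    intro U V hU hV hc hd hBU
    have h1 := isPreconnected_iff_subset_of_disjoint.1 hS (U ∪ B) (V ∩ Kᶜ) (hU.union hB)
      (hV.inter hK.isOpen_compl) (by
        intro x hx
        by_cases hxK : x ∈ K
        · exact Or.inl (Or.inr (hKB hxK))
        · rcases hc ⟨hx, hxK⟩ with h | h
          · exact Or.inl (Or.inl h)
          · exact Or.inr ⟨h, hxK⟩) (by
        rw [eq_empty_iff_forall_notMem]
        rintro x ⟨hx, hx1, hxV, hxK⟩
        have hxU : x ∈ U := by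
          rcases hx1 with h | h
          · exact h
          · exact hBU ⟨h, hxK⟩
        have : x ∈ (S \ K) ∩ (U ∩ V) := ⟨⟨hx, hxK⟩, hxU, hxV⟩
        rw [hd] at this
        exact this)
    rcases h1 with h1 | h1
    · rintro x ⟨hx, hxK⟩
      rcases h1 hx with h | h
      · exact h
      · exact hBU ⟨h, hxK⟩
    · obtain ⟨k, hk⟩ := hKn
      exact absurd hk (h1 (hBS (hKB hk))).2
  rw [isPreconnected_iff_subset_of_disjoint]
  intro U V hU hV hc hd
  have hsub : B \ K ⊆ S \ K := sdiff_subset_sdiff_left hBS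
  have h1 := isPreconnected_iff_subset_of_disjoint.1 hA U V hU hV (hsub.trans hc) (by
    rw [eq_empty_iff_forall_notMem]
    rintro x ⟨hx, hx2⟩
    have : x ∈ (S \ K) ∩ (U ∩ V) := ⟨hsub hx, hx2⟩
    rw [hd] at this
    exact this)
  rcases h1 with h1 | h1
  · exact Or.inl (key U V hU hV hc hd h1)
  · exact Or.inr (key V U hV hU (by rwa [union_comm]) (by rwa [inter_comm V U]) h1)

/-- `O ∩ Int M` is preconnected. -/
theorem conn_int {n : ℕ} [NeZero n] {M : Type u} [TopologicalSpace M]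
    [ChartedSpace (EuclideanHalfSpace n) M] [IsManifold (𝓡∂ n) ∞ M] [ConnectedSpace M]
    {O : Set M} (hO : IsOpen O) (hOp : IsPreconnected O) : IsPreconnected (O ∩ Mi n M) := by
  let _ : MeasurableSpace M := borel M
  obtain ⟨h1, -, h3, -⟩ := TM.fLoc n 0 M
  obtain ⟨-, -, hdense⟩ := TM.fConn n M
  have hmem : ∀ p x : M, x ∈ (xc n p).source → (x ∈ Mi n M ↔ 0 < xc n p x 0) := by
    intro p x hx
    have hb := h3 p x hx
    obtain ⟨O', -, hOt⟩ := h1 p
    have ht : xc n p x ∈ tg n p := (xc n p).map_source hx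
    rw [hOt] at ht
    have h0 : 0 ≤ xc n p x 0 := ht.2
    rw [← not_iff_not, not_lt, ← mem_compl_iff, ModelWithCorners.compl_interior, hb]
    exact ⟨fun h => h.le, fun h => le_antisymm h h0⟩
  refine top_sub hOp inter_subset_left (fun x hx => ?_) fun x hx => ?_
  · rw [mem_closure_iff]
    intro W hW hxW
    obtain ⟨y, ⟨hy1, hy2⟩, hy3⟩ := mem_closure_iff.1 (hdense x) (W ∩ O) (hW.inter hO) ⟨hxW, hx⟩
    exact ⟨y, hy1, hy2, hy3⟩
  set z := xc n x x with hz
  have hzt : z ∈ tg n x := mem_extChartAt_target x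
  obtain ⟨O', hO', hOt⟩ := h1 x
  have hzO : z ∈ O' := by
    rw [hOt] at hzt
    exact hzt.1
  have hev : ∀ᶠ y in 𝓝[tg n x] z, (xc n x).symm y ∈ O := by
    have h4 : ContinuousWithinAt (xc n x).symm (tg n x) z := continuousOn_extChartAt_symm x z hzt
    refine h4.eventually (hO.mem_nhds ?_)
    rw [hz, extChartAt_to_inv]
    exact hx
  obtain ⟨W₀, hW₀, hzW₀, hW₀O⟩ := mem_nhdsWithin.1 hev
  obtain ⟨r, hr, hrO⟩ := Metric.isOpen_iff.1 (hO'.inter hW₀) z ⟨hzO, hzW₀⟩
  refine ⟨(xc n x).source ∩ xc n x ⁻¹' Metric.ball z r,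
    (continuousOn_extChartAt x).isOpen_inter_preimage (isOpen_extChartAt_source x)
      Metric.isOpen_ball, ⟨mem_extChartAt_source x, Metric.mem_ball_self hr⟩, ?_⟩
  have hsub : Metric.ball z r ∩ {y : E n | 0 < y 0} ⊆ tg n x := by
    rintro y ⟨hy1, hy2⟩
    rw [hOt]
    have h7 : (0 : ℝ) < y 0 := hy2
    exact ⟨(hrO hy1).1, h7.le⟩
  have himg : (xc n x).source ∩ xc n x ⁻¹' Metric.ball z r ∩ (O ∩ Mi n M) =
      (xc n x).symm '' (Metric.ball z r ∩ {y : E n | 0 < y 0}) := by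
    ext m
    constructor
    · rintro ⟨⟨hm1, hm2⟩, -, hm3⟩
      exact ⟨xc n x m, ⟨hm2, (hmem x m hm1).1 hm3⟩, (xc n x).left_inv hm1⟩
    · rintro ⟨y, hy, rfl⟩
      have h8 := (xc n x).map_target (hsub hy)
      refine ⟨⟨h8, ?_⟩, hW₀O ⟨(hrO hy.1).2, hsub hy⟩, (hmem x _ h8).2 ?_⟩
      · rw [mem_preimage, (xc n x).right_inv (hsub hy)]
        exact hy.1
      · rw [(xc n x).right_inv (hsub hy)]
        exact hy.2
  rw [himg]
  refine IsPreconnected.image ?_ _ ((continuousOn_extChartAt_symm x).mono hsub)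
  apply Convex.isPreconnected
  refine (convex_ball z r).inter ?_
  intro a ha b hb s t hs ht hst
  change 0 < (s • a + t • b) 0
  have ha' : (0 : ℝ) < a 0 := ha
  have hb' : (0 : ℝ) < b 0 := hb
  simp only [PiLp.add_apply, PiLp.smul_apply, smul_eq_mul]
  rcases hs.eq_or_lt with h | h
  · have : t = 1 := by linarith only [hst, h]
    rw [← h, this]
    simpa only [zero_mul, one_mul, zero_add, gt_iff_lt] using hb'
  · have h5 := mul_pos h ha'
    have h6 := mul_nonneg ht hb'.le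
    linarith only [h5, h6]

end D779

theorem ld : LD_statement.{u} := by
  intro n _ M _ _ _ _ _ _ O x R ρ hn hO hOp hcb hρ hρR hcO
  let _ : MeasurableSpace M := borel M
  have _ : BorelSpace M := ⟨rfl⟩
  have h1 := D779.conn_int (n := n) hO hOp
  have hBO : (xc n x).symm '' Metric.ball (xc n x x) R ⊆ cb n x R :=
    image_mono Metric.ball_subset_closedBall
  have h2 := D779.top_diff h1 (cRungeB_cb_closed hcb hρR) (cRungeB_B_open TM.fLoc hcb)
    (fun y hy => ⟨hcO (hBO hy), cRungeB_cb_mi TM.fLoc hcb (hBO hy)⟩)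
    (image_mono (Metric.closedBall_subset_ball hρR))
    ((Metric.nonempty_closedBall.2 hρ.le).image _) (cRungeB_A_conn hn hcb hρ hρR)
  have e : Mi n M \ (Oᶜ ∪ cb n x ρ) = (O ∩ Mi n M) \ cb n x ρ := by
    ext y
    simp only [Set.mem_sdiff, Set.mem_union, Set.mem_compl_iff, Set.mem_inter_iff]
    tauto
  rw [e]
  exact h2

end Vale.Agent.P088.EYM.O

end
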