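import Vale.Agent.P088.H5.Spec4

/-!
# P088, Theorem L: block LG (the two forms)
-/

set_option linter.all false

open Bundle Manifold MeasureTheory Set Filter Topology
open scoped ContDiff Matrix ENNReal

noncomputable section

namespace Vale.Agent.P088.EYM.O

open Vale.Agent.P088 Vale.Agent.P088.EYM

universe u

section

variable {n N : ℕ} [NeZero n] {M : Type u} [TopologicalSpace M]
  [ChartedSpace (EuclideanHalfSpace n) M] [IsManifold (𝓡∂ n) ∞ M]

/-- The integral of a pointwise positive semidefinite form. -/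
theorem psd_int [T2Space M] [CompactSpace M] [MeasurableSpace M] [BorelSpace M] {μ : Measure M}
    [IsFiniteMeasure μ] {S : Set M} (hS : MeasurableSet S)
    (d : (M → Fib N) → (M → Fib N) → M → ℂ)
    (hc : ∀ u v : M → Fib N, SmS n u → SmS n v → Continuous (d u v))
    (hadd : ∀ u v w : M → Fib N, SmS n u → SmS n v → SmS n w → ∀ x,
      d u (v + w) x = d u v x + d u w x)
    (hsmul : ∀ (a : ℂ) (u v : M → Fib N), SmS n u → SmS n v → ∀ x, d u (a • v) x = a * d u v x)
    (hconj : ∀ u v : M → Fib N, SmS n u → SmS n v → ∀ x, d v u x = (starRingEnd ℂ) (d u v x))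
    (hnn : ∀ u : M → Fib N, SmS n u → ∀ x ∈ S, 0 ≤ (d u u x).re) :
    Psd n (fun u v => ∫ x in S, d u v x ∂μ) := by
  have hint : ∀ u v : M → Fib N, SmS n u → SmS n v → Integrable (d u v) (μ.restrict S) :=
    fun u v hu hv => (integrable_of_continuous (hc u v hu hv)).restrict
  refine ⟨?_, ?_, ?_, ?_⟩
  · intro u v w hu hv hw
    simp only [hadd u v w hu hv hw]
    exact integral_add (hint u v hu hv) (hint u w hu hw)
  · intro a u v hu hv
    simp only [hsmul a u v hu hv]
    exact integral_const_mul a _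
  · intro u v hu hv
    rw [← integral_conj]
    exact integral_congr_ae (Eventually.of_forall fun x => hconj u v hu hv x)
  · intro u hu
    have e : (∫ x in S, d u u x ∂μ).re = ∫ x in S, (d u u x).re ∂μ :=
      (integral_re (𝕜 := ℂ) (hint u u hu hu)).symm
    rw [e]
    exact setIntegral_nonneg hS (hnn u hu)

theorem covI_off {A : Connection (𝓡∂ n) N M} {φ : M → Fib N} (hφ : SmS n φ) {x : M}
    (hx : x ∉ tsupport φ) (a : EuclideanSpace ℝ (Fin n)) : covI A φ x a = 0 := by
  have h1 : φ =ᶠ[𝓝 x] fun _ => (0 : Fib N) := notMem_tsupport_iff_eventuallyEq.1 hx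
  have h2 : φ x = 0 := image_eq_zero_of_notMem_tsupport hx
  have h3 : Tendsto (xc n x).symm (𝓝[range (𝓡∂ n)] (xc n x x)) (𝓝 x) := by
    have h4 := (continuousAt_extChartAt_symm (I := 𝓡∂ n) x).tendsto
    rw [(xc n x).left_inv (mem_extChartAt_source x)] at h4
    exact h4.mono_left nhdsWithin_le_nhds
  have h5 : lu (𝓡∂ n) x φ =ᶠ[𝓝[range (𝓡∂ n)] (xc n x x)] fun _ => (0 : Fib N) := h3.eventually h1
  have h6 : dI (𝓡∂ n) φ x = 0 := by
    have h7 : HasFDerivWithinAt (lu (𝓡∂ n) x φ) (0 : E n →L[ℝ] Fib N) (range (𝓡∂ n)) (xc n x x) :=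
      (hasFDerivWithinAt_const (0 : Fib N) _ _).congr_of_eventuallyEq h5 (by
        show φ ((xc n x).symm (xc n x x)) = 0
        rw [(xc n x).left_inv (mem_extChartAt_source x), h2])
    exact dI_eq_of (hφ.mdifferentiableAt (by simp)) h7
  rw [covI_eq, h6, h2]
  simp

theorem pairing_off (g : Metric (𝓡∂ n) M) (A : Connection (𝓡∂ n) N M) {φ : M → Fib N}
    (hφ : SmS n φ) {x : M} (hx : x ∉ tsupport φ) (v : M → Fib N) : pairing g A φ v x = 0 := by
  simp only [pairing_eq_rp, rp, covI_off hφ hx, inner_zero_left, smul_zero, Finset.sum_const_zero]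

variable [T2Space M] [CompactSpace M] [MeasurableSpace M] [BorelSpace M]

theorem eQ590 (P Q : One n N M) {u : M → Fib N} (hu : SmS n u) :
    (Q.E u u).re = ∫ x, rho P.g Q.g x * (pairing Q.g Q.A u u x).re ∂P.μ := by
  have h1 := re_energy Q Q.A hu
  unfold One.E
  rw [h1, withDensity_rho P Q, integral_withDensity_eq_integral_toReal_smul₀]
  · refine integral_congr_ae (Eventually.of_forall fun x => ?_)
    simp only [smul_eq_mul]
    rw [ENNReal.toReal_ofReal (rho_pos P.g Q.g x).le]
  · exact (continuous_rho P.g Q.g).measurable.ennreal_ofReal.aemeasurable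
  · exact Eventually.of_forall fun x => ENNReal.ofReal_lt_top

theorem cont_DD590 (P Q : One n N M) {u v : M → Fib N} (hu : SmS n u) (hv : SmS n v) :
    Continuous (DD P Q u v) :=
  ((Complex.continuous_ofReal.comp (continuous_rho P.g Q.g)).mul
    (continuous_pairing Q.g Q.A hu hv)).sub (continuous_pairing P.g Q.A hu hv)

theorem re_DD590 (P Q : One n N M) (u : M → Fib N) (x : M) :
    (DD P Q u u x).re =
      rho P.g Q.g x * (pairing Q.g Q.A u u x).re - (pairing P.g Q.A u u x).re := by
  unfold DD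
  rw [Complex.sub_re, Complex.re_ofReal_mul]

theorem DD_nonneg590 (P Q : One n N M) (u : M → Fib N) {x : M}
    (hx : (sig Q.g x - sig P.g x).PosSemidef) : 0 ≤ (DD P Q u u x).re := by
  rw [re_DD590, diff_eq]
  exact mul_nonneg (inv_nonneg.2 (Real.sqrt_nonneg _)) (psd_nonneg hx _)

end

/-- (LG) -/
theorem lg (hC : LC_statement.{u}) : LG_statement.{u} := by
  intro n N _ M _ _ _ _ _ _ _ _ P Q O K hbd hO hK hKO hsig
  haveI : IsFiniteMeasure P.μ := ⟨measure_univ_lt_top P.hμ⟩
  haveI : IsFiniteMeasure Q.μ := ⟨measure_univ_lt_top Q.hμ⟩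
  have hint : ∀ {f : M → ℝ}, Continuous f → Integrable f P.μ := fun hf =>
    integrable_of_continuous hf
  refine ⟨?_, ?_, ?_, ?_, ?_⟩
  · refine psd_int hK.measurableSet (DD P Q) (fun u v hu hv => cont_DD590 P Q hu hv) ?_ ?_ ?_ ?_
    · intro u v w hu hv hw x
      unfold DD
      rw [cForm_pairing_add Q.g Q.A hv hw, cForm_pairing_add P.g Q.A hv hw]
      ring
    · intro a u v hu hv x
      unfold DD
      rw [cForm_pairing_smul Q.g Q.A a hv, cForm_pairing_smul P.g Q.A a hv]
      ring
    · intro u v hu hv x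
      unfold DD
      rw [cForm_pairing_conj Q.g Q.A u v, cForm_pairing_conj P.g Q.A u v, map_sub, map_mul,
        Complex.conj_ofReal]
    · intro u hu x hx
      exact DD_nonneg590 P Q u (hsig x (hKO hx))
  · exact psd_int hO.measurableSet.compl (pairing P.g P.A)
      (fun u v hu hv => continuous_pairing P.g P.A hu hv)
      (fun u v w hu hv hw x => cForm_pairing_add P.g P.A hv hw x)
      (fun a u v hu hv x => cForm_pairing_smul P.g P.A a hv x)
      (fun u v hu hv x => cForm_pairing_conj P.g P.A u v x)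
      (fun u hu x _ => cForm_pairing_nonneg P.g P.A u x)
  · intro φ hφ hs
    refine setIntegral_eq_zero_of_forall_eq_zero fun x hx => ?_
    have h1 : x ∉ tsupport φ := fun h => hs h hx
    unfold DD
    rw [pairing_off Q.g Q.A hφ h1, pairing_off P.g Q.A hφ h1]
    simp
  · intro φ hφ hs
    exact setIntegral_eq_zero_of_forall_eq_zero fun x hx =>
      pairing_off P.g P.A hφ (fun h => hx (hs h)) φ
  · obtain ⟨C, hC0, hC1⟩ := hC n N M P Q
    obtain ⟨D, hD0, hD1⟩ := TM.fPoinc n N M Q hbd
    refine ⟨1 + C * (1 + D), fun φ hφ h0 => ?_⟩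
    have hQ0 : 0 ≤ (Q.E φ φ).re := (TM.fForm n N M Q).2.2.2.1 φ hφ
    have hrc := continuous_rho P.g Q.g
    have hpP : Continuous fun x => (pairing P.g Q.A φ φ x).re :=
      Complex.continuous_re.comp (continuous_pairing P.g Q.A hφ hφ)
    have hpP' : Continuous fun x => (pairing P.g P.A φ φ x).re :=
      Complex.continuous_re.comp (continuous_pairing P.g P.A hφ hφ)
    have hpQ : Continuous fun x => (pairing Q.g Q.A φ φ x).re :=
      Complex.continuous_re.comp (continuous_pairing Q.g Q.A hφ hφ)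
    have h1 : (∫ x in K, DD P Q φ φ x ∂P.μ).re ≤ (Q.E φ φ).re := by
      have e : (∫ x in K, DD P Q φ φ x ∂P.μ).re = ∫ x in K, (DD P Q φ φ x).re ∂P.μ :=
        (integral_re (𝕜 := ℂ) (integrable_of_continuous (cont_DD590 P Q hφ hφ)).restrict).symm
      rw [e, eQ590 P Q hφ]
      calc ∫ x in K, (DD P Q φ φ x).re ∂P.μ
          ≤ ∫ x in K, rho P.g Q.g x * (pairing Q.g Q.A φ φ x).re ∂P.μ := by
            refine integral_mono (hint (Complex.continuous_re.comp (cont_DD590 P Q hφ hφ))).restrict
              (hint (hrc.mul hpQ)).restrict fun x => ?_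
            simp only
            rw [re_DD590]
            have := cForm_pairing_nonneg P.g Q.A φ x
            linarith
        _ ≤ ∫ x, rho P.g Q.g x * (pairing Q.g Q.A φ φ x).re ∂P.μ :=
            setIntegral_le_integral (hint (hrc.mul hpQ)) (Eventually.of_forall fun x =>
              mul_nonneg (rho_pos P.g Q.g x).le (cForm_pairing_nonneg Q.g Q.A φ x))
    have h2 : (∫ x in Oᶜ, pairing P.g P.A φ φ x ∂P.μ).re ≤ (P.E φ φ).re := by
      have e : (∫ x in Oᶜ, pairing P.g P.A φ φ x ∂P.μ).re =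
          ∫ x in Oᶜ, (pairing P.g P.A φ φ x).re ∂P.μ :=
        (integral_re (𝕜 := ℂ)
          (integrable_of_continuous (continuous_pairing P.g P.A hφ hφ)).restrict).symm
      have e2 : (P.E φ φ).re = ∫ x, (pairing P.g P.A φ φ x).re ∂P.μ := re_energy P P.A hφ
      rw [e, e2]
      exact setIntegral_le_integral (hint hpP') (Eventually.of_forall fun x =>
        cForm_pairing_nonneg P.g P.A φ x)
    have h3 := hC1 φ hφ
    have h4 := hD1 φ hφ h0
    have h5 : C * ((Q.E φ φ).re + ∫ x, ‖φ x‖ ^ 2 ∂Q.μ) ≤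
        C * ((Q.E φ φ).re + D * (Q.E φ φ).re) := by
      exact mul_le_mul_of_nonneg_left (by linarith) hC0.le
    nlinarith

end Vale.Agent.P088.EYM.O

end
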