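import Vale.Agent.P088.H5.LL435
import Vale.Agent.P088.H5.LB1_332
import Vale.Agent.P088.H5.LD779
import Vale.Agent.P088.H5.LG590

/-!
# P088, Theorem L: the solutions agree where the pairs agree
-/

set_option linter.all false

open Bundle Manifold MeasureTheory Set Filter Topology
open scoped ContDiff Matrix

noncomputable section

namespace Vale.Agent.P088.EYM.O

open Vale.Agent.P088 Vale.Agent.P088.EYM

universe u

section

variable {n N : ℕ} [NeZero n] {M : Type u} [TopologicalSpace M]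
  [ChartedSpace (EuclideanHalfSpace n) M] [IsManifold (𝓡∂ n) ∞ M]

/-- Equal metrics have equal matrices. -/
theorem gram_of_inner {g g' : Metric (𝓡∂ n) M} {x : M}
    (h : ∀ v w : TangentSpace (𝓡∂ n) x, g.inner x v w = g'.inner x v w) :
    gram g x x = gram g' x x := by
  ext i j
  exact h _ _

theorem rho_one {g g' : Metric (𝓡∂ n) M} {x : M} (h : gram g x x = gram g' x x) :
    rho g g' x = 1 := by
  unfold rho
  rw [h]
  exact div_self (Real.sqrt_pos.2 (gram_det_pos g' (mem_extChartAt_source x))).ne'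

theorem pairing_congr {g g' : Metric (𝓡∂ n) M} {A A' : Connection (𝓡∂ n) N M} {x : M}
    (h : gram g x x = gram g' x x)
    (hA : ∀ X : TangentSpace (𝓡∂ n) x, A.form x X = A'.form x X) (u v : M → Fib N) :
    pairing g A u v x = pairing g' A' u v x := by
  have h1 : ∀ (w : M → Fib N) (X : TangentSpace (𝓡∂ n) x), cov A w x X = cov A' w x X := by
    intro w X
    unfold cov
    rw [hA X]
  unfold pairing
  simp only [h1, h]

variable [T2Space M] [CompactSpace M] [MeasurableSpace M] [BorelSpace M]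

/-- Energies with a test section supported where the pairs agree. -/
theorem energy_local (P Q : One n N M) {O : Set M}
    (hg : ∀ x ∈ O, gram P.g x x = gram Q.g x x)
    (hA : ∀ x ∈ O, ∀ X : TangentSpace (𝓡∂ n) x, P.A.form x X = Q.A.form x X)
    {φ v : M → Fib N} (hφ : SmS n φ) (hv : SmS n v) (hs : tsupport φ ⊆ O) :
    Q.E φ v = P.E φ v := by
  have hrc := continuous_rho P.g Q.g
  unfold One.E energy
  rw [withDensity_rho P Q, integral_withDensity_eq_integral_toReal_smul₀]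
  · refine integral_congr_ae (Eventually.of_forall fun x => ?_)
    simp only
    rw [ENNReal.toReal_ofReal (rho_pos P.g Q.g x).le]
    by_cases hx : x ∈ tsupport φ
    · rw [rho_one (hg x (hs hx)), one_smul]
      exact (pairing_congr (hg x (hs hx)) (hA x (hs hx)) φ v).symm
    · rw [pairing_off Q.g Q.A hφ hx v, pairing_off P.g P.A hφ hx v, smul_zero]
  · exact hrc.measurable.ennreal_ofReal.aemeasurable
  · exact Eventually.of_forall fun x => ENNReal.ofReal_lt_top

end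

/-- If the pairs agree on a connected open set `O` which meets `Γ`, then corresponding solutions
agree on `O`. -/
theorem lS (n N : ℕ) [NeZero n] (M : Type u) [TopologicalSpace M]
    [ChartedSpace (EuclideanHalfSpace n) M] [IsManifold (𝓡∂ n) ∞ M] [T2Space M] [CompactSpace M]
    [ConnectedSpace M] [MeasurableSpace M] [BorelSpace M] (P Q : One n N M) (Γ O : Set M)
    (hΓ : RelBd n Γ) (hO : IsOpen O) (hOp : IsPreconnected O) (hOΓ : (O ∩ Γ).Nonempty)
    (hS : SameD P Q Γ)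
    (hA : ∀ x ∈ O, ∀ X : TangentSpace (𝓡∂ n) x, P.A.form x X = Q.A.form x X)
    (hg : ∀ x ∈ O, ∀ v w : TangentSpace (𝓡∂ n) x, Q.g.inner x v w = P.g.inner x v w) :
    ∀ u ∈ PP P Q Γ, ∀ x ∈ O, u.1 x = u.2 x := by
  intro u hu
  obtain ⟨hIo, -, hcl⟩ := TM.fConn n M
  have hbd : IsClosed ((𝓡∂ n).boundary M) := by
    rw [← ModelWithCorners.compl_interior]
    exact hIo.isClosed_compl
  have hΓn : Γ.Nonempty := hOΓ.mono inter_subset_right
  obtain ⟨-, hd⟩ := Vale.Agent.P088.EYM.cData TM.fUniq TM.fForm n N M P Q Γ hΓ hΓn hS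
  have hu' := hu
  obtain ⟨f, hf, h1, h2⟩ := hu'
  set w : M → Fib N := u.1 - u.2 with hw
  have hws : SmS n w := h1.smooth.sub h2.smooth
  have hw0 : ∀ y ∈ (𝓡∂ n).boundary M, w y = 0 := fun y hy => by
    show u.1 y - u.2 y = 0
    rw [h1.boundary y hy, h2.boundary y hy, sub_self]
  have hgr : ∀ x ∈ O, gram P.g x x = gram Q.g x x := fun x hx =>
    gram_of_inner fun a b => (hg x hx a b).symm
  obtain ⟨f1, f2, f3, -, -⟩ := TM.fForm n N M P
  have htest : ∀ φ : M → Fib N, IsBdryData (𝓡∂ n) Γ φ → tsupport φ ⊆ (Oᶜ)ᶜ →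
      P.E w φ = 0 := by
    intro φ hφ hsφ
    rw [compl_compl] at hsφ
    have e1 : P.E φ u.1 = Q.E φ u.2 := hd u hu φ φ hφ.smooth hφ.smooth (fun _ _ => rfl) hφ.supp
    have e2 : Q.E φ u.2 = P.E φ u.2 := energy_local P Q hgr hA hφ.smooth h2.smooth hsφ
    have e3 : P.E φ w = 0 := by
      have e4 : u.1 = u.2 + w := by rw [hw]; abel
      have e5 : P.E φ u.1 = P.E φ u.2 + P.E φ w := by
        conv_lhs => rw [e4]
        exact f1 φ u.2 w hφ.smooth h2.smooth hws
      rw [e1, e2] at e5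
      exact (left_eq_add.1 e5)
    have e6 : P.E w φ = (starRingEnd ℂ) (P.E φ w) := f3 φ w hφ.smooth hws
    rw [e6, e3, map_zero]
  have hsub0 : ∀ k l : ℕ, ((fun _ : ℕ => w) k - (fun _ : ℕ => w) l : M → Fib N) = 0 := fun k l =>
    sub_self w
  have hE0 : P.E (0 : M → Fib N) 0 = 0 := by
    have := f2 (0 : ℂ) (0 : M → Fib N) 0 contMDiff_const contMDiff_const
    rw [smul_zero, zero_mul] at this
    exact this
  have hcE : ∀ ε > 0, ∃ k₀ : ℕ, ∀ k ≥ k₀, ∀ l ≥ k₀,
      (P.E ((fun _ : ℕ => w) k - (fun _ : ℕ => w) l) ((fun _ : ℕ => w) k -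
        (fun _ : ℕ => w) l)).re ≤ ε := fun ε hε => ⟨0, fun k _ l _ => by
    rw [hsub0 k l, hE0]
    exact hε.le⟩
  have hcL : ∀ ε > 0, ∃ k₀ : ℕ, ∀ k ≥ k₀, ∀ l ≥ k₀,
      ∫ y, ‖(fun _ : ℕ => w) k y - (fun _ : ℕ => w) l y‖ ^ 2 ∂P.μ ≤ ε := fun ε hε =>
    ⟨0, fun k _ l _ => by
      have : ∀ y, ‖(fun _ : ℕ => w) k y - (fun _ : ℕ => w) l y‖ ^ 2 = 0 := fun y => by simp
      simp only [this, integral_zero]
      exact hε.le⟩
  have hlim : ∀ φ : M → Fib N, IsBdryData (𝓡∂ n) Γ φ → tsupport φ ⊆ (Oᶜ)ᶜ →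
      Tendsto (fun k => P.E ((fun _ : ℕ => w) k) φ) atTop (𝓝 0) := fun φ h3 h4 => by
    simp only [htest φ h3 h4]
    exact tendsto_const_nhds
  have hZ : O ∩ Mi n M ⊆ cRungeB_Z P (fun _ : ℕ => w) := by
    refine (D779.conn_int (n := n) hO hOp).subset_of_closure_inter_subset (cRungeB_Z_open P _) ?_ ?_
    · obtain ⟨p, hpO, hpΓ⟩ := hOΓ
      have hpZ : p ∈ cRungeB_Z P (fun _ : ℕ => w) :=
        lb_i aUcpBd TM.fInt TM.fLoc TM.fEn TM.fExt hbd (fun _ => hws) (fun _ => hw0) hcE hcL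
          hO.isClosed_compl hΓ hlim hpΓ (fun h => h hpO)
      obtain ⟨q, ⟨hqZ, hqO⟩, hqI⟩ := mem_closure_iff.1 (hcl p)
        (cRungeB_Z P (fun _ : ℕ => w) ∩ O) ((cRungeB_Z_open P _).inter hO) ⟨hpZ, hpO⟩
      exact ⟨q, ⟨hqO, hqI⟩, hqZ⟩
    · rintro m ⟨hmZ, hmO, hmI⟩
      exact lb_ii aUcpInt TM.fInt TM.fLoc TM.fEn TM.fExt hbd (fun _ => hws) hcE hcL
        hO.isClosed_compl hlim hmI (fun h => h hmO) hmZ
  have hfin : IsFiniteMeasure P.μ := ⟨measure_univ_lt_top P.hμ⟩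
  have hpos' : P.μ.IsOpenPosMeasure := ⟨fun U hU hne => (measure_pos_of_isOpen P.hμ hU hne).ne'⟩
  have hint : ∀ x ∈ O ∩ Mi n M, w x = 0 := by
    intro x hx
    obtain ⟨V, hV, hxV, ht⟩ := hZ hx
    have h0 : ∫ y in V, ‖w y‖ ^ 2 ∂P.μ = 0 := tendsto_nhds_unique tendsto_const_nhds ht
    have hc : Continuous fun y => ‖w y‖ ^ 2 := hws.continuous.norm.pow 2
    have hi : IntegrableOn (fun y => ‖w y‖ ^ 2) V P.μ :=
      (hc.integrable_of_hasCompactSupport (HasCompactSupport.of_compactSpace _)).integrableOn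
    have h3 := (setIntegral_eq_zero_iff_of_nonneg_ae
      (Eventually.of_forall fun y => sq_nonneg _) hi).1 h0
    have h4 : ∀ᵐ y ∂(P.μ.restrict V), w y = 0 := by
      filter_upwards [h3] with y hy
      have : ‖w y‖ ^ 2 = 0 := hy
      exact norm_eq_zero.1 (pow_eq_zero_iff (two_ne_zero) |>.1 this)
    by_contra hne
    have hUo : IsOpen (V ∩ {y | w y ≠ 0}) := hV.inter (isOpen_ne_fun hws.continuous continuous_const)
    have h5 : 0 < P.μ (V ∩ {y | w y ≠ 0}) := hUo.measure_pos P.μ ⟨x, hxV, hne⟩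
    have h6 : P.μ (V ∩ {y | w y ≠ 0}) = 0 := by
      have h7 := (ae_iff.1 h4)
      rw [Measure.restrict_apply' hV.measurableSet] at h7
      rw [inter_comm]
      exact h7
    exact h5.ne' h6
  intro x hx
  have hxc : x ∈ closure (O ∩ Mi n M) := by
    rw [mem_closure_iff]
    intro V hV hxV
    obtain ⟨y, hy, hyi⟩ := mem_closure_iff.1 (hcl x) (V ∩ O) (hV.inter hO) ⟨hxV, hx⟩
    exact ⟨y, hy.1, hy.2, hyi⟩
  have hc : IsClosed {y | w y = 0} := isClosed_eq hws.continuous continuous_const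
  have h3 : w x = 0 := closure_minimal (fun y hy => hint y hy) hc hxc
  exact sub_eq_zero.1 h3

end Vale.Agent.P088.EYM.O

end
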