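import Vale.Agent.P088.H5.BrLP275
import Vale.Agent.P088.H5.ClosLP861
import Vale.Agent.P088.H5.LS435
import Vale.Agent.P088.H5.St4

/-!
# P088, Theorem L', elementary form, with the solutions
-/

set_option linter.all false

open Bundle Manifold MeasureTheory Set Filter
open scoped ContDiff Matrix Topology ENNReal

noncomputable section

namespace Vale.Agent.P088.B5

open Vale.Agent.P088 Vale.Agent.P088.B

universe u

section

variable {n : ℕ} [NeZero n] {N : ℕ} {M : Type u} [TopologicalSpace M]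
  [ChartedSpace (EuclideanHalfSpace n) M] [IsManifold (𝓡∂ n) ∞ M]

/-- From the elementary gauge relation on `W` to the abstract one, with the same `U`. -/
theorem toGaugeBy {U : M → Matrix (Fin N) (Fin N) ℂ} {W Γ : Set M}
    {a b : M → Fin n → Matrix (Fin N) (Fin N) ℂ}
    (h : GaugeBy U W Γ a b (at_ n M)) : IsSmoothUnitary (𝓡∂ n) (fun x => S.toE (U x)) ∧
      (∀ x ∈ Γ, S.toE (U x) = 1) ∧ ∀ x ∈ W, ∀ (X : TangentSpace (𝓡∂ n) x),
        S.formOf (b x) X = ContinuousLinearMap.adjoint (S.toE (U x)) ∘L S.formOf (a x) X ∘L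
          S.toE (U x) + ContinuousLinearMap.adjoint (S.toE (U x)) ∘L
            dmap (𝓡∂ n) (fun x => S.toE (U x)) x X := by
  obtain ⟨h1, h2, h3, h4⟩ := h
  have hV := isSmU_toE h1 h2
  refine ⟨hV, fun x hx => ?_, fun x hxW X => ?_⟩
  · rw [h3 x hx, S.toE_one]
  · set V : M → EndF N := fun x => S.toE (U x) with hVd
    let LA : EndF N →L[ℝ] EndF N :=
      ((ContinuousLinearMap.mul ℝ (EndF N)) (ContinuousLinearMap.adjoint (V x)))
    let RA : EndF N →L[ℝ] EndF N := (ContinuousLinearMap.mul ℝ (EndF N)).flip (V x)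
    let T2 : EuclideanSpace ℝ (Fin n) →L[ℝ] EndF N :=
      LA.comp (RA.comp (S.formOf (a x)) + dI (𝓡∂ n) V x)
    have hT : S.formOf (b x) = T2 := by
      refine ext_es fun i => ?_
      rw [formOf_es, h4 x hxW i, S.toE_mul, S.toE_star, S.toE_add, S.toE_mul]
      show _ = ContinuousLinearMap.adjoint (V x) *
        (S.formOf (a x) (es n i) * V x + dI (𝓡∂ n) V x (es n i))
      have e1 : dI (𝓡∂ n) V x (es n i) =
          S.toE (dM (fun y => U (pt (at_ n M) x y)) ((at_ n M).ch x x) i) := by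
        rw [← toE_dM hV x i]
        congr 1
        simp only [hVd, S.ofE_toE]
      rw [formOf_es, e1]
    have h5 := DFunLike.congr_fun hT (X : EuclideanSpace ℝ (Fin n))
    refine h5.trans ?_
    show ContinuousLinearMap.adjoint (V x) * (S.formOf (a x) X * V x + dI (𝓡∂ n) V x X) = _
    rw [mul_add]
    rfl

end

/-- Theorem L', elementary form. -/
theorem elemLS {n N : ℕ} [NeZero n] (hn : 3 ≤ n) (hN : 1 ≤ N) {M : Type u} [TopologicalSpace M]
    [ChartedSpace (EuclideanHalfSpace n) M] [IsManifold (𝓡∂ n) ∞ M] [T2Space M] [CompactSpace M]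
    [ConnectedSpace M] (Z : At n M) (hZ : Z = at_ n M) (Γ O : Set M) (hO : IsOpen O)
    (hΓ : Γ = O ∩ bd Z) (P Q : B.Pair Z N) (hdata : B.SameData Γ P Q) (W : Set M) (hW : IsOpen W)
    (hWp : IsPreconnected W) (U : M → Matrix (Fin N) (Fin N) ℂ)
    (hG : GaugeBy U W (W ∩ Γ) P.A Q.A Z)
    (hD : ∃ D : Set M, IsOpen D ∧ IsPreconnected D ∧ D ⊆ W ∧ (D ∩ Γ).Nonempty ∧
      (Le D P Q ∨ Le D Q P))
    (hloc : ∀ x ∈ W, ∃ V D₁ D₂ : Set M, IsOpen V ∧ x ∈ V ∧ IsOpen D₁ ∧ IsPreconnected D₁ ∧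
      D₁ ⊆ W ∧ IsOpen D₂ ∧ IsPreconnected D₂ ∧ D₂ ⊆ W ∧ V ⊆ closure (D₁ ∪ D₂) ∧ Le D₁ P Q ∧
      Le D₂ Q P) :
    (∀ x ∈ closure W, Q.g x = P.g x) ∧ ∀ f u u', B.Data Z (W ∩ Γ) f → B.Harm P f u → B.Harm Q f u' →
      ∀ x ∈ W, u x = U x *ᵥ u' x := by
  subst hZ
  have hb : bd (at_ n M) = (𝓡∂ n).boundary M := bd_at
  let _ : MeasurableSpace M := borel M
  have _ : BorelSpace M := ⟨rfl⟩
  have hS : EYM.SameD (B2.one P) (B2.one Q) (W ∩ Γ) :=
    sameD_one (sameData_mono inter_subset_right hdata)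
  have hR : EYM.RelBd n (W ∩ Γ) := ⟨W ∩ O, hW.inter hO, by rw [hΓ, hb, inter_assoc]⟩
  obtain ⟨hV, hV1, hV2⟩ := toGaugeBy hG
  set V : M → EndF N := fun x => S.toE (U x) with hVd
  have h3 := (EYM.O.mg_closed n N M (B2.one P) (B2.one Q) (W ∩ Γ)
    (EYM.O.gConn (B2.one P).A hV) V hV hV1 (EYM.O.gConn_form _ hV)).1.1 hS
  have hs1 : ∀ {D : Set M}, Le D P Q → ∀ y ∈ D, (EYM.O.sig (B2.one Q).g y -
      EYM.O.sig (EYM.O.wA (B2.one P) (EYM.O.gConn (B2.one P).A hV)).g y).PosSemidef := by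
    intro D h y hy
    show (EYM.O.sig (S.gOf (conv Q)) y - EYM.O.sig (S.gOf (conv P)) y).PosSemidef
    rw [sig_sub P Q y]
    exact h y hy
  have hs2 : ∀ {D : Set M}, Le D Q P → ∀ y ∈ D,
      (EYM.O.sig (EYM.O.wA (B2.one P) (EYM.O.gConn (B2.one P).A hV)).g y -
        EYM.O.sig (B2.one Q).g y).PosSemidef := by
    intro D h y hy
    show (EYM.O.sig (S.gOf (conv P)) y - EYM.O.sig (S.gOf (conv Q)) y).PosSemidef
    rw [sig_sub Q P y]
    exact h y hy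
  obtain ⟨D, hDo, hDp, hDW, hDΓ, hDs⟩ := hD
  have hne : (W ∩ (W ∩ Γ)).Nonempty := by
    obtain ⟨y, hy, hyΓ⟩ := hDΓ
    exact ⟨y, hDW hy, hDW hy, hyΓ⟩
  have hA : ∀ x ∈ W, ∀ X : TangentSpace (𝓡∂ n) x,
      (EYM.O.wA (B2.one P) (EYM.O.gConn (B2.one P).A hV)).A.form x X =
        (B2.one Q).A.form x X := fun y hy X => (hV2 y hy X).symm
  have hmet := EYM.O.lP_closed n N M
    (EYM.O.wA (B2.one P) (EYM.O.gConn (B2.one P).A hV)) (B2.one Q) (W ∩ Γ) W D hn hN hR hW hWp h3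
    hDo hDp hDW (by
      obtain ⟨y, hy, hyΓ⟩ := hDΓ
      exact ⟨y, hy, hDW hy, hyΓ⟩) (hDs.imp hs1 hs2) hA (fun y hy => by
      obtain ⟨V', D₁, D₂, h1, h2, h4, h5, h6, h7, h8, h9, h10, h11, h12⟩ := hloc y hy
      exact ⟨V', D₁, D₂, h1, h2, h4, h5, h6, h7, h8, h9, h10, hs1 h11, hs2 h12⟩)
  refine ⟨fun x hx => met_of_inner_at (P := P) (Q := Q) (hmet x hx), ?_⟩
  intro f u u' hf hu hu' x hx
  have hsol := EYM.O.lS n N M (EYM.O.wA (B2.one P) (EYM.O.gConn (B2.one P).A hV)) (B2.one Q)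
    (W ∩ Γ) W hR hW hWp hne h3 hA (fun y hy => hmet y (subset_closure hy))
  have hbf := B2.bdData hf
  have hPu : (EYM.O.wA (B2.one P) (EYM.O.gConn (B2.one P).A hV)).Harm (S.toF f)
      (EYM.O.MG590.gs V (S.toF u)) :=
    EYM.O.MG590.harm_gs _ _ hV (EYM.O.gConn_form _ hV) hV1 hbf (B2.harm_one hu)
  have hQu : (B2.one Q).Harm (S.toF f) (S.toF u') := B2.harm_one hu'
  have h4 := hsol (EYM.O.MG590.gs V (S.toF u), S.toF u') ⟨S.toF f, hbf, hPu, hQu⟩ x hx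
  have h5 : ContinuousLinearMap.adjoint (V x) (S.toF u x) = S.toF u' x := h4
  have h6 : V x (S.toF u' x) = S.toF u x := by
    rw [← h5]
    have h7 : V x * ContinuousLinearMap.adjoint (V x) = 1 :=
      (Unitary.mem_iff.1 (hV.unitary x)).2
    exact DFunLike.congr_fun h7 (S.toF u x)
  have h8 : WithLp.toLp 2 (U x *ᵥ u' x) = S.toF u x := by
    rw [← h6]
    exact (S.toE_apply (U x) (u' x)).symm
  exact (congrArg WithLp.ofLp h8).symm

end Vale.Agent.P088.B5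

end
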