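import Vale.Agent.P088.H5.Spec
import Vale.Agent.P088.TM.H275BC
import Vale.Agent.P088.H332.Loc1
import Mathlib.Geometry.Manifold.MFDeriv.NormedSpace

/-!
# P088, Theorem M: calculus for maps into normed spaces
-/

open Bundle Manifold MeasureTheory Set Filter Topology
open scoped ContDiff Matrix

noncomputable section

namespace Vale.Agent.P088.EYM.O

open Vale.Agent.P088 Vale.Agent.P088.EYM

universe u

variable {n N : ℕ} [NeZero n] {M : Type u} [TopologicalSpace M]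
  [ChartedSpace (EuclideanHalfSpace n) M] [IsManifold (𝓡∂ n) ∞ M]
  {F₁ F₂ F₃ : Type*} [NormedAddCommGroup F₁] [NormedSpace ℝ F₁] [NormedAddCommGroup F₂]
  [NormedSpace ℝ F₂] [NormedAddCommGroup F₃] [NormedSpace ℝ F₃]

/-- Product rule. -/
theorem dmap_bilin (B : F₁ →L[ℝ] F₂ →L[ℝ] F₃) {f : M → F₁} {g : M → F₂} {x : M}
    (hf : MDifferentiableAt (𝓡∂ n) 𝓘(ℝ, F₁) f x) (hg : MDifferentiableAt (𝓡∂ n) 𝓘(ℝ, F₂) g x)
    (X : TangentSpace (𝓡∂ n) x) :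
    dmap (𝓡∂ n) (fun y => B (f y) (g y)) x X =
      B (dmap (𝓡∂ n) f x X) (g x) + B (f x) (dmap (𝓡∂ n) g x X) := by
  have hBf : MDifferentiableAt (𝓡∂ n) 𝓘(ℝ, F₂ →L[ℝ] F₃) (fun y => B (f y)) x :=
    (B.differentiable.mdifferentiable (f x)).comp x hf
  have hfg : MDifferentiableAt (𝓡∂ n) 𝓘(ℝ, F₃) (fun y => B (f y) (g y)) x := hBf.clm_apply hg
  have h1 := hasFDerivWithinAt_lu_self (𝓡∂ n) hf
  have h2 := hasFDerivWithinAt_lu_self (𝓡∂ n) hg
  have h3 := B.hasFDerivWithinAt_of_bilinear h1 h2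
  have hud : UniqueDiffWithinAt ℝ (range (𝓡∂ n)) (extChartAt (𝓡∂ n) x x) :=
    (𝓡∂ n).uniqueDiffOn _ (by rw [extChartAt_coe]; exact mem_range_self _)
  have h4 : fderivWithin ℝ (lu (𝓡∂ n) x fun y => B (f y) (g y)) (range (𝓡∂ n))
      (extChartAt (𝓡∂ n) x x) = _ := h3.fderivWithin hud
  have e1 : lu (𝓡∂ n) x f (extChartAt (𝓡∂ n) x x) = f x := by
    unfold lu
    rw [(extChartAt (𝓡∂ n) x).left_inv (mem_extChartAt_source x)]
  have e2 : lu (𝓡∂ n) x g (extChartAt (𝓡∂ n) x x) = g x := by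
    unfold lu
    rw [(extChartAt (𝓡∂ n) x).left_inv (mem_extChartAt_source x)]
  rw [dmap_eq _ hfg, dmap_eq _ hf, dmap_eq _ hg, h4, e1, e2, add_comm]
  rfl

/-- A continuous linear map. -/
theorem dmap_clm (L : F₁ →L[ℝ] F₂) {f : M → F₁} {x : M}
    (hf : MDifferentiableAt (𝓡∂ n) 𝓘(ℝ, F₁) f x) (X : TangentSpace (𝓡∂ n) x) :
    dmap (𝓡∂ n) (fun y => L (f y)) x X = L (dmap (𝓡∂ n) f x X) := by
  have hLf : MDifferentiableAt (𝓡∂ n) 𝓘(ℝ, F₂) (fun y => L (f y)) x :=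
    (L.differentiable.mdifferentiable (f x)).comp x hf
  have hud : UniqueDiffWithinAt ℝ (range (𝓡∂ n)) (extChartAt (𝓡∂ n) x x) :=
    (𝓡∂ n).uniqueDiffOn _ (by rw [extChartAt_coe]; exact mem_range_self _)
  have h1 := L.hasFDerivAt.comp_hasFDerivWithinAt _ (hasFDerivWithinAt_lu_self (𝓡∂ n) hf)
  have h4 : fderivWithin ℝ (lu (𝓡∂ n) x fun y => L (f y)) (range (𝓡∂ n))
      (extChartAt (𝓡∂ n) x x) = _ := h1.fderivWithin hud
  rw [dmap_eq _ hLf, dmap_eq _ hf, h4]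
  rfl

theorem dmap_add {f g : M → F₁} {x : M} (hf : MDifferentiableAt (𝓡∂ n) 𝓘(ℝ, F₁) f x)
    (hg : MDifferentiableAt (𝓡∂ n) 𝓘(ℝ, F₁) g x) (X : TangentSpace (𝓡∂ n) x) :
    dmap (𝓡∂ n) (fun y => f y + g y) x X = dmap (𝓡∂ n) f x X + dmap (𝓡∂ n) g x X := by
  have hfg : MDifferentiableAt (𝓡∂ n) 𝓘(ℝ, F₁) (fun y => f y + g y) x := hf.add hg
  have hud : UniqueDiffWithinAt ℝ (range (𝓡∂ n)) (extChartAt (𝓡∂ n) x x) :=
    (𝓡∂ n).uniqueDiffOn _ (by rw [extChartAt_coe]; exact mem_range_self _)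
  have h1 := (hasFDerivWithinAt_lu_self (𝓡∂ n) hf).add (hasFDerivWithinAt_lu_self (𝓡∂ n) hg)
  have h4 : fderivWithin ℝ (lu (𝓡∂ n) x fun y => f y + g y) (range (𝓡∂ n))
      (extChartAt (𝓡∂ n) x x) = _ := h1.fderivWithin hud
  rw [dmap_eq _ hfg, dmap_eq _ hf, dmap_eq _ hg, h4]
  rfl

theorem dmap_sum {ι : Type*} (s : Finset ι) {f : ι → M → F₁} {x : M}
    (hf : ∀ i, MDifferentiableAt (𝓡∂ n) 𝓘(ℝ, F₁) (f i) x) (X : TangentSpace (𝓡∂ n) x) :
    MDifferentiableAt (𝓡∂ n) 𝓘(ℝ, F₁) (fun y => ∑ i ∈ s, f i y) x ∧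
    dmap (𝓡∂ n) (fun y => ∑ i ∈ s, f i y) x X = ∑ i ∈ s, dmap (𝓡∂ n) (f i) x X := by
  classical
  induction s using Finset.induction_on with
  | empty =>
    refine ⟨by simpa using mdifferentiableAt_const, ?_⟩
    simp only [Finset.sum_empty]
    have h0 : MDifferentiableAt (𝓡∂ n) 𝓘(ℝ, F₁) (fun _ : M => (0 : F₁)) x :=
      mdifferentiableAt_const
    rw [dmap_eq _ h0]
    have : lu (𝓡∂ n) x (fun _ : M => (0 : F₁)) = fun _ => 0 := rfl
    rw [this, fderivWithin_const_apply]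
    rfl
  | insert a s ha ih =>
    have e : (fun y => ∑ i ∈ insert a s, f i y) = fun y => f a y + ∑ i ∈ s, f i y := by
      funext y
      rw [Finset.sum_insert ha]
    rw [e, Finset.sum_insert ha]
    exact ⟨(hf a).add ih.1, by rw [dmap_add (hf a) ih.1, ih.2]⟩

/-- A map with vanishing differential in the interior is constant there. -/
theorem const_of_dmap [ConnectedSpace M] {f : M → F₁}
    (hf : ContMDiffOn (𝓡∂ n) 𝓘(ℝ, F₁) ∞ f (Mi n M))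
    (h : ∀ x ∈ Mi n M, ∀ X : TangentSpace (𝓡∂ n) x, dmap (𝓡∂ n) f x X = 0) :
    ∀ x ∈ Mi n M, ∀ y ∈ Mi n M, f x = f y := by
  obtain ⟨hIo, hIc, -⟩ := TM.fConn n M
  have hrel : ∀ p : M, RelOpen (tg n p) := S.brEq_relOpen (n := n)
  have hloc : ∀ x ∈ Mi n M, ∀ᶠ y in 𝓝 x, f y = f x := by
    intro x hx
    have hD : RelOpen (tgW n (Mi n M) x) := tgW_rel hrel hIo x
    set c := xc n x x with hc
    have hcD : c ∈ tgW n (Mi n M) x := ⟨mem_extChartAt_target x, by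
      rw [mem_preimage, hc, (xc n x).left_inv (mem_extChartAt_source x)]
      exact hx⟩
    obtain ⟨r, hr, hrD⟩ : ∃ r > 0, HB c r ⊆ tgW n (Mi n M) x := by
      obtain ⟨O, hO, hOe⟩ := hD
      rw [hOe] at hcD
      obtain ⟨r, hr, hrO⟩ := Metric.isOpen_iff.1 hO c hcD.1
      exact ⟨r, hr, by rw [hOe]; exact inter_subset_inter_left _ hrO⟩
    have h1 : ContDiffOn ℝ ∞ (lu (𝓡∂ n) x f) (HB c r) := by
      rw [← contMDiffOn_iff_contDiffOn]
      exact hf.comp ((contMDiffOn_extChartAt_symm x).mono fun y hy => (hrD hy).1)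
        fun y hy => (hrD hy).2
    have hcr : c ∈ HB c r := ⟨Metric.mem_ball_self hr, hD.subset hcD⟩
    have h2 : ∀ y ∈ HB c r, fderivWithin ℝ (lu (𝓡∂ n) x f) (HB c r) y = 0 := by
      intro y hy
      have hyt : y ∈ (extChartAt (𝓡∂ n) x).target := (hrD hy).1
      have hm : (extChartAt (𝓡∂ n) x).symm y ∈ (extChartAt (𝓡∂ n) x).source :=
        (extChartAt (𝓡∂ n) x).map_target hyt
      have hmI : (extChartAt (𝓡∂ n) x).symm y ∈ Mi n M := (hrD hy).2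
      have hfm : MDifferentiableAt (𝓡∂ n) 𝓘(ℝ, F₁) f ((extChartAt (𝓡∂ n) x).symm y) :=
        (hf.contMDiffAt (hIo.mem_nhds hmI)).mdifferentiableAt (by simp)
      rw [(relOpen_HB c r).fderivWithin_eq hy]
      ext v
      have h3 := dmap_cc (𝓡∂ n) hm hfm v
      rw [(extChartAt (𝓡∂ n) x).right_inv hyt, cChart_range] at h3
      rw [← h3]
      exact h _ hmI _
    have h4 : ∀ y ∈ HB c r, lu (𝓡∂ n) x f y = lu (𝓡∂ n) x f c := fun y hy =>
      (APoin_convex_HB c r).is_const_of_fderivWithin_eq_zero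
        (h1.differentiableOn (by simp)) h2 hy hcr
    have h5 : ∀ᶠ y in 𝓝 x, xc n x y ∈ Metric.ball c r :=
      (continuousAt_extChartAt (I := 𝓡∂ n) x).eventually (Metric.ball_mem_nhds c hr)
    filter_upwards [h5, (isOpen_extChartAt_source (I := 𝓡∂ n) x).mem_nhds
      (mem_extChartAt_source x)] with y hy hys
    have h6 := h4 (xc n x y) ⟨hy, (hrel x).subset ((xc n x).map_source hys)⟩
    unfold lu at h6
    rwa [(xc n x).left_inv hys, hc, (xc n x).left_inv (mem_extChartAt_source x)] at h6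
  intro x hx y hy
  by_contra hne
  have hU : IsOpen {z | z ∈ Mi n M ∧ f z = f x} := by
    rw [isOpen_iff_mem_nhds]
    rintro z ⟨hz, hzx⟩
    filter_upwards [hloc z hz, hIo.mem_nhds hz] with t ht htI
    exact ⟨htI, ht.trans hzx⟩
  have hV : IsOpen {z | z ∈ Mi n M ∧ f z ≠ f x} := by
    rw [isOpen_iff_mem_nhds]
    rintro z ⟨hz, hzx⟩
    filter_upwards [hloc z hz, hIo.mem_nhds hz] with t ht htI
    exact ⟨htI, by rw [ht]; exact hzx⟩
  obtain ⟨z, -, ⟨-, h1⟩, -, h2⟩ := hIc _ _ hU hV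
    (fun z hz => (eq_or_ne (f z) (f x)).imp (fun h => ⟨hz, h⟩) fun h => ⟨hz, h⟩)
    ⟨x, hx, hx, rfl⟩ ⟨y, hy, hy, fun h => hne h.symm⟩
  exact h2 h1

end Vale.Agent.P088.EYM.O

end
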