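import Vale.Agent.P088.H5.Spec4

/-!
# P088, Theorem L, block LC: comparison of two energies
-/

open Bundle Manifold MeasureTheory Set Filter Topology
open scoped ContDiff Matrix ENNReal

noncomputable section

namespace Vale.Agent.P088.EYM.O

open Vale.Agent.P088 Vale.Agent.P088.EYM

universe u

section alg

variable {n : ℕ} {V : Type*} [NormedAddCommGroup V] [InnerProductSpace ℂ V]

theorem abs_inner_le (Z : Fin n → V) (i j : Fin n) :
    |(inner ℂ (Z i) (Z j) : ℂ).re| ≤ ∑ k, ‖Z k‖ ^ 2 := by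
  have h1 : |(inner ℂ (Z i) (Z j) : ℂ).re| ≤ ‖Z i‖ * ‖Z j‖ :=
    (Complex.abs_re_le_norm _).trans (norm_inner_le_norm _ _)
  have h2 : ∀ k, ‖Z k‖ ^ 2 ≤ ∑ k, ‖Z k‖ ^ 2 := fun k =>
    Finset.single_le_sum (f := fun k => ‖Z k‖ ^ 2) (fun _ _ => by positivity) (Finset.mem_univ k)
  have h3 := h2 i
  have h4 := h2 j
  nlinarith [sq_nonneg (‖Z i‖ - ‖Z j‖)]

theorem upper_abs (K : Matrix (Fin n) (Fin n) ℝ) (Z : Fin n → V) :
    ∑ i, ∑ j, K i j • (inner ℂ (Z i) (Z j) : ℂ).re ≤ (∑ i, ∑ j, |K i j|) * ∑ k, ‖Z k‖ ^ 2 := by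
  rw [Finset.sum_mul]
  refine Finset.sum_le_sum fun i _ => ?_
  rw [Finset.sum_mul]
  refine Finset.sum_le_sum fun j _ => ?_
  rw [smul_eq_mul]
  refine (le_abs_self _).trans ?_
  rw [abs_mul]
  exact mul_le_mul_of_nonneg_left (abs_inner_le Z i j) (abs_nonneg _)

theorem lower_tr {G : Matrix (Fin n) (Fin n) ℝ} (hG : G.PosDef) (Z : Fin n → V) :
    ∑ i, ‖Z i‖ ^ 2 ≤ G.trace * ∑ i, ∑ j, G⁻¹ i j • (inner ℂ (Z i) (Z j) : ℂ).re := by
  obtain ⟨B, hB⟩ := exists_conj hG.posSemidef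
  have hdet : IsUnit G.det := hG.det_pos.ne'.isUnit
  set W : Fin n → V := fun i => ∑ j, G⁻¹ i j • Z j with hW
  have hZ : ∀ i, Z i = ∑ j, G i j • W j := by
    intro i
    simp only [hW, Finset.smul_sum, smul_smul]
    rw [Finset.sum_comm]
    simp only [← Finset.sum_smul]
    have : ∀ j, ∑ k, G i k * G⁻¹ k j = (1 : Matrix (Fin n) (Fin n) ℝ) i j := by
      intro j
      rw [← Matrix.mul_apply, Matrix.mul_nonsing_inv _ hdet]
    simp only [this, Matrix.one_apply, ite_smul, one_smul, zero_smul, Finset.sum_ite_eq,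
      Finset.mem_univ, if_true]
  have hq : ∑ i, ∑ j, G⁻¹ i j • (inner ℂ (Z i) (Z j) : ℂ).re =
      ∑ k, ‖∑ i, B k i • W i‖ ^ 2 := by
    rw [← psd_formula, ← hB]
    have h1 : ∑ i, ∑ j, G⁻¹ i j • (inner ℂ (Z i) (Z j) : ℂ).re =
        ∑ i, (inner ℂ (Z i) (W i) : ℂ).re := by
      refine Finset.sum_congr rfl fun i _ => ?_
      simp only [hW, inner_sum, Complex.re_sum]
      refine Finset.sum_congr rfl fun j _ => ?_
      rw [inner_smul_right_eq_smul, Complex.real_smul, Complex.re_ofReal_mul, smul_eq_mul]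
    rw [h1]
    have h2 : ∀ i, (inner ℂ (Z i) (W i) : ℂ).re =
        ∑ j, G i j • (inner ℂ (W j) (W i) : ℂ).re := by
      intro i
      conv_lhs => rw [hZ i]
      simp only [sum_inner, Complex.re_sum]
      refine Finset.sum_congr rfl fun j _ => ?_
      rw [inner_smul_left_eq_smul, Complex.real_smul, Complex.re_ofReal_mul, smul_eq_mul]
    simp only [h2]
    rw [Finset.sum_comm]
    refine Finset.sum_congr rfl fun j _ => Finset.sum_congr rfl fun i _ => ?_
    have := congrFun (congrFun hG.isHermitian j) i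
    simp only [Matrix.conjTranspose_apply, star_trivial] at this
    rw [← this]
  have htr : G.trace = ∑ i, ∑ k, B k i ^ 2 := by
    unfold Matrix.trace
    refine Finset.sum_congr rfl fun i _ => ?_
    rw [Matrix.diag_apply, hB, Matrix.mul_apply]
    refine Finset.sum_congr rfl fun k _ => ?_
    rw [Matrix.conjTranspose_apply, star_trivial, sq]
  rw [hq, htr, Finset.sum_mul]
  refine Finset.sum_le_sum fun i _ => ?_
  have h3 : Z i = ∑ k, B k i • ∑ j, B k j • W j := by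
    rw [hZ i]
    simp only [Finset.smul_sum]
    rw [Finset.sum_comm]
    refine Finset.sum_congr rfl fun j _ => ?_
    rw [hB, Matrix.mul_apply, Finset.sum_smul]
    refine Finset.sum_congr rfl fun k _ => ?_
    rw [Matrix.conjTranspose_apply, star_trivial, smul_smul]
  have h4 : ‖Z i‖ ≤ ∑ k, |B k i| * ‖∑ j, B k j • W j‖ := by
    rw [h3]
    refine (norm_sum_le _ _).trans (Finset.sum_le_sum fun k _ => ?_)
    rw [norm_smul, Real.norm_eq_abs]
  calc ‖Z i‖ ^ 2 ≤ (∑ k, |B k i| * ‖∑ j, B k j • W j‖) ^ 2 :=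
        pow_le_pow_left₀ (norm_nonneg _) h4 2
    _ ≤ (∑ k, |B k i| ^ 2) * ∑ k, ‖∑ j, B k j • W j‖ ^ 2 := Finset.sum_mul_sq_le_sq_mul_sq _ _ _
    _ = _ := by simp only [sq_abs]

end alg

section

variable {n N : ℕ} [NeZero n] {M : Type u} [TopologicalSpace M]
  [ChartedSpace (EuclideanHalfSpace n) M] [IsManifold (𝓡∂ n) ∞ M]

/-- The local constant. -/
def gam (gP gQ : Metric (𝓡∂ n) M) (A B : Connection (𝓡∂ n) N M) (p x : M) : ℝ :=
  2 * (∑ i, ∑ j, |(gram gP p x)⁻¹ i j|) * ((gram gQ p x).trace +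
    ∑ i, (‖A.form x (coordVec (𝓡∂ n) p x i)‖ + ‖B.form x (coordVec (𝓡∂ n) p x i)‖) ^ 2)

theorem gam_cont (gP gQ : Metric (𝓡∂ n) M) (A B : Connection (𝓡∂ n) N M) (p : M) :
    ContinuousOn (gam gP gQ A B p) (xc n p).source := by
  unfold gam
  refine (continuousOn_const.mul (continuousOn_finset_sum _ fun i _ =>
    continuousOn_finset_sum _ fun j _ => (contMDiffOn_gram_inv gP p i j).continuousOn.abs)).mul
    (ContinuousOn.add ?_ (continuousOn_finset_sum _ fun i _ =>
      (((A.smooth p i).continuousOn.norm).add ((B.smooth p i).continuousOn.norm)).pow 2))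
  unfold Matrix.trace
  exact continuousOn_finset_sum _ fun i _ => (contMDiffOn_gram gQ p i i).continuousOn

theorem local_le (gP gQ : Metric (𝓡∂ n) M) (A B : Connection (𝓡∂ n) N M) {p x : M}
    (hx : x ∈ (xc n p).source) (v : M → Fib N) :
    (pairing gP A v v x).re ≤ gam gP gQ A B p x * ((pairing gQ B v v x).re + ‖v x‖ ^ 2) := by
  have hP := pairing_eq gP A v v hx
  have hQ := pairing_eq gQ B v v hx
  have hPr : (pairing gP A v v x).re = ∑ i, ∑ j, (gram gP p x)⁻¹ i j •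
      (inner ℂ (cov A v x (coordVec (𝓡∂ n) p x i))
        (cov A v x (coordVec (𝓡∂ n) p x j)) : ℂ).re := by
    rw [hP, Complex.re_sum]
    refine Finset.sum_congr rfl fun i _ => ?_
    rw [Complex.re_sum]
    refine Finset.sum_congr rfl fun j _ => ?_
    rw [Complex.real_smul, Complex.re_ofReal_mul, smul_eq_mul]
  have hQr : (pairing gQ B v v x).re = ∑ i, ∑ j, (gram gQ p x)⁻¹ i j •
      (inner ℂ (cov B v x (coordVec (𝓡∂ n) p x i))
        (cov B v x (coordVec (𝓡∂ n) p x j)) : ℂ).re := by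
    rw [hQ, Complex.re_sum]
    refine Finset.sum_congr rfl fun i _ => ?_
    rw [Complex.re_sum]
    refine Finset.sum_congr rfl fun j _ => ?_
    rw [Complex.real_smul, Complex.re_ofReal_mul, smul_eq_mul]
  have hup := upper_abs (gram gP p x)⁻¹ (fun i => cov A v x (coordVec (𝓡∂ n) p x i))
  rw [← hPr] at hup
  have hlow := lower_tr (gram_posDef gQ hx) (fun i => cov B v x (coordVec (𝓡∂ n) p x i))
  rw [← hQr] at hlow
  have hQ0 : 0 ≤ (pairing gQ B v v x).re := by
    rw [hQr]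
    exact psd_nonneg (gram_inv_posDef gQ hx).posSemidef _
  set α := ∑ i, ∑ j, |(gram gP p x)⁻¹ i j| with hα
  have hα0 : 0 ≤ α := Finset.sum_nonneg fun i _ => Finset.sum_nonneg fun j _ => abs_nonneg _
  set β := ∑ i, (‖A.form x (coordVec (𝓡∂ n) p x i)‖ + ‖B.form x (coordVec (𝓡∂ n) p x i)‖) ^ 2
    with hβ
  have hβ0 : 0 ≤ β := Finset.sum_nonneg fun i _ => by positivity
  have hτ0 : 0 ≤ (gram gQ p x).trace := (gram_posDef gQ hx).posSemidef.trace_nonneg
  have hmid : ∑ i, ‖cov A v x (coordVec (𝓡∂ n) p x i)‖ ^ 2 ≤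
      2 * ∑ i, ‖cov B v x (coordVec (𝓡∂ n) p x i)‖ ^ 2 + 2 * (β * ‖v x‖ ^ 2) := by
    rw [hβ, Finset.sum_mul, Finset.mul_sum, Finset.mul_sum, ← Finset.sum_add_distrib]
    refine Finset.sum_le_sum fun i _ => ?_
    set X := coordVec (𝓡∂ n) p x i
    have e : cov A v x X = cov B v x X + (A.form x X (v x) - B.form x X (v x)) := by
      unfold cov
      abel
    have h1 : ‖A.form x X (v x) - B.form x X (v x)‖ ≤
        (‖A.form x X‖ + ‖B.form x X‖) * ‖v x‖ := by
      refine (norm_sub_le _ _).trans ?_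
      rw [add_mul]
      exact add_le_add (ContinuousLinearMap.le_opNorm _ _) (ContinuousLinearMap.le_opNorm _ _)
    have h2 : ‖cov A v x X‖ ≤ ‖cov B v x X‖ + (‖A.form x X‖ + ‖B.form x X‖) * ‖v x‖ := by
      rw [e]
      exact (norm_add_le _ _).trans (by linarith)
    have h3 := norm_nonneg (cov B v x X)
    have h4 : 0 ≤ (‖A.form x X‖ + ‖B.form x X‖) * ‖v x‖ := by positivity
    have h5 := pow_le_pow_left₀ (norm_nonneg _) h2 2
    nlinarith [sq_nonneg (‖cov B v x X‖ - (‖A.form x X‖ + ‖B.form x X‖) * ‖v x‖)]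
  have hv : 0 ≤ ‖v x‖ ^ 2 := by positivity
  have hgam : gam gP gQ A B p x = 2 * α * ((gram gQ p x).trace + β) := rfl
  rw [hgam]
  calc (pairing gP A v v x).re ≤ α * ∑ k, ‖cov A v x (coordVec (𝓡∂ n) p x k)‖ ^ 2 := hup
    _ ≤ α * (2 * ∑ i, ‖cov B v x (coordVec (𝓡∂ n) p x i)‖ ^ 2 + 2 * (β * ‖v x‖ ^ 2)) :=
        mul_le_mul_of_nonneg_left hmid hα0
    _ ≤ α * (2 * ((gram gQ p x).trace * (pairing gQ B v v x).re) + 2 * (β * ‖v x‖ ^ 2)) := by
        refine mul_le_mul_of_nonneg_left ?_ hα0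
        linarith
    _ ≤ 2 * α * ((gram gQ p x).trace + β) * ((pairing gQ B v v x).re + ‖v x‖ ^ 2) := by
        have h1 := mul_nonneg hα0 (mul_nonneg hτ0 hv)
        have h2 := mul_nonneg hα0 (mul_nonneg hβ0 hQ0)
        nlinarith

theorem glob_le [CompactSpace M] (gP gQ : Metric (𝓡∂ n) M) (A B : Connection (𝓡∂ n) N M) :
    ∃ C : ℝ, 0 < C ∧ ∀ (x : M) (v : M → Fib N),
      (pairing gP A v v x).re ≤ C * ((pairing gQ B v v x).re + ‖v x‖ ^ 2) := by
  have hnn : ∀ (x : M) (v : M → Fib N), 0 ≤ (pairing gQ B v v x).re + ‖v x‖ ^ 2 := by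
    intro x v
    have h1 : 0 ≤ (pairing gQ B v v x).re := by
      rw [pairing_eq_rp, rp_re]
      exact rp_nonneg gQ x (covI B v x)
    positivity
  have key : ∃ C : ℝ, 0 < C ∧ ∀ x ∈ (univ : Set M), ∀ v : M → Fib N,
      (pairing gP A v v x).re ≤ C * ((pairing gQ B v v x).re + ‖v x‖ ^ 2) := by
    refine isCompact_univ.induction_on
      (p := fun s : Set M => ∃ C : ℝ, 0 < C ∧ ∀ x ∈ s, ∀ v : M → Fib N,
        (pairing gP A v v x).re ≤ C * ((pairing gQ B v v x).re + ‖v x‖ ^ 2)) ?_ ?_ ?_ ?_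
    · exact ⟨1, one_pos, fun x hx => absurd hx (notMem_empty x)⟩
    · rintro s t hst ⟨C, hC, h⟩
      exact ⟨C, hC, fun x hx => h x (hst hx)⟩
    · rintro s t ⟨C, hC, h⟩ ⟨D, hD, h'⟩
      refine ⟨max C D, lt_max_of_lt_left hC, fun x hx v => ?_⟩
      rcases hx with hx | hx
      · exact (h x hx v).trans (mul_le_mul_of_nonneg_right (le_max_left _ _) (hnn x v))
      · exact (h' x hx v).trans (mul_le_mul_of_nonneg_right (le_max_right _ _) (hnn x v))
    · intro p _
      have hc : ContinuousAt (gam gP gQ A B p) p :=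
        (gam_cont gP gQ A B p).continuousAt (extChartAt_source_mem_nhds p)
      have h1 : ∀ᶠ x in 𝓝 p, gam gP gQ A B p x < |gam gP gQ A B p p| + 1 :=
        hc.eventually_lt continuousAt_const ((le_abs_self _).trans_lt (lt_add_one _))
      refine ⟨{x | gam gP gQ A B p x < |gam gP gQ A B p p| + 1} ∩ (xc n p).source,
        mem_nhdsWithin_of_mem_nhds (inter_mem h1 (extChartAt_source_mem_nhds p)),
        |gam gP gQ A B p p| + 1, by positivity, fun x hx v => ?_⟩
      exact (local_le gP gQ A B hx.2 v).trans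
        (mul_le_mul_of_nonneg_right (le_of_lt hx.1) (hnn x v))
  obtain ⟨C, hC, h⟩ := key
  exact ⟨C, hC, fun x v => h x (mem_univ x) v⟩

end

/-- (LC) -/
theorem lC : LC_statement.{u} := by
  intro n N _ M _ _ _ _ _ _ _ _ P Q
  haveI : IsFiniteMeasure P.μ := ⟨measure_univ_lt_top P.hμ⟩
  haveI : IsFiniteMeasure Q.μ := ⟨measure_univ_lt_top Q.hμ⟩
  obtain ⟨C, hC, h⟩ := glob_le P.g Q.g P.A Q.A
  have hrc := continuous_rho Q.g P.g
  obtain ⟨C₁, hC₁⟩ : ∃ C₁ : ℝ, ∀ x, rho Q.g P.g x ≤ C₁ := by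
    obtain ⟨C₁, h₁⟩ := (isCompact_univ (X := M)).bddAbove_image hrc.continuousOn
    exact ⟨C₁, fun x => h₁ ⟨x, mem_univ x, rfl⟩⟩
  have hC₁0 : 0 < |C₁| + 1 := by positivity
  refine ⟨C * (|C₁| + 1), by positivity, fun v hv => ?_⟩
  have hint : ∀ {f : M → ℝ}, Continuous f → Integrable f Q.μ := fun hf =>
    hf.integrable_of_hasCompactSupport (HasCompactSupport.of_compactSpace _)
  have hpP : Continuous fun x => (pairing P.g P.A v v x).re :=
    Complex.continuous_re.comp (continuous_pairing P.g P.A hv hv)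
  have hpQ : Continuous fun x => (pairing Q.g Q.A v v x).re :=
    Complex.continuous_re.comp (continuous_pairing Q.g Q.A hv hv)
  have hvn : Continuous fun x => ‖v x‖ ^ 2 := (hv.continuous.norm).pow 2
  have hEP : (P.E v v).re = ∫ x, rho Q.g P.g x * (pairing P.g P.A v v x).re ∂Q.μ := by
    have h1 := re_energy P P.A hv
    unfold One.E
    rw [h1, withDensity_rho Q P, integral_withDensity_eq_integral_toReal_smul₀]
    · refine integral_congr_ae (Eventually.of_forall fun x => ?_)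
      simp only [smul_eq_mul]
      rw [ENNReal.toReal_ofReal (rho_pos Q.g P.g x).le]
    · exact hrc.measurable.ennreal_ofReal.aemeasurable
    · exact Eventually.of_forall fun x => ENNReal.ofReal_lt_top
  have hEQ : (Q.E v v).re = ∫ x, (pairing Q.g Q.A v v x).re ∂Q.μ := re_energy Q Q.A hv
  have hnn : ∀ x, 0 ≤ (pairing Q.g Q.A v v x).re + ‖v x‖ ^ 2 := fun x => by
    have := CEnergy_pairing_nonneg Q v x
    positivity
  rw [hEP, hEQ, ← integral_add (hint hpQ) (hint hvn), ← integral_const_mul]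
  refine integral_mono (hint (hrc.mul hpP)) ((hint (hpQ.add hvn)).const_mul _) fun x => ?_
  calc rho Q.g P.g x * (pairing P.g P.A v v x).re
      ≤ rho Q.g P.g x * (C * ((pairing Q.g Q.A v v x).re + ‖v x‖ ^ 2)) :=
        mul_le_mul_of_nonneg_left (h x v) (rho_pos Q.g P.g x).le
    _ ≤ (|C₁| + 1) * (C * ((pairing Q.g Q.A v v x).re + ‖v x‖ ^ 2)) := by
        refine mul_le_mul_of_nonneg_right ?_ (mul_nonneg hC.le (hnn x))
        exact (hC₁ x).trans ((le_abs_self C₁).trans (by linarith))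
    _ = C * (|C₁| + 1) * ((pairing Q.g Q.A v v x).re + ‖v x‖ ^ 2) := by ring

end Vale.Agent.P088.EYM.O

end
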