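import Vale.Agent.P088.H5.Spec4
import Vale.Agent.P088.H5.MD452

/-!
# P088, Theorem L, block LE: the inequality for the solutions of the second problem
-/

set_option linter.all false

open Bundle Manifold MeasureTheory Set Filter Topology
open scoped ContDiff Matrix

noncomputable section

namespace Vale.Agent.P088.EYM.O

open Vale.Agent.P088 Vale.Agent.P088.EYM

universe u

section

variable {n N : ℕ} [NeZero n] {M : Type u} [TopologicalSpace M]
  [ChartedSpace (EuclideanHalfSpace n) M] [IsManifold (𝓡∂ n) ∞ M]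

/-- The pairing depends only on the value of the connection at the point. -/
theorem pairing_congr_conn (g : Metric (𝓡∂ n) M) {A A' : Connection (𝓡∂ n) N M} (u v : M → Fib N)
    {x : M} (h : ∀ X : TangentSpace (𝓡∂ n) x, A.form x X = A'.form x X) :
    pairing g A u v x = pairing g A' u v x := by
  have h1 : ∀ (w : M → Fib N) (X : TangentSpace (𝓡∂ n) x), cov A w x X = cov A' w x X := by
    intro w X
    unfold cov
    rw [h X]
  unfold pairing
  simp only [h1]

variable [MeasurableSpace M]

theorem DD_re (P Q : One n N M) (u : M → Fib N) (x : M) :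
    (DD P Q u u x).re =
      rho P.g Q.g x * (pairing Q.g Q.A u u x).re - (pairing P.g Q.A u u x).re := by
  unfold DD
  rw [Complex.sub_re, Complex.re_ofReal_mul]

theorem DD_nonneg [BorelSpace M] (P Q : One n N M) (u : M → Fib N) {x : M}
    (h : (sig Q.g x - sig P.g x).PosSemidef) : 0 ≤ (DD P Q u u x).re := by
  rw [DD_re, diff_eq]
  exact mul_nonneg (inv_nonneg.2 (Real.sqrt_nonneg _)) (psd_nonneg h _)

theorem cont_pair (g : Metric (𝓡∂ n) M) (A : Connection (𝓡∂ n) N M) {u : M → Fib N}
    (hu : SmS n u) : Continuous fun x => (pairing g A u u x).re :=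
  Complex.continuous_re.comp (continuous_pairing g A hu hu)

theorem cont_DD (P Q : One n N M) {u v : M → Fib N} (hu : SmS n u) (hv : SmS n v) :
    Continuous (DD P Q u v) :=
  ((Complex.continuous_ofReal.comp (continuous_rho P.g Q.g)).mul
    (continuous_pairing Q.g Q.A hu hv)).sub (continuous_pairing P.g Q.A hu hv)

variable [BorelSpace M] [T2Space M] [CompactSpace M]

/-- The second energy as an integral against the first volume. -/
theorem energy_rho (P Q : One n N M) {u : M → Fib N} (hu : SmS n u) :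
    (Q.E u u).re = ∫ x, rho P.g Q.g x * (pairing Q.g Q.A u u x).re ∂P.μ := by
  have h1 := re_energy Q Q.A hu
  have hrc := continuous_rho P.g Q.g
  unfold One.E
  rw [h1, withDensity_rho P Q, integral_withDensity_eq_integral_toReal_smul₀]
  · refine integral_congr_ae (Eventually.of_forall fun x => ?_)
    simp only [smul_eq_mul]
    rw [ENNReal.toReal_ofReal (rho_pos P.g Q.g x).le]
  · exact hrc.measurable.ennreal_ofReal.aemeasurable
  · exact Eventually.of_forall fun x => ENNReal.ofReal_lt_top

end

/-- (LE) -/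
theorem lE : LE_statement.{u} := by
  intro n N _ M _ _ _ _ _ _ _ _ P Q Γ O B hΓ hΓn hS hO hA hsig hB hBO u hu
  haveI : IsFiniteMeasure P.μ := ⟨measure_univ_lt_top P.hμ⟩
  have hbne : ((𝓡∂ n).boundary M).Nonempty := by
    obtain ⟨O', -, rfl⟩ := hΓ
    exact ⟨_, hΓn.some_mem.2⟩
  have hE := energy_same hΓ hΓn hS hu
  obtain ⟨f, hf, h1, h2⟩ := hu
  have hint : ∀ {F : M → ℝ}, Continuous F → Integrable F P.μ := fun hF =>
    hF.integrable_of_hasCompactSupport (HasCompactSupport.of_compactSpace _)
  have e1 := dirichlet P hbne h1 (w := u.2) h2.smooth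
    (fun x hx => (h2.boundary x hx).trans (h1.boundary x hx).symm)
  rw [hE, energy_rho P Q h2.smooth] at e1
  have e2 : (P.E u.2 u.2).re = ∫ x, (pairing P.g P.A u.2 u.2 x).re ∂P.μ :=
    re_energy P P.A h2.smooth
  rw [e2] at e1
  have cQ : Continuous fun x => rho P.g Q.g x * (pairing Q.g Q.A u.2 u.2 x).re :=
    (continuous_rho P.g Q.g).mul (cont_pair Q.g Q.A h2.smooth)
  have cP : Continuous fun x => (pairing P.g P.A u.2 u.2 x).re := cont_pair P.g P.A h2.smooth
  rw [← integral_add_compl hO.measurableSet (hint cQ),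
    ← integral_add_compl hO.measurableSet (hint cP)] at e1
  have e3 : 0 ≤ ∫ x in Oᶜ, rho P.g Q.g x * (pairing Q.g Q.A u.2 u.2 x).re ∂P.μ :=
    setIntegral_nonneg hO.measurableSet.compl fun x _ =>
      mul_nonneg (rho_pos P.g Q.g x).le (cForm_pairing_nonneg Q.g Q.A u.2 x)
  have e4 : ∫ x in O, (DD P Q u.2 u.2 x).re ∂P.μ =
      ∫ x in O, rho P.g Q.g x * (pairing Q.g Q.A u.2 u.2 x).re ∂P.μ -
        ∫ x in O, (pairing P.g P.A u.2 u.2 x).re ∂P.μ := by
    rw [← integral_sub (hint cQ).integrableOn (hint cP).integrableOn]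
    refine setIntegral_congr_fun hO.measurableSet fun x hx => ?_
    rw [DD_re, pairing_congr_conn P.g u.2 u.2 (hA x hx)]
  have e5 : ∫ x in B, (DD P Q u.2 u.2 x).re ∂P.μ ≤ ∫ x in O, (DD P Q u.2 u.2 x).re ∂P.μ := by
    refine setIntegral_mono_set ?_ ?_ (LE.le.eventuallyLE hBO)
    · exact (hint (Complex.continuous_re.comp (cont_DD P Q h2.smooth h2.smooth))).integrableOn
    · exact (ae_restrict_iff' hO.measurableSet).2
        (Eventually.of_forall fun x hx => DD_nonneg P Q u.2 (hsig x hx))
  linarith

end Vale.Agent.P088.EYM.O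

end
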