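import Vale.Agent.P088.H5.Spec4
import Vale.Agent.P088.H5.MD452

/-!
# P088, Theorem L: assembly
-/

set_option linter.all false

open Bundle Manifold MeasureTheory Set Filter Topology
open scoped ContDiff Matrix

noncomputable section

namespace Vale.Agent.P088.EYM.O

open Vale.Agent.P088 Vale.Agent.P088.EYM

universe u

section

variable {n N : ℕ} [NeZero n] {M : Type u} [TopologicalSpace M]
  [ChartedSpace (EuclideanHalfSpace n) M] [IsManifold (𝓡∂ n) ∞ M]

/-- The parallelogram inequality for a positive semidefinite form. -/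
theorem Psd.para {G : (M → Fib N) → (M → Fib N) → ℂ} (h : Psd n G) {a b : M → Fib N}
    (ha : SmS n a) (hb : SmS n b) :
    (G b b).re ≤ 2 * (G (a - b) (a - b)).re + 2 * (G a a).re := by
  have hn : SmS n ((-1 : ℂ) • b) := by
    have : ((-1 : ℂ) • b) = -b := by
      funext x
      show (-1 : ℂ) • b x = -b x
      rw [neg_smul, one_smul]
    rw [this]
    exact hb.neg
  -- `c = a - b`, `b = a - c`
  set c : M → Fib N := a - b with hc
  have hcs : SmS n c := ha.sub hb
  have hcn : SmS n ((-1 : ℂ) • c) := by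
    have : ((-1 : ℂ) • c) = -c := by
      funext x
      show (-1 : ℂ) • c x = -c x
      rw [neg_smul, one_smul]
    rw [this]
    exact hcs.neg
  have hb1 : b = a + (-1 : ℂ) • c := by
    funext x
    show b x = a x + (-1 : ℂ) • (a x - b x)
    rw [neg_smul, one_smul]
    abel
  have e1 : G b b = G b a + (-1) * G b c := by
    have h1 := h.add b a ((-1 : ℂ) • c) hb ha hcn
    rw [← hb1, h.smul _ b c hb hcs] at h1
    exact h1
  have e2 : G a b = G a a + (-1) * G a c := by
    have h1 := h.add a a ((-1 : ℂ) • c) ha ha hcn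
    rw [← hb1, h.smul _ a c ha hcs] at h1
    exact h1
  have e3 : G c b = G c a + (-1) * G c c := by
    have h1 := h.add c a ((-1 : ℂ) • c) hcs ha hcn
    rw [← hb1, h.smul _ c c hcs hcs] at h1
    exact h1
  have f1 : (G b a).re = (G a b).re := by
    rw [h.conj a b ha hb, Complex.conj_re]
  have f2 : (G b c).re = (G c b).re := by
    rw [h.conj c b hcs hb, Complex.conj_re]
  have f3 : (G c a).re = (G a c).re := by
    rw [h.conj a c ha hcs, Complex.conj_re]
  have g1 : (G b b).re = (G a a).re - 2 * (G a c).re + (G c c).re := by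
    have := congrArg Complex.re e1
    simp only [Complex.add_re, Complex.neg_re, neg_mul, one_mul] at this
    have t2 := congrArg Complex.re e2
    simp only [Complex.add_re, Complex.neg_re, neg_mul, one_mul] at t2
    have t3 := congrArg Complex.re e3
    simp only [Complex.add_re, Complex.neg_re, neg_mul, one_mul] at t3
    linarith
  -- `0 ≤ G (a + c) (a + c)`
  have hac : SmS n (a + c) := ha.add hcs
  have k0 := h.nonneg (a + c) hac
  have k1 : G (a + c) (a + c) = G (a + c) a + G (a + c) c := h.add _ a c hac ha hcs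
  have k2 : (G (a + c) a).re = (G a a).re + (G a c).re := by
    have : G a (a + c) = G a a + G a c := h.add a a c ha ha hcs
    rw [h.conj a (a + c) ha hac, Complex.conj_re, this, Complex.add_re]
  have k3 : (G (a + c) c).re = (G a c).re + (G c c).re := by
    have : G c (a + c) = G c a + G c c := h.add c a c hcs ha hcs
    rw [h.conj c (a + c) hcs hac, Complex.conj_re, this, Complex.add_re, f3]
  rw [k1, Complex.add_re, k2, k3] at k0
  rw [g1]
  linarith

/-- A closed coordinate ball in an open set. -/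
theorem ex_cb [T2Space M] [CompactSpace M] {O : Set M} (hO : IsOpen O) {p : M} (hp : p ∈ O)
    (hpi : p ∈ Mi n M) : ∃ R, IsCB n p R ∧ cb n p R ⊆ O := by
  letI : MeasurableSpace M := borel M
  haveI : BorelSpace M := ⟨rfl⟩
  have hms : p ∈ (xc n p).source := mem_extChartAt_source p
  have hzt : xc n p p ∈ tg n p := (xc n p).map_source hms
  have hzm : (xc n p).symm (xc n p p) = p := (xc n p).left_inv hms
  have hz0 : 0 < xc n p p 0 := cRungeB_pos_of_mi TM.fLoc p hms hpi
  obtain ⟨r₁, hr₁, h1, h2⟩ := cRungeB_ball TM.fLoc p hO hzt (by rw [hzm]; exact hp)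
  obtain ⟨r₂, hr₂, h3⟩ := cRungeB_ball_pos hz0
  have hpos : Metric.closedBall (xc n p p) (min r₁ r₂) ⊆ {y | 0 < y 0} := h3 _ (min_le_right _ _)
  have hin : Metric.closedBall (xc n p p) (min r₁ r₂) ⊆
      Metric.closedBall (xc n p p) r₁ ∩ Hs n := fun y hy =>
    ⟨Metric.closedBall_subset_closedBall (min_le_left _ _) hy,
      show (0 : ℝ) ≤ y 0 from le_of_lt (hpos hy)⟩
  refine ⟨min r₁ r₂, ⟨lt_min hr₁ hr₂, fun y hy => ⟨h1 (hin hy), hpos hy⟩⟩, ?_⟩
  rintro _ ⟨y, hy, rfl⟩
  exact h2 y (hin hy)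

/-- The matrices of the metrics are equal on `O` if they are equal on `O ∩ M°`. -/
theorem gram_of_int_on {g g' : Metric (𝓡∂ n) M} (hcl : ∀ x : M, x ∈ closure (Mi n M)) {O : Set M}
    (hO : IsOpen O) (h : ∀ x ∈ O ∩ Mi n M, gram g x x = gram g' x x) {x : M} (hx : x ∈ O) :
    gram g x x = gram g' x x := by
  ext i j
  have h1 : ∀ y ∈ O ∩ Mi n M, gram g x y = gram g' x y := fun y hy => by
    rw [gram_eq g x y, gram_eq g' x y, h y hy]
  have hs := extChartAt_source_mem_nhds (I := 𝓡∂ n) x
  have c1 : ContinuousAt (fun y => gram g x y i j) x :=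
    (contMDiffOn_gram g x i j).continuousOn.continuousAt hs
  have c2 : ContinuousAt (fun y => gram g' x y i j) x :=
    (contMDiffOn_gram g' x i j).continuousOn.continuousAt hs
  have hxc : x ∈ closure (O ∩ Mi n M) := by
    rw [mem_closure_iff]
    intro V hV hxV
    obtain ⟨y, hy, hyi⟩ := mem_closure_iff.1 (hcl x) (V ∩ O) (hV.inter hO) ⟨hxV, hx⟩
    exact ⟨y, hy.1, hy.2, hyi⟩
  have hne : (𝓝[O ∩ Mi n M] x).NeBot := mem_closure_iff_nhdsWithin_neBot.1 hxc
  have t1 : Tendsto (fun y => gram g x y i j) (𝓝[O ∩ Mi n M] x) (𝓝 (gram g x x i j)) :=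
    Tendsto.mono_left c1 nhdsWithin_le_nhds
  have t2 : Tendsto (fun y => gram g' x y i j) (𝓝[O ∩ Mi n M] x) (𝓝 (gram g' x x i j)) :=
    Tendsto.mono_left c2 nhdsWithin_le_nhds
  refine tendsto_nhds_unique_of_eventuallyEq t1 t2 ?_
  filter_upwards [self_mem_nhdsWithin] with y hy
  rw [h1 y hy]

variable [MeasurableSpace M]

theorem DD_re435 [BorelSpace M] (P Q : One n N M) (u : M → Fib N) (x : M) : (DD P Q u u x).re =
    (√(gram P.g x x).det)⁻¹ * ∑ i, ∑ j, (sig Q.g x - sig P.g x) i j •
      (inner ℂ (cov Q.A u x (coordVec (𝓡∂ n) x x i))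
        (cov Q.A u x (coordVec (𝓡∂ n) x x j)) : ℂ).re := by
  rw [← diff_eq P Q Q.A u x]
  unfold DD
  rw [Complex.sub_re, Complex.re_ofReal_mul]

theorem DD_cont [CompactSpace M] [BorelSpace M] (P Q : One n N M) {u : M → Fib N}
    (hu : SmS n u) : Continuous (DD P Q u u) :=
  ((Complex.continuous_ofReal.comp (continuous_rho P.g Q.g)).mul
    (continuous_pairing Q.g Q.A hu hu)).sub (continuous_pairing P.g Q.A hu hu)

end

theorem lL (hR : LR_statement.{u}) (hD : LD_statement.{u}) (hE : LE_statement.{u})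
    (hG : LG_statement.{u}) (h8 : M8_statement) : LL_statement.{u} := by
  intro n N _ M _ _ _ _ _ _ _ _ P Q Γ O hn hN hΓ hO hOp hOΓ hS hA hle
  obtain ⟨hIo, -, hcl⟩ := TM.fConn n M
  have hΓn : Γ.Nonempty := hOΓ.mono inter_subset_right
  have hΓb : Γ ⊆ (𝓡∂ n).boundary M := by
    obtain ⟨O', -, rfl⟩ := hΓ
    exact inter_subset_right
  have hbne : ((𝓡∂ n).boundary M).Nonempty := hΓn.mono hΓb
  obtain ⟨⟨hPs, hQs, -⟩, -⟩ :=
    Vale.Agent.P088.EYM.cData TM.fUniq TM.fForm n N M P Q Γ hΓ hΓn hS
  have hfin : IsFiniteMeasure P.μ := ⟨measure_univ_lt_top P.hμ⟩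
  have hpos' : P.μ.IsOpenPosMeasure := ⟨fun U hU hne => (measure_pos_of_isOpen P.hμ hU hne).ne'⟩
  have hint : ∀ {f : M → ℂ} {K : Set M}, Continuous f → IntegrableOn f K P.μ := fun hf =>
    (hf.integrable_of_hasCompactSupport (HasCompactSupport.of_compactSpace _)).integrableOn
  have key : ∀ p ∈ O ∩ Mi n M, gram Q.g p p = gram P.g p p := by
    rintro p ⟨hpO, hpi⟩
    obtain ⟨R, hCB, hRO⟩ := ex_cb (n := n) hO hpO hpi
    have hR0 : 0 < R := hCB.1
    have hρ : 0 < R / 2 := by positivity
    have hρR : R / 2 < R := by linarith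
    have hKc : IsClosed (cb n p (R / 2)) := cRungeB_cb_closed hCB hρR
    have hKR : cb n p (R / 2) ⊆ cb n p R := image_mono (Metric.closedBall_subset_closedBall hρR.le)
    have hKO : cb n p (R / 2) ⊆ O := hKR.trans hRO
    obtain ⟨G1, G2, G3, G4, C, G5⟩ := hG n N M P Q O (cb n p (R / 2)) hbne hO hKc hKO hle
    have hdis : Disjoint (cb n p R) Oᶜ := disjoint_compl_right_iff_subset.2 hRO
    have hconn := hD n M O p R (R / 2) (by omega) hO hOp hCB hρ hρR hRO
    have hΓW : (Γ \ Oᶜ).Nonempty := by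
      obtain ⟨x, hx⟩ := hOΓ
      exact ⟨x, hx.2, fun h => h hx.1⟩
    -- the form vanishes on solutions
    have hzero : ∀ u ∈ PP P Q Γ, ∫ x in cb n p (R / 2), (DD P Q u.2 u.2 x).re ∂P.μ = 0 := by
      intro u hu
      obtain ⟨f, hf, h1, h2⟩ := hu
      have hh : u.2 ∈ Q.U Γ := ⟨f, hf, h2⟩
      have hre : ∀ v : M → Fib N, SmS n v →
          (∫ x in cb n p (R / 2), DD P Q v v x ∂P.μ).re =
            ∫ x in cb n p (R / 2), (DD P Q v v x).re ∂P.μ := fun v hv =>
        (integral_re (𝕜 := ℂ) (hint (DD_cont P Q hv))).symm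
      have hre2 : ∀ v : M → Fib N, SmS n v →
          (∫ x in Oᶜ, pairing P.g P.A v v x ∂P.μ).re =
            ∫ x in Oᶜ, (pairing P.g P.A v v x).re ∂P.μ := fun v hv =>
        (integral_re (𝕜 := ℂ) (hint (continuous_pairing P.g P.A hv hv))).symm
      have hsmall : ∀ ε > 0,
          (∫ x in cb n p (R / 2), DD P Q u.2 u.2 x ∂P.μ).re ≤ 4 * ε := by
        intro ε hε
        obtain ⟨v, hv, hvε⟩ := hR n N M Q Γ Oᶜ p R (R / 2) _ _ C u.2 hΓ hQs hO.isClosed_compl hCB
          hρ hρR hdis hconn hΓW G1 G2 G3 (fun φ h3 h4 => G4 φ h3 (by rwa [compl_compl] at h4)) G5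
          hh ε hε
        obtain ⟨f', hf', hv2⟩ := hv
        obtain ⟨v', hv1⟩ := hPs f' hf'
        have hLE := hE n N M P Q Γ O (cb n p (R / 2)) hΓ hΓn hS hO hA hle hKc.measurableSet hKO
          (v', v) ⟨f', hf', hv1, hv2⟩
        have hvs : SmS n v := hv2.smooth
        have h3 := G1.nonneg (v - u.2) (hvs.sub h2.smooth)
        have h4 := G2.nonneg v hvs
        have h5 := G1.para hvs h2.smooth
        rw [← hre v hvs, ← hre2 v hvs] at hLE
        linarith
      have h3 : (∫ x in cb n p (R / 2), DD P Q u.2 u.2 x ∂P.μ).re ≤ 0 := by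
        refine le_of_forall_pos_le_add fun ε hε => ?_
        have := hsmall (ε / 4) (by positivity)
        linarith
      have h4 := G1.nonneg u.2 h2.smooth
      rw [← hre u.2 h2.smooth]
      exact le_antisymm h3 h4
    -- pointwise at `p`
    have hpt : ∀ u ∈ PP P Q Γ, (DD P Q u.2 u.2 p).re = 0 := by
      intro u hu
      have h0 := hzero u hu
      obtain ⟨f, hf, h1, h2⟩ := hu
      have hc : Continuous fun x => (DD P Q u.2 u.2 x).re :=
        Complex.continuous_re.comp (DD_cont P Q h2.smooth)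
      have hnn : ∀ x ∈ O, 0 ≤ (DD P Q u.2 u.2 x).re := fun x hx => by
        rw [DD_re435]
        exact mul_nonneg (inv_nonneg.2 (Real.sqrt_nonneg _)) (psd_nonneg (hle x hx) _)
      by_contra hne
      have hlt : 0 < (DD P Q u.2 u.2 p).re := lt_of_le_of_ne (hnn p hpO) (Ne.symm hne)
      set c := (DD P Q u.2 u.2 p).re with hcdef
      have hVo : IsOpen {x | c / 2 < (DD P Q u.2 u.2 x).re} := isOpen_lt continuous_const hc
      have hBo : IsOpen ((xc n p).symm '' Metric.ball (xc n p p) (R / 2)) :=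
        cRungeB_B_open TM.fLoc (R := R / 2) ⟨hρ,
          (Metric.closedBall_subset_closedBall hρR.le).trans hCB.2⟩
      have hBK : (xc n p).symm '' Metric.ball (xc n p p) (R / 2) ⊆ cb n p (R / 2) :=
        image_mono Metric.ball_subset_closedBall
      have hpB : p ∈ (xc n p).symm '' Metric.ball (xc n p p) (R / 2) :=
        ⟨xc n p p, Metric.mem_ball_self hρ, (xc n p).left_inv (mem_extChartAt_source p)⟩
      set V : Set M := (xc n p).symm '' Metric.ball (xc n p p) (R / 2) ∩
        {x | c / 2 < (DD P Q u.2 u.2 x).re} with hV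
      have hVop : IsOpen V := hBo.inter hVo
      have hVp : p ∈ V := ⟨hpB, by show c / 2 < c; linarith⟩
      have hVpos : 0 < P.μ V := hVop.measure_pos P.μ ⟨p, hVp⟩
      have hcint : IntegrableOn (fun x => (DD P Q u.2 u.2 x).re) (cb n p (R / 2)) P.μ :=
        (hc.integrable_of_hasCompactSupport (HasCompactSupport.of_compactSpace _)).integrableOn
      have h3 : ∫ x in V, (DD P Q u.2 u.2 x).re ∂P.μ ≤
          ∫ x in cb n p (R / 2), (DD P Q u.2 u.2 x).re ∂P.μ := by
        refine setIntegral_mono_set hcint ?_ (LE.le.eventuallyLE (inter_subset_left.trans hBK))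
        filter_upwards [ae_restrict_mem hKc.measurableSet] with x hx
        exact hnn x (hKO hx)
      have h4 : ∫ x in V, (c / 2) ∂P.μ ≤ ∫ x in V, (DD P Q u.2 u.2 x).re ∂P.μ := by
        refine setIntegral_mono_on (integrable_const _).integrableOn
          (hc.integrable_of_hasCompactSupport (HasCompactSupport.of_compactSpace _)).integrableOn
          hVop.measurableSet fun x hx => ?_
        exact le_of_lt hx.2
      rw [setIntegral_const, smul_eq_mul] at h4
      have h5 : 0 < P.μ.real V := by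
        rw [measureReal_def]
        exact ENNReal.toReal_pos hVpos.ne' (measure_ne_top _ _)
      have h6 : 0 < P.μ.real V * (c / 2) := mul_pos h5 (by linarith)
      linarith
    have hs : sig Q.g p = sig P.g p := by
      ext i k
      obtain ⟨u, hu, hj⟩ := jet_ex (n := n) (N := N) (by omega) hΓ hΓn hS hpi 0
        (fun j => if j = k then EuclideanSpace.single (⟨0, hN⟩ : Fin N) (1 : ℂ) else 0)
      have h0 := hpt u hu
      obtain ⟨f, hf, h2, h3⟩ := hu
      rw [DD_re435] at h0
      have hpos := inv_ne_zero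
        (Real.sqrt_pos.2 (gram_det_pos P.g (mem_extChartAt_source (I := 𝓡∂ n) p))).ne'
      have hz := (mul_eq_zero.1 h0).resolve_left hpos
      have h1 := psd_zero (hle p hpO) _ hz i
      simp only [cov_of_jet Q.A h3.smooth hj, smul_ite, smul_zero, Finset.sum_ite_eq',
        Finset.mem_univ, if_true] at h1
      have h4 := congrArg (fun v : Fib N => v ⟨0, hN⟩) h1
      simp only [PiLp.smul_apply, EuclideanSpace.single_apply, if_true, PiLp.zero_apply,
        smul_eq_mul, mul_one] at h4
      have h5 : (sig Q.g p - sig P.g p) i k = 0 := by exact_mod_cast h4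
      rw [Matrix.sub_apply] at h5
      exact sub_eq_zero.1 h5
    exact h8 n _ _ hn (gram_posDef Q.g (mem_extChartAt_source p))
      (gram_posDef P.g (mem_extChartAt_source p)) hs
  exact fun x hx v w => inner_of_gram (gram_of_int_on hcl hO key hx) v w

end Vale.Agent.P088.EYM.O

end
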