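import Vale.Agent.P088.H5.L1_849

/-!
# P088, Theorem L: the `H¹(K)` projection and the Riesz sequence
-/

set_option linter.all false

open Bundle Manifold MeasureTheory Set Filter Topology
open scoped ContDiff Matrix

noncomputable section

namespace Vale.Agent.P088.EYM.O

open Vale.Agent.P088 Vale.Agent.P088.EYM

universe u

section

variable {n N : ℕ} [NeZero n] {M : Type u} [TopologicalSpace M]
  [ChartedSpace (EuclideanHalfSpace n) M] [IsManifold (𝓡∂ n) ∞ M] [MeasurableSpace M]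

/-- The `H¹` form on `K`. -/
def FK (Q : One n N M) (K : Set M) (a b : M → Fib N) : ℂ :=
  ∫ x in K, (pairing Q.g Q.A a b x + inner ℂ (a x) (b x)) ∂Q.μ

variable [T2Space M] [CompactSpace M] [BorelSpace M] (Q : One n N M) (K : Set M)

theorem fk_cont {a b : M → Fib N} (ha : SmS n a) (hb : SmS n b) :
    Continuous fun x => pairing Q.g Q.A a b x + inner ℂ (a x) (b x) :=
  (continuous_pairing Q.g Q.A ha hb).add (ha.continuous.inner hb.continuous)

theorem fk_int {a b : M → Fib N} (ha : SmS n a) (hb : SmS n b) :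
    Integrable (fun x => pairing Q.g Q.A a b x + inner ℂ (a x) (b x)) (Q.μ.restrict K) := by
  have := (TM.fInt n N M Q).1
  exact (integrable_of_continuous (fk_cont Q ha hb)).integrableOn

theorem fk_add {a b c : M → Fib N} (ha : SmS n a) (hb : SmS n b) (hc : SmS n c) :
    FK Q K a (b + c) = FK Q K a b + FK Q K a c := by
  unfold FK
  rw [← integral_add (fk_int Q K ha hb) (fk_int Q K ha hc)]
  refine integral_congr_ae (Eventually.of_forall fun x => ?_)
  simp only [cForm_pairing_add Q.g Q.A hb hc, Pi.add_apply, inner_add_right]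
  ring

theorem fk_smul (c : ℂ) {a b : M → Fib N} (ha : SmS n a) (hb : SmS n b) :
    FK Q K a (c • b) = c * FK Q K a b := by
  unfold FK
  rw [← integral_const_mul]
  refine integral_congr_ae (Eventually.of_forall fun x => ?_)
  simp only [cForm_pairing_smul Q.g Q.A c hb, Pi.smul_apply, inner_smul_right]
  ring

theorem fk_conj (a b : M → Fib N) : FK Q K b a = (starRingEnd ℂ) (FK Q K a b) := by
  unfold FK
  rw [← integral_conj]
  refine integral_congr_ae (Eventually.of_forall fun x => ?_)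
  simp only [map_add, cForm_pairing_conj Q.g Q.A a b x, inner_conj_symm]

theorem fk_re {a : M → Fib N} (ha : SmS n a) :
    (FK Q K a a).re = ∫ x in K, ((pairing Q.g Q.A a a x).re + ‖a x‖ ^ 2) ∂Q.μ := by
  have h : (FK Q K a a).re = ∫ x in K, (pairing Q.g Q.A a a x + inner ℂ (a x) (a x)).re ∂Q.μ :=
    (integral_re (𝕜 := ℂ) (fk_int Q K ha ha)).symm
  rw [h]
  refine integral_congr_ae (Eventually.of_forall fun x => ?_)
  simp only [Complex.add_re]
  have h2 : (inner ℂ (a x) (a x) : ℂ).re = ‖a x‖ ^ 2 := inner_self_eq_norm_sq (𝕜 := ℂ) (a x)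
  rw [h2]

theorem fk_nonneg {a : M → Fib N} (ha : SmS n a) : 0 ≤ (FK Q K a a).re := by
  rw [fk_re Q K ha]
  exact integral_nonneg fun x => add_nonneg (cForm_pairing_nonneg Q.g Q.A a x) (sq_nonneg _)

theorem fk_le {a : M → Fib N} (ha : SmS n a) :
    (FK Q K a a).re ≤ (Q.E a a).re + ∫ x, ‖a x‖ ^ 2 ∂Q.μ := by
  have := (TM.fInt n N M Q).1
  have h1 : Continuous fun x => (pairing Q.g Q.A a a x).re :=
    Complex.continuous_re.comp (continuous_pairing Q.g Q.A ha ha)
  have h2 : Continuous fun x => ‖a x‖ ^ 2 := ha.continuous.norm.pow 2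
  have h3 : (Q.E a a).re = ∫ x, (pairing Q.g Q.A a a x).re ∂Q.μ :=
    (integral_re (𝕜 := ℂ) (integrable_of_continuous (continuous_pairing Q.g Q.A ha ha))).symm
  rw [fk_re Q K ha, h3, ← integral_add (integrable_of_continuous h1) (integrable_of_continuous h2)]
  exact setIntegral_le_integral (integrable_of_continuous (h1.add h2))
    (Eventually.of_forall fun x => add_nonneg (cForm_pairing_nonneg Q.g Q.A a x) (sq_nonneg _))

/-- Smooth sections. -/
def smX (n N : ℕ) [NeZero n] (M : Type u) [TopologicalSpace M]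
    [ChartedSpace (EuclideanHalfSpace n) M] [IsManifold (𝓡∂ n) ∞ M] :
    Submodule ℂ (M → Fib N) where
  carrier := {φ | SmS n φ}
  add_mem' := fun ha hb => crungea_add ha hb
  zero_mem' := crungea_zero
  smul_mem' := fun c _ ha => crungea_smul ha c

/-- The solutions with data on `Γ`. -/
def solX [ConnectedSpace M] (Γ : Set M) (hb : ((𝓡∂ n).boundary M).Nonempty)
    (hsol : Q.HasSol Γ) : Submodule ℂ (smX n N M) where
  carrier := {φ | (φ : M → Fib N) ∈ Q.U Γ}
  add_mem' := by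
    rintro a b ⟨f, hf, ha⟩ ⟨g, hg, hb'⟩
    have h := (TM.fUniq n N M Q hb).2.1 f g a b 1 1 ha hb'
    simp only [one_smul] at h
    exact ⟨f + g, by simpa only [one_smul] using cRunge_comb 1 1 hf hg, h⟩
  zero_mem' := by
    have hf0 : IsBdryData (𝓡∂ n) Γ (0 : M → Fib N) := by
      refine ⟨crungea_zero, ?_⟩
      simp
    obtain ⟨u, hu⟩ := hsol 0 hf0
    have h := (TM.fUniq n N M Q hb).2.1 0 0 u u 0 0 hu hu
    simp only [zero_smul, add_zero] at h
    exact ⟨0, hf0, h⟩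
  smul_mem' := by
    rintro c a ⟨f, hf, ha⟩
    have h := (TM.fUniq n N M Q hb).2.1 f f a a c 0 ha ha
    simp only [zero_smul, add_zero] at h
    refine ⟨c • f, ?_, h⟩
    have h2 := cRunge_comb c 0 hf hf
    simpa only [zero_smul, add_zero] using h2

end

/-- `H¹(K)` projection of `T` on the solutions, and the Riesz sequence of the functional `l`. -/
theorem l2 (n N : ℕ) [NeZero n] (M : Type u) [TopologicalSpace M]
    [ChartedSpace (EuclideanHalfSpace n) M] [IsManifold (𝓡∂ n) ∞ M] [T2Space M] [CompactSpace M]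
    [ConnectedSpace M] [MeasurableSpace M] [BorelSpace M] (Q : One n N M) (Γ K : Set M)
    (T : M → Fib N) (hΓ : RelBd n Γ) (hne : Γ.Nonempty) (hsol : Q.HasSol Γ) (hT : SmS n T) :
    ∃ (u w : ℕ → M → Fib N) (l : (M → Fib N) → ℂ), (∀ k, u k ∈ Q.U Γ) ∧ (∀ k, SmS n (w k)) ∧
      (∀ k, ∀ x ∈ (𝓡∂ n).boundary M, w k x = 0) ∧
      (∀ ε > 0, ∃ k₀, ∀ k ≥ k₀, ∀ j ≥ k₀, (Q.E (w k - w j) (w k - w j)).re ≤ ε) ∧
      (∀ ε > 0, ∃ k₀, ∀ k ≥ k₀, ∀ j ≥ k₀, ∫ x, ‖w k x - w j x‖ ^ 2 ∂Q.μ ≤ ε) ∧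
      (∀ φ, IsBdryData (𝓡∂ n) Γ φ → Tendsto (fun k => Q.E (w k) φ) atTop (𝓝 (l φ))) ∧
      (∀ φ, SmS n φ → Tendsto (fun k => FK Q K (T - u k) φ) atTop (𝓝 (l φ))) ∧
      Tendsto (fun k => (FK Q K (T - u k) (T - u k)).re) atTop (𝓝 (l T).re) := by
  have hbn : ((𝓡∂ n).boundary M).Nonempty := by
    obtain ⟨O, -, rfl⟩ := hΓ
    exact hne.mono inter_subset_right
  obtain ⟨f1, f2, f3, f4, f5⟩ := TM.fForm n N M Q
  obtain ⟨C, hC, hCp⟩ := TM.fPoinc n N M Q hbn
  obtain ⟨u, L, D, hu, hD, hLb, hLU, hLl, hLT⟩ := l1 (X := smX n N M)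
    (fun a b => FK Q K (a : M → Fib N) (b : M → Fib N)) (solX Q Γ hbn hsol) ⟨T, hT⟩
    (fun a b c => fk_add Q K a.2 b.2 c.2) (fun c a b => fk_smul Q K c a.2 b.2)
    (fun a b => fk_conj Q K _ _) (fun a => fk_nonneg Q K a.2)
  let X := crungeaX n N M
  let l : X →ₗ[ℂ] ℂ :=
    { toFun := fun φ => L ⟨φ, φ.2.1⟩
      map_add' := fun φ ψ => by
        rw [← map_add]
        rfl
      map_smul' := fun a φ => by
        rw [RingHom.id_apply, ← map_smul]
        rfl }
  obtain ⟨w, hw1, hw2⟩ := cHilb X (fun u v => Q.E (u : M → Fib N) (v : M → Fib N)) l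
    (D * (1 + C)) (fun u v w => f1 _ _ _ u.2.1 v.2.1 w.2.1)
    (fun a u v => f2 a _ _ u.2.1 v.2.1) (fun u v => f3 _ _ u.2.1 v.2.1) (fun u => f4 _ u.2.1)
    (fun φ => by
      refine (hLb ⟨φ, φ.2.1⟩).trans ?_
      rw [mul_assoc]
      refine mul_le_mul_of_nonneg_left ?_ hD
      refine (fk_le Q K φ.2.1).trans ?_
      have := hCp _ φ.2.1 φ.2.2
      linarith)
  classical
  refine ⟨fun k => (u k : M → Fib N), fun k => (w k : M → Fib N),
    fun φ => if h : SmS n φ then L ⟨φ, h⟩ else 0, fun k => hu k, fun k => (w k).2.1,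
    fun k => (w k).2.2, ?_, ?_, ?_, ?_, ?_⟩
  · intro ε hε
    obtain ⟨k₀, hk₀⟩ := hw1 ε hε
    exact ⟨k₀, fun k hk j hj => hk₀ k hk j hj⟩
  · intro ε hε
    obtain ⟨k₀, hk₀⟩ := hw1 (ε / C) (by (clear * - hε hC; positivity))
    refine ⟨k₀, fun k hk j hj => ?_⟩
    have h1 := hk₀ k hk j hj
    have h2 := hCp _ (w k - w j).2.1 (w k - w j).2.2
    have h3 : C * (Q.E ((w k - w j : X) : M → Fib N) ((w k - w j : X) : M → Fib N)).re ≤ ε := by
      calc _ ≤ C * (ε / C) := mul_le_mul_of_nonneg_left h1 hC.le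
        _ = ε := by (clear * - hC hε; field_simp)
    exact h2.trans h3
  · intro φ hφ
    obtain ⟨v, hv⟩ := hsol φ hφ
    have hvs : SmS n v := hv.smooth
    have hφs : SmS n φ := hφ.smooth
    have hd : φ - v ∈ X := ⟨crungea_sub hφs hvs, fun x hx => by
      rw [Pi.sub_apply, hv.boundary x hx, sub_self]⟩
    have h1 : ∀ k, Q.E (w k : M → Fib N) φ = Q.E (w k : M → Fib N) (φ - v) := by
      intro k
      have h2 : Q.E (w k : M → Fib N) v = 0 := by
        rw [f3 v _ hvs (w k).2.1]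
        have : Q.E v (w k : M → Fib N) = 0 := hv.weak _ (w k).2.1 (w k).2.2
        rw [this, map_zero]
      have h3 : φ = v + (φ - v) := by rw [add_sub_cancel]
      conv_lhs => rw [h3]
      rw [f1 _ _ _ (w k).2.1 hvs hd.1, h2, zero_add]
    have h4 := hw2 ⟨φ - v, hd⟩
    have h5 : l ⟨φ - v, hd⟩ = if h : SmS n φ then L ⟨φ, h⟩ else 0 := by
      rw [dif_pos hφs]
      have h6 : L (⟨φ, hφs⟩ - ⟨v, hvs⟩) = L ⟨φ, hφs⟩ - L ⟨v, hvs⟩ := map_sub L _ _
      have h7 : L ⟨v, hvs⟩ = 0 := hLU ⟨v, hvs⟩ ⟨φ, hφ, hv⟩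
      rw [h7, sub_zero] at h6
      rw [← h6]
      rfl
    rw [h5] at h4
    simp only [h1]
    exact h4
  · intro φ hφ
    simp only [dif_pos hφ]
    exact hLl ⟨φ, hφ⟩
  · simp only [dif_pos hT]
    exact hLT

/-- The functional vanishes on sections supported away from `K`. -/
theorem fk_zero {n N : ℕ} [NeZero n] {M : Type u} [TopologicalSpace M]
    [ChartedSpace (EuclideanHalfSpace n) M] [IsManifold (𝓡∂ n) ∞ M] [MeasurableSpace M]
    (Q : One n N M) (K : Set M) (hK : MeasurableSet K) (a : M → Fib N) {φ : M → Fib N}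
    (h : Disjoint (tsupport φ) K) : FK Q K a φ = 0 := by
  unfold FK
  refine setIntegral_eq_zero_of_forall_eq_zero fun x hx => ?_
  have h1 : x ∉ tsupport φ := fun h2 => (disjoint_left.1 h) h2 hx
  rw [CEnergy_pairing_zero' Q a h1, image_eq_zero_of_notMem_tsupport h1, inner_zero_right, add_zero]

end Vale.Agent.P088.EYM.O

end
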