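import Vale.Agent.P088.H5.Spec4
import Vale.Agent.P088.H5.L2_849

/-!
# P088, Theorem L: the Runge approximation from the propagation
-/

set_option linter.all false

open Bundle Manifold MeasureTheory Set Filter Topology
open scoped ContDiff Matrix

noncomputable section

namespace Vale.Agent.P088.EYM.O

open Vale.Agent.P088 Vale.Agent.P088.EYM

universe u

section

variable {n N : ℕ} [NeZero n] {M : Type u} [TopologicalSpace M]
  [ChartedSpace (EuclideanHalfSpace n) M] [IsManifold (𝓡∂ n) ∞ M]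
  {G : (M → Fib N) → (M → Fib N) → ℂ}

theorem Psd.cs (h : Psd n G) {u v : M → Fib N} (hu : SmS n u) (hv : SmS n v) :
    ‖G u v‖ ^ 2 ≤ (G u u).re * (G v v).re :=
  cForm_cs (SmS n) G (fun _ _ => crungea_add) (fun c _ hu => crungea_smul hu c)
    h.add h.smul h.conj h.nonneg u v hu hv

theorem Psd.null (h : Psd n G) {u v : M → Fib N} (hu : SmS n u) (hv : SmS n v)
    (h0 : G v v = 0) : G u v = 0 := by
  have h1 := h.cs hu hv
  rw [h0, Complex.zero_re, mul_zero] at h1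
  have h2 : ‖G u v‖ = 0 := by
    have := sq_nonneg ‖G u v‖
    exact pow_eq_zero_iff two_ne_zero |>.1 (le_antisymm h1 this)
  exact norm_eq_zero.1 h2

theorem Psd.null' (h : Psd n G) {u v : M → Fib N} (hu : SmS n u) (hv : SmS n v)
    (h0 : G v v = 0) : G v u = 0 := by
  rw [h.conj u v hu hv, h.null hu hv h0, map_zero]

theorem Psd.add_null (h : Psd n G) {a z : M → Fib N} (ha : SmS n a) (hz : SmS n z)
    (h0 : G z z = 0) : G (a + z) (a + z) = G a a := by
  have hs : SmS n (a + z) := crungea_add ha hz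
  rw [h.add _ _ _ hs ha hz, h.null hs hz h0, add_zero, h.conj a (a + z) ha hs,
    h.add _ _ _ ha ha hz, h.null ha hz h0, add_zero, ← h.conj a a ha ha]

theorem tsupport_sub_subset {a b : M → Fib N} {S : Set M} (ha : tsupport a ⊆ S)
    (hb : tsupport b ⊆ S) : tsupport (a - b) ⊆ S := by
  have h : tsupport (a - b) ⊆ tsupport a ∪ tsupport b := by
    refine closure_minimal ?_ ((isClosed_tsupport a).union (isClosed_tsupport b))
    intro x hx
    by_contra h
    rw [mem_union, not_or] at h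
    apply hx
    rw [Pi.sub_apply, image_eq_zero_of_notMem_tsupport h.1, image_eq_zero_of_notMem_tsupport h.2,
      sub_zero]
  exact h.trans (union_subset ha hb)

end

theorem lR (hB : LB_statement.{u}) : LR_statement.{u} := by
  intro n N _ M _ _ _ _ _ _ _ _ P Γ W x R ρ G₁ G₂ C h hΓ hsol hW hcb hρ hρR hdisj hconn hne
    hG₁ hG₂ hz₁ hz₂ hb hh ε hε
  obtain ⟨f, hf, hfh⟩ := hh
  have hhs : SmS n h := hfh.smooth
  have hbn : ((𝓡∂ n).boundary M).Nonempty := by
    obtain ⟨O, -, hO⟩ := hΓ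
    obtain ⟨p, hp, -⟩ := hne
    rw [hO] at hp
    exact ⟨p, hp.2⟩
  obtain ⟨f1, f2, f3, f4, f5⟩ := TM.fForm n N M P
  obtain ⟨D, hD, hDp⟩ := TM.fPoinc n N M P hbn
  -- the target
  have hE0 : ∀ φ : M → Fib N, P.E (0 : M → Fib N) φ = 0 := by
    intro φ
    unfold One.E energy
    have : ∀ x, pairing P.g P.A (0 : M → Fib N) φ x = 0 := fun x =>
      CEnergy_pairing_zero P φ (by simp [tsupport])
    simp [this]
  obtain ⟨T, hT, hT0, hTW, hTh, -⟩ := hB n N M P Γ W x R ρ hΓ hW hcb hρ hρR hdisj hconn hne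
    (fun _ => (0 : M → Fib N)) (fun _ => crungea_zero) (fun _ _ _ => rfl)
    (fun δ hδ => ⟨0, fun k _ l _ => by rw [sub_self, hE0, Complex.zero_re]; exact hδ.le⟩)
    (fun δ hδ => ⟨0, fun k _ l _ => by simp [hδ.le]⟩)
    (fun φ _ _ => by simp only [hE0]; exact tendsto_const_nhds) f h hfh
  have hTh0 : G₁ (T - h) (T - h) = 0 := hz₁ _ (crungea_sub hT hhs) hTh
  have hTW0 : G₂ T T = 0 := hz₂ _ hT hTW
  -- the sum of the two forms
  set F : smX n N M → smX n N M → ℂ := fun a b =>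
    G₁ (a : M → Fib N) (b : M → Fib N) + G₂ (a : M → Fib N) (b : M → Fib N) with hF
  obtain ⟨u, L, A, hu, hA, hLb, hLU, hLl, hLT⟩ := l1 (X := smX n N M) F (solX P Γ hbn hsol)
    ⟨T, hT⟩
    (fun a b c => by
      simp only [hF, Submodule.coe_add]
      rw [hG₁.add _ _ _ a.2 b.2 c.2, hG₂.add _ _ _ a.2 b.2 c.2]
      ring)
    (fun c a b => by
      simp only [hF, Submodule.coe_smul]
      rw [hG₁.smul _ _ _ a.2 b.2, hG₂.smul _ _ _ a.2 b.2]
      ring)
    (fun a b => by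
      simp only [hF, map_add]
      rw [hG₁.conj _ _ a.2 b.2, hG₂.conj _ _ a.2 b.2])
    (fun a => by
      simp only [hF, Complex.add_re]
      exact add_nonneg (hG₁.nonneg _ a.2) (hG₂.nonneg _ a.2))
  let X := crungeaX n N M
  let l : X →ₗ[ℂ] ℂ :=
    { toFun := fun φ => L ⟨φ, φ.2.1⟩
      map_add' := fun φ ψ => by
        rw [← map_add]
        rfl
      map_smul' := fun a φ => by
        rw [RingHom.id_apply, ← map_smul]
        rfl }
  obtain ⟨w, hw1, hw2⟩ := cHilb X (fun u v => P.E (u : M → Fib N) (v : M → Fib N)) l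
    (A * C) (fun u v w => f1 _ _ _ u.2.1 v.2.1 w.2.1)
    (fun a u v => f2 a _ _ u.2.1 v.2.1) (fun u v => f3 _ _ u.2.1 v.2.1) (fun u => f4 _ u.2.1)
    (fun φ => by
      refine (hLb ⟨φ, φ.2.1⟩).trans ?_
      rw [mul_assoc]
      refine mul_le_mul_of_nonneg_left ?_ hA
      simp only [hF, Complex.add_re]
      exact hb _ φ.2.1 φ.2.2)
  -- the limit for all boundary data
  have hwl : ∀ φ : M → Fib N, IsBdryData (𝓡∂ n) Γ φ → ∀ hφs : SmS n φ,
      Tendsto (fun k => P.E (w k : M → Fib N) φ) atTop (𝓝 (L ⟨φ, hφs⟩)) := by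
    intro φ hφ hφs
    obtain ⟨v, hv⟩ := hsol φ hφ
    have hvs : SmS n v := hv.smooth
    have hd : φ - v ∈ X := ⟨crungea_sub hφs hvs, fun x hx => by
      rw [Pi.sub_apply, hv.boundary x hx, sub_self]⟩
    have h1 : ∀ k, P.E (w k : M → Fib N) φ = P.E (w k : M → Fib N) (φ - v) := by
      intro k
      have h2 : P.E (w k : M → Fib N) v = 0 := by
        rw [f3 v _ hvs (w k).2.1]
        have : P.E v (w k : M → Fib N) = 0 := hv.weak _ (w k).2.1 (w k).2.2
        rw [this, map_zero]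
      have h3 : φ = v + (φ - v) := by rw [add_sub_cancel]
      conv_lhs => rw [h3]
      rw [f1 _ _ _ (w k).2.1 hvs hd.1, h2, zero_add]
    have h4 := hw2 ⟨φ - v, hd⟩
    have h5 : l ⟨φ - v, hd⟩ = L ⟨φ, hφs⟩ := by
      have h6 : L (⟨φ, hφs⟩ - ⟨v, hvs⟩) = L ⟨φ, hφs⟩ - L ⟨v, hvs⟩ := map_sub L _ _
      have h7 : L ⟨v, hvs⟩ = 0 := hLU ⟨v, hvs⟩ ⟨φ, hφ, hv⟩
      rw [h7, sub_zero] at h6
      rw [← h6]
      rfl
    rw [h5] at h4
    simp only [h1]
    exact h4
  -- sections which are null for both forms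
  have hLnull : ∀ (φ : M → Fib N) (hφ : SmS n φ), G₁ φ φ = 0 → G₂ φ φ = 0 → L ⟨φ, hφ⟩ = 0 := by
    intro φ hφ h1 h2
    refine tendsto_nhds_unique (hLl ⟨φ, hφ⟩) ?_
    have h3 : ∀ k, F (⟨T, hT⟩ - u k) ⟨φ, hφ⟩ = 0 := by
      intro k
      have hs : SmS n ((⟨T, hT⟩ - u k : smX n N M) : M → Fib N) := crungea_sub hT (u k).2
      simp only [hF]
      rw [hG₁.null hs hφ h1, hG₂.null hs hφ h2, add_zero]
    simp only [h3]
    exact tendsto_const_nhds
  obtain ⟨φ, hφ, hφ0, hφW, hφh, hlim⟩ := hB n N M P Γ W x R ρ hΓ hW hcb hρ hρR hdisj hconn hne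
    (fun k => (w k : M → Fib N)) (fun k => (w k).2.1) (fun k => (w k).2.2)
    (fun δ hδ => by
      obtain ⟨k₀, hk₀⟩ := hw1 δ hδ
      exact ⟨k₀, fun k hk j hj => hk₀ k hk j hj⟩)
    (fun δ hδ => by
      obtain ⟨k₀, hk₀⟩ := hw1 (δ / D) (by (clear * - hδ hD; positivity))
      refine ⟨k₀, fun k hk j hj => ?_⟩
      have h1 := hk₀ k hk j hj
      have h2 := hDp _ (w k - w j).2.1 (w k - w j).2.2
      have h3 : D * (P.E ((w k - w j : X) : M → Fib N) ((w k - w j : X) : M → Fib N)).re ≤ δ := by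
        calc _ ≤ D * (δ / D) := mul_le_mul_of_nonneg_left h1 hD.le
          _ = δ := by (clear * - hD hδ; field_simp)
      exact h2.trans h3)
    (fun φ hφ hφt => by
      have hφs : SmS n φ := hφ.smooth
      have h1 := hwl φ hφ hφs
      rwa [hLnull φ hφs
        (hz₁ φ hφs (hφt.trans (compl_subset_compl.2 subset_union_right)))
        (hz₂ φ hφs (hφt.trans (compl_subset_compl.2 subset_union_left)))] at h1) f h hfh
  have hlφ : L ⟨φ, hφ⟩ = 0 := tendsto_nhds_unique (hw2 ⟨φ, hφ, hφ0⟩) hlim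
  have hlT : L ⟨T, hT⟩ = 0 := by
    have hs : SmS n (T - φ) := crungea_sub hT hφ
    have e : T - φ = (T - h) - (φ - h) := by abel
    have h1 : tsupport (T - φ) ⊆ (cb n x ρ)ᶜ := by
      rw [e]
      exact tsupport_sub_subset hTh hφh
    have h2 : tsupport (T - φ) ⊆ Wᶜ := tsupport_sub_subset hTW hφW
    have h3 := hLnull (T - φ) hs (hz₁ _ hs h1) (hz₂ _ hs h2)
    have h4 : L (⟨T, hT⟩ - ⟨φ, hφ⟩) = L ⟨T, hT⟩ - L ⟨φ, hφ⟩ := map_sub L _ _
    have h5 : L (⟨T, hT⟩ - ⟨φ, hφ⟩) = 0 := h3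
    rw [h5, hlφ, sub_zero] at h4
    exact h4.symm
  rw [hlT, Complex.zero_re] at hLT
  obtain ⟨k, hk⟩ := ((Metric.tendsto_atTop.1 hLT) ε hε)
  have hk1 := hk k le_rfl
  rw [Real.dist_eq, sub_zero] at hk1
  have hk2 := (le_abs_self _).trans hk1.le
  refine ⟨(u k : M → Fib N), hu k, ?_⟩
  have hus : SmS n (u k : M → Fib N) := (u k).2
  have hTu : SmS n (T - (u k : M → Fib N)) := crungea_sub hT hus
  have hk3 : (G₁ (T - (u k : M → Fib N)) (T - (u k : M → Fib N))).re +
      (G₂ (T - (u k : M → Fib N)) (T - (u k : M → Fib N))).re ≤ ε := by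
    have h1 : F (⟨T, hT⟩ - u k) (⟨T, hT⟩ - u k) =
        G₁ (T - (u k : M → Fib N)) (T - (u k : M → Fib N)) +
          G₂ (T - (u k : M → Fib N)) (T - (u k : M → Fib N)) := rfl
    rw [h1, Complex.add_re] at hk2
    exact hk2
  have hneg : ∀ {G : (M → Fib N) → (M → Fib N) → ℂ}, Psd n G → ∀ a : M → Fib N, SmS n a →
      G (-a) (-a) = G a a := by
    intro G hG a ha
    have e : -a = (-1 : ℂ) • a := by rw [neg_one_smul]
    have hs : SmS n ((-1 : ℂ) • a) := crungea_smul ha _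
    rw [e, hG.smul _ _ _ hs ha, hG.conj a _ ha hs, hG.smul _ _ _ ha ha, map_mul,
      ← hG.conj a a ha ha]
    simp
  have e1 : G₁ ((u k : M → Fib N) - h) ((u k : M → Fib N) - h) =
      G₁ (T - (u k : M → Fib N)) (T - (u k : M → Fib N)) := by
    have e : (u k : M → Fib N) - h = -(T - (u k : M → Fib N)) + (T - h) := by abel
    have hs : SmS n (-(T - (u k : M → Fib N))) := by
      have := crungea_smul hTu (-1)
      rwa [neg_one_smul] at this
    rw [e, hG₁.add_null hs (crungea_sub hT hhs) hTh0, hneg hG₁ _ hTu]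
  have e2 : G₂ (u k : M → Fib N) (u k : M → Fib N) =
      G₂ (T - (u k : M → Fib N)) (T - (u k : M → Fib N)) := by
    have e : (u k : M → Fib N) = -(T - (u k : M → Fib N)) + T := by abel
    have hs : SmS n (-(T - (u k : M → Fib N))) := by
      have := crungea_smul hTu (-1)
      rwa [neg_one_smul] at this
    have h1 : G₂ (-(T - (u k : M → Fib N)) + T) (-(T - (u k : M → Fib N)) + T) =
        G₂ (T - (u k : M → Fib N)) (T - (u k : M → Fib N)) := by
      rw [hG₂.add_null hs hT hTW0, hneg hG₂ _ hTu]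
    rwa [← e] at h1
  rw [e1, e2]
  exact hk3

end Vale.Agent.P088.EYM.O

end
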