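import Vale.Agent.P088.H5.LB2_332
import Vale.Agent.P088.H5.LE332
import Vale.Agent.P088.H5.LR849
import Vale.Agent.P088.H5.LL435
import Vale.Agent.P088.H5.LD779
import Vale.Agent.P088.H5.LG590
import Vale.Agent.P088.H5.LC275
import Vale.Agent.P088.H5.Clos

/-!
# P088, Theorem L, closed
-/

namespace Vale.Agent.P088.EYM.O

universe u

/-- Theorem L, abstract form. -/
theorem lL_closed : LL_statement.{u} := lL (lR H332.lB) ld lE (lg lC) m8

end Vale.Agent.P088.EYM.O
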