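import Vale.Agent.P088.H5.M0849
import Vale.Agent.P088.H5.Calc

/-!
# P088, Theorem M+: scalar functions times a parallel unit section
-/

set_option linter.all false

open Bundle Manifold MeasureTheory Set Filter Topology
open scoped ContDiff Matrix

noncomputable section

namespace Vale.Agent.P088.EYM.O

open Vale.Agent.P088 Vale.Agent.P088.EYM

universe u

section

variable {n N : ℕ} [NeZero n] {M : Type u} [TopologicalSpace M]
  [ChartedSpace (EuclideanHalfSpace n) M] [IsManifold (𝓡∂ n) ∞ M]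

/-- `e` is a parallel section. -/
structure Par (A : Connection (𝓡∂ n) N M) (e : M → Fib N) : Prop where
  sm : SmS n e
  par : ∀ (x : M) (X : TangentSpace (𝓡∂ n) x), cov A e x X = 0

theorem smS_mul {w : M → ℝ} (hw : SmR n w) {u : M → Fib N} (hu : SmS n u) :
    SmS n (fun x => (w x : ℂ) • u x) := by
  have h : ContMDiff (𝓡∂ n) 𝓘(ℝ, Fib N) ∞ (fun x => w x • u x) := ContMDiff.smul hw hu
  have e : (fun x => (w x : ℂ) • u x) = fun x => w x • u x := by
    funext x
    exact Complex.coe_smul (w x) (u x)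
  rw [e]
  exact h

/-- The product rule. -/
theorem covI_mul (A : Connection (𝓡∂ n) N M) {w : M → ℝ} (hw : SmR n w) {u : M → Fib N}
    (hu : SmS n u) (x : M) (a : EuclideanSpace ℝ (Fin n)) :
    covI A (fun x => (w x : ℂ) • u x) x a =
      ((dI (𝓡∂ n) w x a : ℝ) : ℂ) • u x + (w x : ℂ) • covI A u x a := by
  have h1 := hasD (hw.mdifferentiableAt (x := x) (by simp))
  have h2 := hasD (hu.mdifferentiableAt (x := x) (by simp))
  have h3 := h1.smul h2
  have h4 : dI (𝓡∂ n) (fun x => (w x : ℂ) • u x) x = _ :=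
    dI_eq_of (u := fun x => (w x : ℂ) • u x) ((smS_mul hw hu).mdifferentiableAt (by simp)) (by
      refine h3.congr_of_eventuallyEq (Eventually.of_forall fun y => ?_) ?_
      · exact Complex.coe_smul (w _) (u _)
      · exact Complex.coe_smul (w _) (u _))
  rw [covI_eq, h4, covI_eq, (A.form x a).map_smul]
  simp only [lu_self, _root_.add_apply, ContinuousLinearMap.smulRight_apply, _root_.smul_apply,
    smul_add, Complex.coe_smul]
  abel

theorem dI_inner (A : Connection (𝓡∂ n) N M) {e u : M → Fib N} (he : Par A e)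
    (hu : SmS n u) (x : M) (a : EuclideanSpace ℝ (Fin n)) :
    dI (𝓡∂ n) (fun y => inner ℂ (e y) (u y)) x a = inner ℂ (e x) (covI A u x a) := by
  have h1 := hasD (he.sm.mdifferentiableAt (x := x) (by simp))
  have h2 := hasD (hu.mdifferentiableAt (x := x) (by simp))
  have h3 := h1.inner ℂ h2
  have hsm : ContMDiff (𝓡∂ n) 𝓘(ℝ, ℂ) ∞ (fun y => inner ℂ (e y) (u y)) := 
    (contDiff_inner (𝕜 := ℂ) (E := Fib N)).contMDiff.comp (ContMDiff.prodMk_space he.sm hu)
  have h4 := dI_eq_of (u := fun y => inner ℂ (e y) (u y)) (hsm.mdifferentiableAt (by simp)) h3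
  have h5 : dI (𝓡∂ n) e x a = -(A.form x a (e x)) := by
    have h6 : covI A e x a = 0 := he.par x a
    rw [covI_eq] at h6
    exact eq_neg_of_add_eq_zero_left h6
  rw [h4, covI_eq]
  simp only [ContinuousLinearMap.comp_apply, ContinuousLinearMap.prod_apply, fderivInnerCLM_apply,
    lu_self]
  rw [h5, inner_neg_left, inner_add_right]
  have h7 := A.skew x a
  have h8 : inner ℂ (A.form x a (e x)) (u x) = -inner ℂ (e x) (A.form x a (u x)) := by
    rw [← ContinuousLinearMap.adjoint_inner_right, h7, ContinuousLinearMap.neg_apply,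
      inner_neg_right]
  rw [h8]
  ring

theorem smC_inner {e u : M → Fib N} (he : SmS n e) (hu : SmS n u) :
    ContMDiff (𝓡∂ n) 𝓘(ℝ, ℂ) ∞ (fun y => inner ℂ (e y) (u y)) :=
  (contDiff_inner (𝕜 := ℂ) (E := Fib N)).contMDiff.comp (ContMDiff.prodMk_space he hu)

/-- `Re ⟨e, u⟩` and `Im ⟨e, u⟩`. -/
def reI (e u : M → Fib N) (y : M) : ℝ := (inner ℂ (e y) (u y)).re
def imI (e u : M → Fib N) (y : M) : ℝ := (inner ℂ (e y) (u y)).im

theorem smR_reI {e u : M → Fib N} (he : SmS n e) (hu : SmS n u) : SmR n (reI e u) :=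
  smR_clm Complex.reCLM (smC_inner he hu)

theorem smR_imI {e u : M → Fib N} (he : SmS n e) (hu : SmS n u) : SmR n (imI e u) :=
  smR_clm Complex.imCLM (smC_inner he hu)

theorem dd_reI (A : Connection (𝓡∂ n) N M) {e u : M → Fib N} (he : Par A e) (hu : SmS n u) (x : M)
    (i : Fin n) : dd (reI e u) x i = (inner ℂ (e x) (covI A u x (es n i))).re := by
  have h := dI_clm Complex.reCLM (smC_inner he.sm hu) x
  have h2 : dI (𝓡∂ n) (reI e u) x = Complex.reCLM ∘L dI (𝓡∂ n) (fun y => inner ℂ (e y) (u y)) x := h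
  rw [dd_eq, h2, ContinuousLinearMap.comp_apply, dI_inner A he hu]
  rfl

theorem dd_imI (A : Connection (𝓡∂ n) N M) {e u : M → Fib N} (he : Par A e) (hu : SmS n u) (x : M)
    (i : Fin n) : dd (imI e u) x i = (inner ℂ (e x) (covI A u x (es n i))).im := by
  have h := dI_clm Complex.imCLM (smC_inner he.sm hu) x
  have h2 : dI (𝓡∂ n) (imI e u) x = Complex.imCLM ∘L dI (𝓡∂ n) (fun y => inner ℂ (e y) (u y)) x := h
  rw [dd_eq, h2, ContinuousLinearMap.comp_apply, dI_inner A he hu]
  rfl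

theorem covI_par (A : Connection (𝓡∂ n) N M) {w : M → ℝ} (hw : SmR n w) {e : M → Fib N}
    (he : Par A e) (x : M) (i : Fin n) :
    covI A (fun x => (w x : ℂ) • e x) x (es n i) = ((dd w x i : ℝ) : ℂ) • e x := by
  have h : covI A e x (es n i) = 0 := he.par x (es n i)
  rw [covI_mul A hw he.sm, h, smul_zero, add_zero, dd_eq]

theorem pairing_par (g : Metric (𝓡∂ n) M) (A : Connection (𝓡∂ n) N M) {w : M → ℝ}
    (hw : SmR n w) {e u : M → Fib N} (he : Par A e) (hu : SmS n u) (x : M) :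
    pairing g A (fun x => (w x : ℂ) • e x) u x =
      ((gp g w (reI e u) x : ℝ) : ℂ) + ((gp g w (imI e u) x : ℝ) : ℂ) * Complex.I := by
  rw [pairing_eq_rp]
  unfold rp gp
  push_cast
  rw [Finset.sum_mul, ← Finset.sum_add_distrib]
  refine Finset.sum_congr rfl fun i _ => ?_
  rw [Finset.sum_mul, ← Finset.sum_add_distrib]
  refine Finset.sum_congr rfl fun j _ => ?_
  rw [covI_par A hw he, inner_smul_left, Complex.conj_ofReal, dd_reI A he hu, dd_imI A he hu,
    Complex.real_smul]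
  have h := Complex.re_add_im (inner ℂ (e x) (covI A u x (es n j)))
  linear_combination (-(((gram g x x)⁻¹ i j : ℝ) : ℂ) * ((dd w x i : ℝ) : ℂ)) * h

theorem pairing_par_par (g : Metric (𝓡∂ n) M) (A : Connection (𝓡∂ n) N M) {a b : M → ℝ}
    (ha : SmR n a) (hb : SmR n b) {e : M → Fib N} (he : Par A e) {x : M} (h1 : ‖e x‖ = 1) :
    pairing g A (fun x => (a x : ℂ) • e x) (fun x => (b x : ℂ) • e x) x =
      ((gp g a b x : ℝ) : ℂ) := by
  rw [pairing_eq_rp]
  unfold rp gp
  push_cast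
  refine Finset.sum_congr rfl fun i _ => Finset.sum_congr rfl fun j _ => ?_
  rw [covI_par A ha he, covI_par A hb he, inner_smul_left, inner_smul_right, Complex.conj_ofReal,
    inner_self_eq_norm_sq_to_K, h1, Complex.real_smul]
  simp

/-- A parallel section has constant norm. -/
theorem Par.norm [ConnectedSpace M] {A : Connection (𝓡∂ n) N M} {e : M → Fib N} (he : Par A e) :
    ∀ x y : M, ‖e x‖ = ‖e y‖ := by
  obtain ⟨hIo, hIc, hd⟩ := TM.fConn n M
  have h0 : ∀ x ∈ Mi n M, ∀ X : TangentSpace (𝓡∂ n) x,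
      dmap (𝓡∂ n) (fun y => inner ℂ (e y) (e y)) x X = 0 := by
    intro x _ X
    have h1 := dI_inner A he he.sm x X
    have h2 : covI A e x X = 0 := he.par x X
    rw [h2, inner_zero_right] at h1
    exact h1
  have h3 := const_of_dmap (smC_inner he.sm he.sm).contMDiffOn h0
  have h4 : ∀ x ∈ Mi n M, ∀ y ∈ Mi n M, ‖e x‖ = ‖e y‖ := by
    intro x hx y hy
    have h5 := h3 x hx y hy
    simp only [inner_self_eq_norm_sq_to_K] at h5
    have h6 : ‖e x‖ ^ 2 = ‖e y‖ ^ 2 := by exact_mod_cast h5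
    exact (pow_left_inj₀ (norm_nonneg _) (norm_nonneg _) two_ne_zero).1 h6
  have hc : Continuous fun x => ‖e x‖ := he.sm.continuous.norm
  obtain ⟨x0, hx0⟩ : (Mi n M).Nonempty := by
    obtain ⟨x⟩ : Nonempty M := inferInstance
    exact closure_nonempty_iff.1 ⟨x, hd x⟩
  have h7 : ∀ x : M, ‖e x‖ = ‖e x0‖ := by
    intro x
    have hcl : IsClosed {x : M | ‖e x‖ = ‖e x0‖} := isClosed_eq hc continuous_const
    exact hcl.closure_subset_iff.2 (fun y hy => h4 y hy x0 hx0) (hd x)
  intro x y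
  rw [h7 x, h7 y]

variable [T2Space M] [CompactSpace M] [MeasurableSpace M] [BorelSpace M]

/-- `w e` is harmonic. -/
theorem harm_par (P : One n N M) {w : M → ℝ} {e : M → Fib N} (he : Par P.A e) (hw : Wk P w) :
    P.Harm (fun x => (w x : ℂ) • e x) (fun x => (w x : ℂ) • e x) := by
  refine ⟨smS_mul hw.sm he.sm, fun _ _ => rfl, fun φ hφ h0 => ?_⟩
  unfold energy
  have hr : SmR n (reI e φ) := smR_reI he.sm hφ
  have hi : SmR n (imI e φ) := smR_imI he.sm hφ
  have e1 := hw.weak _ hr (fun x hx => by rw [reI, h0 x hx, inner_zero_right]; rfl)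
  have e2 := hw.weak _ hi (fun x hx => by rw [imI, h0 x hx, inner_zero_right]; rfl)
  simp only [pairing_par P.g P.A hw.sm he hφ]
  rw [integral_add (gp_int P hw.sm hr).ofReal ((gp_int P hw.sm hi).ofReal.mul_const _),
    integral_mul_const, integral_complex_ofReal, integral_complex_ofReal, e1, e2]
  simp

theorem energy_par (P : One n N M) {w : M → ℝ} {e : M → Fib N} (he : Par P.A e) (hw : SmR n w)
    (h1 : ∀ x, ‖e x‖ = 1) :
    P.E (fun x => (w x : ℂ) • e x) (fun x => (w x : ℂ) • e x) =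
      ((∫ x, gp P.g w w x ∂P.μ : ℝ) : ℂ) := by
  unfold One.E energy
  simp only [pairing_par_par P.g P.A hw hw he (h1 _)]
  exact integral_complex_ofReal

theorem ex_par (P : One n N M) {Γ : Set M} {φ : M → ℝ} {e : M → Fib N} (he : Par P.A e)
    (h1 : ∀ x, ‖e x‖ = 1) (hΓ : P.HasSol Γ) (hφ : SmR n φ) (hs : Spt n Γ φ) :
    ∃ w, Wk P w ∧ ∀ x ∈ (𝓡∂ n).boundary M, w x = φ x := by
  have hf : IsBdryData (𝓡∂ n) Γ (fun x => (φ x : ℂ) • e x) := by
    refine ⟨smS_mul hφ he.sm, ?_⟩
    refine (closure_mono ?_).trans hs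
    rintro x ⟨hx, hx'⟩
    refine ⟨hx, fun h => hx' ?_⟩
    simp only [h, Complex.ofReal_zero, zero_smul]
  obtain ⟨u, hu⟩ := hΓ _ hf
  refine ⟨reI e u, ⟨smR_reI he.sm hu.smooth, fun ψ hψ h0 => ?_⟩, fun x hx => ?_⟩
  · have h2 := hu.weak (fun x => (ψ x : ℂ) • e x) (smS_mul hψ he.sm)
      (fun x hx => by simp [h0 x hx])
    have h2 := congrArg Complex.re h2
    unfold energy at h2
    rw [Complex.zero_re] at h2
    have hsw : ∀ x, pairing P.g P.A u (fun x => (ψ x : ℂ) • e x) x =
        (starRingEnd ℂ) (pairing P.g P.A (fun x => (ψ x : ℂ) • e x) u x) := fun x =>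
      cForm_pairing_conj P.g P.A _ _ x
    have hint : Integrable (pairing P.g P.A u (fun x => (ψ x : ℂ) • e x)) P.μ := by
      have := (TM.fInt n N M P).1
      exact integrable_of_continuous (continuous_pairing P.g P.A hu.smooth (smS_mul hψ he.sm))
    have h3 : (∫ x, pairing P.g P.A u (fun x => (ψ x : ℂ) • e x) x ∂P.μ).re =
        ∫ x, (pairing P.g P.A u (fun x => (ψ x : ℂ) • e x) x).re ∂P.μ :=
      (integral_re (𝕜 := ℂ) hint).symm
    rw [h3] at h2
    rw [← h2]
    refine integral_congr_ae (Eventually.of_forall fun x => ?_)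
    simp only
    rw [hsw, Complex.conj_re, pairing_par P.g P.A hψ he hu.smooth]
    have h4 : gp P.g (reI e u) ψ x = gp P.g ψ (reI e u) x := by
      unfold gp
      rw [Finset.sum_comm]
      refine Finset.sum_congr rfl fun i _ => Finset.sum_congr rfl fun j _ => ?_
      rw [gram_inv_symm P.g x j i]
      ring
    rw [h4]
    simp
  · rw [reI, hu.boundary x hx, inner_smul_right, inner_self_eq_norm_sq_to_K, h1]
    simp

end

end Vale.Agent.P088.EYM.O

end
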