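import Vale.Agent.P088.H5.LB1_332

/-!
# P088, Theorem L, block LB, part 2: the commutator
-/

set_option linter.all false

open Bundle Manifold MeasureTheory Set Filter Topology
open scoped ContDiff Matrix

noncomputable section

namespace Vale.Agent.P088.EYM.O.H332

open Vale.Agent.P088 Vale.Agent.P088.EYM

universe u

/-- (LB2) -/
theorem lb2 (n N : ℕ) [NeZero n] (M : Type u) [TopologicalSpace M]
    [ChartedSpace (EuclideanHalfSpace n) M] [IsManifold (𝓡∂ n) ∞ M] [T2Space M] [CompactSpace M]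
    [ConnectedSpace M] [MeasurableSpace M] [BorelSpace M] (P : One n N M) (W : Set M) (x : M)
    (R ρ : ℝ) (hR : IsCB n x R) (hρ : 0 < ρ) (hρR : ρ < R)
    (hdis : Disjoint (cb n x R) W) (w : ℕ → M → Fib N) (hw : ∀ k, SmS n (w k))
    (hZ : ∀ K : Set (E n), IsCompact K →
      K ⊆ Metric.ball (xc n x x) R \ Metric.closedBall (xc n x x) ρ →
      Tendsto (fun k => ∫ y in K, ‖lu (𝓡∂ n) x (w k) y‖ ^ 2) atTop (𝓝 0))
    (f h : M → Fib N) (hh : P.Harm f h) : ∃ φ : M → Fib N, SmS n φ ∧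
      (∀ y ∈ (𝓡∂ n).boundary M, φ y = 0) ∧ tsupport φ ⊆ Wᶜ ∧
      tsupport (φ - h) ⊆ (cb n x ρ)ᶜ ∧ Tendsto (fun k => P.E (w k) φ) atTop (𝓝 0) := by
  have hLoc := TM.fLoc.{u}
  obtain ⟨l1, l2, l3, l4⟩ := hLoc n N M
  set z := xc n x x with hz
  set D := Metric.ball z R with hDdef
  set L := P.loc x with hLdef
  have hR0 : 0 < R := hR.1
  have hDt : D ⊆ tg n x := fun y hy => (hR.2 (Metric.ball_subset_closedBall hy)).1
  have hpos : D ⊆ {y | 0 < y 0} := fun y hy => (hR.2 (Metric.ball_subset_closedBall hy)).2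
  have hDH : D ⊆ Hs n := fun y hy => le_of_lt (show (0 : ℝ) < y 0 from hpos hy)
  have hD : RelOpen D := ⟨D, Metric.isOpen_ball, (inter_eq_self_of_subset_left hDH).symm⟩
  have hLok : L.Ok D := CRungeC_ok_mono (l2 P x) hDt
  have hg : ∀ j k, ContDiffOn ℝ ∞ (gg L.g j k) D := fun j k => (CRungeC_gg_loc P x j k).mono hDt
  have hh1 : ∀ y ∈ D, L.h y = 1 := fun y _ => rfl
  have hc : ∀ k, ContDiffOn ℝ 1 (lu (𝓡∂ n) x (w k)) D := fun k =>
    ((l4 (w k) (hw k) x).mono hDt).of_le (by exact_mod_cast le_top)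
  have hhs : ContDiffOn ℝ ∞ (lu (𝓡∂ n) x h) D := (l4 h hh.smooth x).mono hDt
  have hsol : ∀ y ∈ D, Lop L (lu (𝓡∂ n) x h) y = 0 := fun y hy =>
    (TM.fHarm n N M P f h hh x).2 y (hDt hy)
  obtain ⟨ρ₁, hρ₁, hρ₁R⟩ := exists_between hρR
  obtain ⟨ρ₂, hρ₂, hρ₂R⟩ := exists_between hρ₁R
  let χ : ContDiffBump z := ⟨ρ₁, ρ₂, hρ.trans hρ₁, hρ₂⟩
  set φ : E n → Fib N := fun y => χ y • lu (𝓡∂ n) x h y with hφdef
  have hφD : ContDiffOn ℝ ∞ φ D := (χ.contDiff.contDiffOn).smul hhs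
  have hφ0 : ∀ y, y ∉ Metric.ball z ρ₂ → φ y = 0 := by
    intro y hy
    have h1 : χ y = 0 := by
      have h2 : y ∉ Function.support χ := by rw [χ.support_eq]; exact hy
      simpa using h2
    rw [hφdef]
    simp only [h1, zero_smul]
  have hφv : ∀ y ∈ Metric.closedBall z ρ₁, φ y = lu (𝓡∂ n) x h y := by
    intro y hy
    rw [hφdef]
    simp only
    rw [χ.one_of_mem_closedBall hy, one_smul]
  have hb₁ : Metric.ball z ρ₁ ⊆ D := Metric.ball_subset_ball hρ₁R.le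
  have hLφ : ∀ y ∈ Metric.ball z ρ₁, Lop L φ y = 0 := by
    intro y hy
    have h1 : RelOpen (Metric.ball z ρ₁) := ⟨Metric.ball z ρ₁, Metric.isOpen_ball,
      (inter_eq_self_of_subset_left (hb₁.trans hDH)).symm⟩
    rw [CRungeC_Lop_congr h1 (fun y' hy' => hφv y' (Metric.ball_subset_closedBall hy')) hy]
    exact hsol y (hb₁ hy)
  have hcD : Metric.closedBall z ρ₂ ⊆ D := Metric.closedBall_subset_ball hρ₂R
  obtain ⟨Φ, hΦ, hΦ1, hΦ2, hΦ3⟩ := TM.fExt n N M x φ D (Metric.closedBall z ρ₂) hD hDt hφD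
    (isCompact_closedBall z ρ₂) hcD
    (fun y _ hy => hφ0 y fun h' => hy (Metric.ball_subset_closedBall h'))
  have hcb : (xc n x).symm '' Metric.closedBall z ρ₂ ⊆ cb n x R :=
    image_mono (Metric.closedBall_subset_closedBall hρ₂R.le)
  have hcm : cb n x R ⊆ Mi n M := cRungeB_cb_mi hLoc hR
  refine ⟨Φ, hΦ, fun y hy => hΦ2 y fun h' => ?_, fun y hy => ?_, ?_, ?_⟩
  · rw [← ModelWithCorners.compl_interior] at hy
    exact hy (hcm (hcb h'))
  · exact fun hyW => disjoint_left.1 hdis (hcb (hΦ3 hy)) hyW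
  · have hU : IsOpen ((xc n x).symm '' Metric.ball z ρ₁) :=
      cRungeB_open hLoc x ⟨_, Metric.isOpen_ball, (inter_eq_left.2 (hb₁.trans hDH)).symm⟩
        (hb₁.trans hDt)
    have h1 : tsupport (Φ - h) ⊆ ((xc n x).symm '' Metric.ball z ρ₁)ᶜ := by
      refine closure_minimal ?_ hU.isClosed_compl
      rintro m hm ⟨y, hy, rfl⟩
      refine hm ?_
      rw [Pi.sub_apply, hΦ1 y (hb₁ hy), hφv y (Metric.ball_subset_closedBall hy)]
      exact sub_self _
    refine h1.trans (compl_subset_compl.2 ?_)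
    exact image_mono (Metric.closedBall_subset_ball hρ₁)
  · have hEk : ∀ k, P.E (w k) Φ = En L D (lu (𝓡∂ n) x (w k)) φ := by
      intro k
      rw [(TM.fEn n N M P x D hD hDt).1 (w k) Φ (hw k) hΦ (Or.inr (hΦ3.trans (image_mono hcD)))]
      exact cRungeB_En_congr _ hD _ fun y hy => hΦ1 y hy
    simp only [hEk]
    obtain ⟨C₃, hC₃, hgreen⟩ := CRungeC_green aGreen (ρ₁ := ρ₁) hR0 hρ₂R hpos hLok hg hh1
      (hφD.of_le (by norm_cast)) (fun y _ hy => hφ0 y hy) hLφ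
    have hK₀ : Metric.closedBall z ρ₂ \ Metric.ball z ρ₁ ⊆
        Metric.ball z R \ Metric.closedBall z ρ := by
      intro y hy
      refine ⟨Metric.closedBall_subset_ball hρ₂R hy.1, fun h' => hy.2 ?_⟩
      exact Metric.closedBall_subset_ball hρ₁ h'
    have hZ' := hZ _ ((isCompact_closedBall z ρ₂).diff Metric.isOpen_ball) hK₀
    rw [Metric.tendsto_atTop]
    intro ε hε
    set t : ℝ := ε / (2 * (C₃ + 1)) with ht
    have ht0 : 0 < t := by positivity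
    have htε : t * (C₃ + 1) = ε / 2 := by
      rw [ht]; field_simp
    have h1 : Tendsto (fun k => C₃ * (t⁻¹ * ∫ y in Metric.closedBall z ρ₂ \ Metric.ball z ρ₁,
        ‖lu (𝓡∂ n) x (w k) y‖ ^ 2)) atTop (𝓝 (C₃ * (t⁻¹ * 0))) :=
      (hZ'.const_mul t⁻¹).const_mul C₃
    rw [mul_zero, mul_zero] at h1
    obtain ⟨k₁, hk₁⟩ := Metric.tendsto_atTop.1 h1 (ε / 2) (by positivity)
    refine ⟨k₁, fun k hk => ?_⟩
    have h2 := hk₁ k hk
    rw [dist_zero_right] at h2 ⊢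
    have h3 := hgreen _ (hc k) t ht0
    have h4 := (le_abs_self _).trans_lt h2
    refine h3.trans_lt ?_
    rw [mul_add]
    nlinarith

theorem lB : LB_statement.{u} := by
  intro n N _ M _ _ _ _ _ _ _ _ P Γ W x R ρ hΓ hW hR hρ hρR hdis hconn hne w hw hw0 hcE hcL hlim
    f h hh
  exact lb2 n N M P W x R ρ hR hρ hρR hdis w hw
    (lb1 n N M P Γ W x R ρ hΓ hW hR hρ hρR hdis hconn hne w hw hw0 hcE hcL hlim) f h hh

end Vale.Agent.P088.EYM.O.H332

end
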