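import Vale.Agent.P088.TM.Fin2

/-!
# P088: the data of a pair and of its transforms (elementary form)
-/

open Bundle Manifold MeasureTheory Set Filter
open scoped ContDiff Matrix Topology ENNReal

noncomputable section

set_option linter.all false

namespace Vale.Agent.P088.B

open Vale.Agent.P088 Vale.Agent.P088.B2

universe u

variable {n : ℕ} [NeZero n] {N : ℕ} {M : Type u} [TopologicalSpace M]
  [ChartedSpace (EuclideanHalfSpace n) M] [IsManifold (𝓡∂ n) ∞ M] [T2Space M] [CompactSpace M]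
  [ConnectedSpace M]

theorem harm_unique {P : Pair (at_ n M) N} (hbd : ((𝓡∂ n).boundary M).Nonempty)
    {f u u' : M → Fin N → ℂ} (h : Harm P f u) (h' : Harm P f u') : u = u' := by
  letI := borel M
  haveI : BorelSpace M := ⟨rfl⟩
  have h1 := (TM.fUniq n N M (B2.one P) hbd).1 _ _ _ _ (harm_one h) (harm_one h') fun _ _ => rfl
  funext x a
  exact congrArg (fun v : Fib N => v a) (congrFun h1 x)

/-- If `P'` is the transform of `P` by a diffeomorphism and a gauge which are trivial on `Γ`, then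
`P'` and `P` have the same data. -/
theorem same_related (Z : At n M) (hZ : Z = at_ n M) {Γ O : Set M} (hO : IsOpen O)
    (hΓ : Γ = O ∩ bd Z) (hne : Γ.Nonempty) {P P' Q : Pair Z N} (hR : Related Γ P P')
    (hS : SameData Γ P Q) : SameData Γ P' Q := by
  subst hZ
  have hbd : ((𝓡∂ n).boundary M).Nonempty := by
    obtain ⟨x, hx⟩ := hne
    rw [hΓ, bd_at] at hx
    exact ⟨x, hx.2⟩
  have hsol : ∀ f, Data (at_ n M) Γ f → ∃ u, Harm P f u := by
    intro f hf
    obtain ⟨u, -, -, -, hu, -⟩ := hS f f hf hf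
    exact ⟨u, hu⟩
  have hcorr : ∀ f : M → Fin N → ℂ, Data (at_ n M) Γ f → Corr (at_ n M) (at_ n M) Γ Γ id f f := fun f hf =>
    ⟨hf, hf, fun _ _ => rfl⟩
  have hψ : Iden N (at_ n M) (at_ n M) Γ Γ id :=
    ⟨bijOn_id Γ, fun f hf => ⟨f, hcorr f hf⟩, fun f hf => ⟨f, hcorr f hf⟩⟩
  obtain ⟨Φ, Ψ, U, h1, h2, h3, h4, h5, h6, h7⟩ := hR
  have hrel : Rel₂ Γ id P P' Φ Ψ U :=
    ⟨h1, h2, fun x => (h3 x).1, fun x => (h3 x).2, h4, h5, h6, h7⟩
  have hPP := rel_same (at_ n M) rfl (at_ n M) rfl Γ O hO hΓ hne Γ O hO hΓ id hψ P P' hsol hrel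
  intro f h hf hh
  obtain ⟨u, v, u', v', a1, a2, a3, a4, a5⟩ := hPP f f h h (hcorr f hf) (hcorr h hh)
  obtain ⟨c, d, c', d', b1, b2, b3, b4, b5⟩ := hS f h hf hh
  refine ⟨u', v', c', d', a3, a4, b3, b4, ?_⟩
  rw [← a5, harm_unique hbd a1 b1, harm_unique hbd a2 b2, b5]

end Vale.Agent.P088.B
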