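import Vale.Agent.P088.H5.Br
import Vale.Agent.P088.H5.Inv332

/-!
# P088: composition of a transform of a pair with a change of gauge (elementary form)
-/

open Bundle Manifold MeasureTheory Set Filter
open scoped ContDiff Matrix Topology ENNReal

noncomputable section

set_option linter.all false

namespace Vale.Agent.P088.B

open Vale.Agent.P088

universe u

variable {n : ℕ} [NeZero n] {N : ℕ} {M : Type u} [TopologicalSpace M]
  [ChartedSpace (EuclideanHalfSpace n) M] [IsManifold (𝓡∂ n) ∞ M] [T2Space M] [CompactSpace M]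
  [ConnectedSpace M]

/-- Product rule. -/
theorem dM_mul {U V : M → Matrix (Fin N) (Fin N) ℂ}
    (h4 : ∀ a, Sm (at_ n M) (fun x => U x a)) (h5 : ∀ x, (U x)ᴴ * U x = 1)
    (k1 : ∀ a, Sm (at_ n M) (fun x => V x a)) (k2 : ∀ x, (V x)ᴴ * V x = 1) (x : M) (j : Fin n) :
    dM (fun y => U (pt (at_ n M) x y) * V (pt (at_ n M) x y)) ((at_ n M).ch x x) j =
      dM (fun y => U (pt (at_ n M) x y)) ((at_ n M).ch x x) j * V x +
        U x * dM (fun y => V (pt (at_ n M) x y)) ((at_ n M).ch x x) j := by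
  letI := borel M
  haveI : BorelSpace M := ⟨rfl⟩
  have hU := isSmU_toE h4 h5
  have hV := isSmU_toE k1 k2
  have hFG : IsSmoothUnitary (𝓡∂ n) (fun x => S.toE (U x) * S.toE (V x)) :=
    ⟨contMDiff_bilin isBB_mul hU.smooth hV.smooth, fun x => mul_mem (hU.unitary x) (hV.unitary x)⟩
  have e1 := toE_dM hU x j
  have e2 := toE_dM hV x j
  have e3 := toE_dM hFG x j
  have e4 : dI (𝓡∂ n) (fun x => S.toE (U x) * S.toE (V x)) x (es n j) =
      S.toE (U x) * dI (𝓡∂ n) (fun x => S.toE (V x)) x (es n j) +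
        dI (𝓡∂ n) (fun x => S.toE (U x)) x (es n j) * S.toE (V x) :=
    dI_bilin isBB_mul hU.smooth hV.smooth x (es n j)
  simp only [S.ofE_toE] at e1 e2
  have e5 : (fun y => S.ofE (S.toE (U (pt (at_ n M) x y)) * S.toE (V (pt (at_ n M) x y)))) =
      fun y => U (pt (at_ n M) x y) * V (pt (at_ n M) x y) := by
    funext y
    rw [← S.toE_mul, S.ofE_toE]
  rw [e5] at e3
  apply S.toE_inj
  rw [e3, e4, S.toE_add, S.toE_mul, S.toE_mul, e1, e2, add_comm]

/-- If `P'` is a transform of `P`, and `Q` is `P'` up to a change of gauge, then `Q` is a transform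
of `P`. -/
theorem related_gauge {Γ : Set M} {P P' Q : Pair (at_ n M) N} (hR : Related Γ P P')
    (hG : GaugeEq Γ P'.A Q.A (at_ n M)) (hg : Q.g = P'.g) : Related Γ P Q := by
  obtain ⟨Φ, Ψ, U, h1, h2, h3, h4, h5, h6, h7⟩ := hR
  obtain ⟨V, k1, k2, k3, k4⟩ := hG
  letI := borel M
  haveI : BorelSpace M := ⟨rfl⟩
  have hU := isSmU_toE h4 h5
  have hV := isSmU_toE k1 k2
  have hFG : IsSmoothUnitary (𝓡∂ n) (fun x => S.toE (U x) * S.toE (V x)) :=
    ⟨contMDiff_bilin isBB_mul hU.smooth hV.smooth, fun x => mul_mem (hU.unitary x) (hV.unitary x)⟩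
  have huv : (fun x => S.ofE (S.toE (U x) * S.toE (V x))) = fun x => U x * V x := by
    funext y
    rw [← S.toE_mul, S.ofE_toE]
  refine ⟨Φ, Ψ, fun x => U x * V x, h1, h2, h3, ?_, fun x => ?_, fun x hx => ?_, fun x => ?_⟩
  · have h8 := (S.uni_ofE hFG).1
    have h9 : ∀ x, S.ofE (S.toE (U x) * S.toE (V x)) = U x * V x := fun x => congrFun huv x
    intro a
    have h10 := h8 a
    simp only [h9] at h10
    exact h10
  · rw [Matrix.conjTranspose_mul, Matrix.mul_assoc, ← Matrix.mul_assoc (U x)ᴴ, h5 x,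
      Matrix.one_mul, k2 x]
  · refine ⟨(h6 x hx).1, ?_⟩
    show U x * V x = 1
    rw [(h6 x hx).2, k3 x hx, Matrix.one_mul]
  · intro J
    obtain ⟨h8, h9⟩ := h7 x
    refine ⟨?_, fun j => ?_⟩
    · rw [hg]
      exact h8
    · have h10 := k4 x j
      rw [h9 j] at h10
      rw [h10, dM_mul h4 h5 k1 k2 x j]
      have h11 := h5 x
      generalize dM (fun y => U (pt (at_ n M) x y)) ((at_ n M).ch x x) j = dU
      generalize dM (fun y => V (pt (at_ n M) x y)) ((at_ n M).ch x x) j = dV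
      rw [Matrix.conjTranspose_mul]
      have h12 : dV = (U x)ᴴ * (U x * dV) := by
        rw [← Matrix.mul_assoc, h11, Matrix.one_mul]
      conv_lhs => rw [h12]
      show (V x)ᴴ * ((U x)ᴴ * ((∑ i, J i j • P.A (Φ x) i) * U x + dU) * V x +
        (U x)ᴴ * (U x * dV)) = (V x)ᴴ * (U x)ᴴ * ((∑ i, J i j • P.A (Φ x) i) * (U x * V x) +
          (dU * V x + U x * dV))
      generalize (∑ i, J i j • P.A (Φ x) i) = B
      noncomm_ring

/-- Every pair is a transform of itself. -/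
theorem related_refl (Γ : Set M) (P : Pair (at_ n M) N) : Related Γ P P := by
  refine related_conv (S.bridge_related EYM.cChart
    ⟨Diffeomorph.refl (𝓡∂ n) M ∞, fun _ => 1, ⟨contMDiff_const, fun _ => one_mem _⟩,
      fun x _ => ⟨rfl, rfl⟩, fun x v w => ?_, fun x v => ?_⟩)
  · have h1 : mfderiv (𝓡∂ n) (𝓡∂ n) (Diffeomorph.refl (𝓡∂ n) M ∞) x =
        ContinuousLinearMap.id ℝ (TangentSpace (𝓡∂ n) x) := mfderiv_id
    rw [h1]
    rfl
  · have h1 : mfderiv (𝓡∂ n) (𝓡∂ n) (Diffeomorph.refl (𝓡∂ n) M ∞) x =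
        ContinuousLinearMap.id ℝ (TangentSpace (𝓡∂ n) x) := mfderiv_id
    have h2 : dmap (𝓡∂ n) (fun _ : M => (1 : EndF N)) x v = 0 := by
      unfold dmap
      rw [mfderiv_const]
      rfl
    have h3 : ContinuousLinearMap.adjoint (1 : EndF N) = 1 := star_one (EndF N)
    unfold gaugeForm
    rw [h1, h2, h3]
    ext1 y
    simp
    rfl

end Vale.Agent.P088.B
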