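import Vale.Agent.P088.H5.BrLS275
import Vale.Agent.P088.H5.Rel332

/-!
# P088: cases of Question 1 for arbitrary smooth pairs, in its own (diffeomorphism invariant) form
-/

open Bundle Manifold MeasureTheory Set Filter
open scoped ContDiff Matrix Topology ENNReal

noncomputable section

set_option linter.all false

namespace Vale.Agent.P088.B5

open Vale.Agent.P088 Vale.Agent.P088.B

universe u

section

variable {n : ℕ} [NeZero n] {N : ℕ} {M : Type u} [TopologicalSpace M]
  [ChartedSpace (EuclideanHalfSpace n) M] [IsManifold (𝓡∂ n) ∞ M] [T2Space M] [CompactSpace M]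
  [ConnectedSpace M]

/-- Two gauge trivial connections are gauge equivalent. -/
theorem gauge_triv {Γ : Set M} {a b : M → Fin n → Matrix (Fin N) (Fin N) ℂ}
    (h1 : GaugeEq Γ 0 a (at_ n M)) (h2 : GaugeEq Γ 0 b (at_ n M)) :
    GaugeEq Γ a b (at_ n M) := by
  letI := borel M
  haveI : BorelSpace M := ⟨rfl⟩
  obtain ⟨V, hV, hV1, hV2⟩ := toGauge h1
  obtain ⟨V', hV', hV1', hV2'⟩ := toGauge h2
  have hst : IsSmoothUnitary (𝓡∂ n) (fun x => ContinuousLinearMap.adjoint (V x)) :=
    ⟨contMDiff_adj hV.smooth, fun x => Unitary.star_mem (hV.unitary x)⟩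
  have hFG : IsSmoothUnitary (𝓡∂ n) (fun x => ContinuousLinearMap.adjoint (V x) * V' x) :=
    ⟨contMDiff_bilin isBB_mul hst.smooth hV'.smooth,
      fun x => mul_mem (hst.unitary x) (hV'.unitary x)⟩
  refine ofGauge hFG (fun x hx => ?_) fun x X => ?_
  · show ContinuousLinearMap.adjoint (V x) * V' x = 1
    rw [hV1 x hx, hV1' x hx, mul_one]
    exact star_one (EndF N)
  · have e1 : S.formOf (a x) X = ContinuousLinearMap.adjoint (V x) * dI (𝓡∂ n) V x X := by
      refine (hV2 x X).trans ?_
      rw [show (0 : M → Fin n → Matrix (Fin N) (Fin N) ℂ) x = 0 from rfl, formOf_zero]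
      show ContinuousLinearMap.adjoint (V x) ∘L ((0 : EndF N) ∘L V x) + _ = _
      rw [ContinuousLinearMap.zero_comp, ContinuousLinearMap.comp_zero, zero_add]
      rfl
    have e2 : S.formOf (b x) X = ContinuousLinearMap.adjoint (V' x) * dI (𝓡∂ n) V' x X := by
      refine (hV2' x X).trans ?_
      rw [show (0 : M → Fin n → Matrix (Fin N) (Fin N) ℂ) x = 0 from rfl, formOf_zero]
      show ContinuousLinearMap.adjoint (V' x) ∘L ((0 : EndF N) ∘L V' x) + _ = _
      rw [ContinuousLinearMap.zero_comp, ContinuousLinearMap.comp_zero, zero_add]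
      rfl
    have e0 : ∀ Y : EuclideanSpace ℝ (Fin n),
        dI (𝓡∂ n) (fun x => ContinuousLinearMap.adjoint (V x) * V' x) x Y =
          ContinuousLinearMap.adjoint (V x) * dI (𝓡∂ n) V' x Y +
            ContinuousLinearMap.adjoint (dI (𝓡∂ n) V x Y) * V' x := fun Y => by
      rw [dI_mulE hst.smooth hV'.smooth x Y, dI_adj hV.smooth x Y]
    have e3 := e0 X
    have e4 := d_uni_right hV x X
    have e5 := uni_right hV x
    rw [e1, e2]
    show _ = ContinuousLinearMap.adjoint (ContinuousLinearMap.adjoint (V x) * V' x) *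
        ((ContinuousLinearMap.adjoint (V x) * dI (𝓡∂ n) V x X) *
          (ContinuousLinearMap.adjoint (V x) * V' x)) +
        ContinuousLinearMap.adjoint (ContinuousLinearMap.adjoint (V x) * V' x) *
          dI (𝓡∂ n) (fun x => ContinuousLinearMap.adjoint (V x) * V' x) x X
    rw [e3]
    simp only [← ContinuousLinearMap.star_eq_adjoint, star_mul, star_star] at e4 e5 ⊢
    generalize dI (𝓡∂ n) V x X = dV at e4 ⊢
    generalize dI (𝓡∂ n) V' x X = dW
    generalize V x = v at e4 e5 ⊢
    generalize V' x = w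
    have e7 : star w * (dV * star v) * w + star w * (v * star dV) * w = 0 := by
      rw [← add_mul, ← mul_add, add_comm, e4, mul_zero, zero_mul]
    calc star w * dW = (star w * (dV * star v) * w + star w * (v * star dV) * w) + star w * dW := by
          rw [e7, zero_add]
      _ = star w * (v * star v) * (dV * star v) * w +
          (star w * (v * star v) * dW + star w * (v * star dV) * w) := by
          rw [e5, mul_one]
          abel
      _ = _ := by noncomm_ring

/-- If `P` is a transform of `P₀`, and `Q` is `P` up to a change of gauge, then `Q` is a transform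
of `P₀`. -/
theorem related_of {Γ : Set M} {P₀ P Q : Pair (at_ n M) N} (hR : Related Γ P₀ P)
    {U : M → Matrix (Fin N) (Fin N) ℂ} (hG : GaugeBy U univ Γ P.A Q.A (at_ n M))
    (hg : Q.g = P.g) : Related Γ P₀ Q :=
  related_gauge hR ⟨U, hG.1, hG.2.1, hG.2.2.1, fun x j => hG.2.2.2 x (mem_univ x) j⟩ hg

end

/-- Question 1 holds for `P₀` and `Q` if, for some transform `P` of `P₀` (for instance `P₀`), the
connections of `P` and `Q` are gauge equivalent and their metrics piecewise ordered, or the
connection of `P` is gauge trivial and `s(P.g) ≤ s(Q.g)`. -/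
theorem q1_of {n N : ℕ} [NeZero n] (hn : 3 ≤ n) (hN : 1 ≤ N) {M : Type u}
    [TopologicalSpace M] [ChartedSpace (EuclideanHalfSpace n) M] [IsManifold (𝓡∂ n) ∞ M]
    [T2Space M] [CompactSpace M] [ConnectedSpace M] (Z : B.At n M) (hZ : Z = at_ n M)
    (Γ O : Set M) (hO : IsOpen O) (hΓ : Γ = O ∩ bd Z) (hne : Γ.Nonempty) (P₀ P Q : B.Pair Z N)
    (hS : B.SameData Γ P₀ Q) (hR : Related Γ P₀ P)
    (h : (PwLe univ Γ P Q ∧ ∃ U, GaugeBy U univ Γ P.A Q.A Z) ∨
      (Le univ P Q ∧ ∃ U, GaugeBy U univ Γ 0 P.A Z)) : Related Γ P₀ Q := by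
  have hS' : B.SameData Γ P Q := same_related Z hZ hO hΓ hne hR hS
  rcases h with ⟨h1, U, h2⟩ | ⟨h1, U, h2⟩
  · have h3 := (smooth_local hn hN Z hZ Γ O hO hΓ P Q hS' univ isOpen_univ isPreconnected_univ U
      (by rw [univ_inter]; exact h2) h1).1
    subst hZ
    exact related_of hR h2 (funext fun x => h3 x (by rw [closure_univ]; exact mem_univ x))
  · have h3 : GaugeEq Γ 0 P.A Z :=
      ⟨U, h2.1, h2.2.1, h2.2.2.1, fun x j => h2.2.2.2 x (mem_univ x) j⟩
    have h4 := (theoremM hn hN Z hZ Γ O hO hΓ hne P Q hS').2.1 (fun x => h1 x (mem_univ x)) h3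
    subst hZ
    exact related_gauge hR (gauge_triv h3 h4.1) h4.2

end Vale.Agent.P088.B5

end
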