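import Vale.Agent.P088.H5.St2

/-!
# P088: gauge equivalent connections and piecewise ordered metrics
-/

open Manifold MeasureTheory Set
open scoped ContDiff Matrix

noncomputable section

namespace Vale.Agent.P088.B7

open Vale.Agent.P088.B

universe u

variable {n N : ℕ} {M : Type u} {Z : At n M}

/-- `U : M → U(N)` is smooth, `U = I` on `Γ` and `A₂ = U⁻¹ A₁ U + U⁻¹ dU` on `W`. -/
def GaugeBy (U : M → Matrix (Fin N) (Fin N) ℂ) (W Γ : Set M)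
    (A₁ A₂ : M → Fin n → Matrix (Fin N) (Fin N) ℂ) (Z : At n M) : Prop :=
  (∀ a, Sm Z (fun x => U x a)) ∧ (∀ x, (U x)ᴴ * U x = 1) ∧ (∀ x ∈ Γ, U x = 1) ∧
    ∀ x ∈ W, ∀ j, A₂ x j = (U x)ᴴ * (A₁ x j * U x + dM (fun y => U (pt Z x y)) (Z.ch x x) j)

/-- `√(det g₁) g₁⁻¹ ≤ √(det g₂) g₂⁻¹` on `W`. -/
def Le (W : Set M) (P Q : Pair Z N) : Prop :=
  ∀ x ∈ W, (√(Q.g x).det • (Q.g x)⁻¹ - √(P.g x).det • (P.g x)⁻¹).PosSemidef

/-- `W` is open and connected, `g₁` and `g₂` are ordered on a connected open set `D ⊆ W` which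
meets `Γ`, and they are piecewise ordered on `W`: near each point `x` of `W`, up to closure,
`s(g₁) ≤ s(g₂)` on a connected open set `D₁ ⊆ W` and `s(g₂) ≤ s(g₁)` on a connected open set
`D₂ ⊆ W` (each may be empty), where `s(g) = √(det g) g⁻¹`. -/
def PwLe [TopologicalSpace M] (W Γ : Set M) (P Q : Pair Z N) : Prop :=
  IsOpen W ∧ IsPreconnected W ∧
    (∃ D ⊆ W, IsOpen D ∧ IsPreconnected D ∧ (D ∩ Γ).Nonempty ∧ (Le D P Q ∨ Le D Q P)) ∧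
    ∀ x ∈ W, ∃ V, IsOpen V ∧ x ∈ V ∧ ∃ D₁ ⊆ W, IsOpen D₁ ∧ IsPreconnected D₁ ∧ Le D₁ P Q ∧
      ∃ D₂ ⊆ W, IsOpen D₂ ∧ IsPreconnected D₂ ∧ Le D₂ Q P ∧ V ⊆ closure (D₁ ∪ D₂)

end Vale.Agent.P088.B7
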