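import Vale.Agent.P088.H5.Br820
import Vale.Agent.P088.H5.BrS275
import Vale.Agent.P088.H5.St5

/-!
# P088: reduction to scalar functions by a parallel section
-/

open Bundle Manifold MeasureTheory Set Filter
open scoped ContDiff Matrix Topology ENNReal

noncomputable section

set_option linter.all false

namespace Vale.Agent.P088.EYM.O

open Vale.Agent.P088 Vale.Agent.P088.EYM

universe u

section

variable {n N : ℕ} [NeZero n] {M : Type u} [TopologicalSpace M]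
  [ChartedSpace (EuclideanHalfSpace n) M] [IsManifold (𝓡∂ n) ∞ M] [MeasurableSpace M]

/-- The scalar problem of the metric. -/
def scP (P : One n N M) : One n 1 M := ⟨P.g, P.μ, zeroConn (𝓡∂ n) 1 M, P.hμ⟩

/-- The unit vector. -/
def sc0 : Fib 1 := EuclideanSpace.single 0 1

theorem sc0_norm : ‖sc0‖ = 1 := by simp [sc0]

theorem sc0_inner (v : Fib 1) : (inner ℂ sc0 v : ℂ) = v 0 := by
  unfold sc0
  rw [EuclideanSpace.inner_single_left]
  simp

theorem par_sc0 (P : One n N M) : Par (scP P).A (fun _ : M => sc0) := by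
  refine ⟨contMDiff_const, fun x X => ?_⟩
  have h1 : dmap (𝓡∂ n) (fun _ : M => sc0) x X = 0 := by
    unfold dmap
    rw [mfderiv_const]
    rfl
  unfold cov
  rw [h1, zero_add]
  rfl

/-- `∫ ⟨da, db⟩`. -/
def gq (P : One n N M) (a b : M → ℝ) : ℂ := ((∫ x, gp P.g a b x ∂P.μ : ℝ) : ℂ)

/-- The section `(a + i b) e`. -/
def cx (e : M → Fib N) (a b : M → ℝ) : M → Fib N :=
  (1 : ℂ) • (fun x => (a x : ℂ) • e x) + Complex.I • (fun x => (b x : ℂ) • e x)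

variable [T2Space M] [CompactSpace M] [BorelSpace M]

theorem E_real (P : One n N M) {e : M → Fib N} (he : Par P.A e) (h1 : ∀ x, ‖e x‖ = 1)
    {a b : M → ℝ} (ha : SmR n a) (hb : SmR n b) :
    P.E (fun x => (a x : ℂ) • e x) (fun x => (b x : ℂ) • e x) = gq P a b := by
  unfold One.E energy gq
  simp only [pairing_par_par P.g P.A ha hb he (h1 _)]
  exact integral_complex_ofReal

theorem E_cx (P : One n N M) {e : M → Fib N} (he : Par P.A e) (h1 : ∀ x, ‖e x‖ = 1)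
    {a b c d : M → ℝ} (ha : SmR n a) (hb : SmR n b) (hc : SmR n c) (hd : SmR n d) :
    P.E (cx e a b) (cx e c d) =
      gq P a c - Complex.I * gq P b c + Complex.I * (gq P a d - Complex.I * gq P b d) := by
  obtain ⟨f1, f2, f3, -, -⟩ := TM.fForm n N M P
  have sa := smS_mul ha he.sm
  have sb := smS_mul hb he.sm
  have sc := smS_mul hc he.sm
  have sd := smS_mul hd he.sm
  have sX : SmS n (cx e a b) := cForm_smS_add (cForm_smS_smul 1 sa) (cForm_smS_smul Complex.I sb)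
  have key : ∀ {t : M → ℝ}, SmR n t → P.E (cx e a b) (fun x => (t x : ℂ) • e x) =
      gq P a t - Complex.I * gq P b t := by
    intro t ht
    have st := smS_mul ht he.sm
    rw [f3 _ _ st sX]
    unfold cx
    rw [f1 _ _ _ st (cForm_smS_smul 1 sa) (cForm_smS_smul Complex.I sb), f2 _ _ _ st sa,
      f2 _ _ _ st sb, map_add, map_mul, map_mul, ← f3 _ _ st sa, ← f3 _ _ st sb,
      E_real P he h1 ha ht, E_real P he h1 hb ht, Complex.conj_I, map_one]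
    ring
  have e1 : P.E (cx e a b) (cx e c d) =
      P.E (cx e a b) (fun x => (c x : ℂ) • e x) +
        Complex.I * P.E (cx e a b) (fun x => (d x : ℂ) • e x) := by
    conv_lhs => rw [show cx e c d = (1 : ℂ) • (fun x => (c x : ℂ) • e x) +
      Complex.I • (fun x => (d x : ℂ) • e x) from rfl]
    rw [f1 _ _ _ sX (cForm_smS_smul 1 sc) (cForm_smS_smul Complex.I sd), f2 _ _ _ sX sc,
      f2 _ _ _ sX sd, one_mul]
  rw [e1, key hc, key hd]

theorem dat_par {Γ : Set M} {φ : M → ℝ} {e : M → Fib N} (he : SmS n e) (hφ : SmR n φ)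
    (hs : Spt n Γ φ) : IsBdryData (𝓡∂ n) Γ (fun x => (φ x : ℂ) • e x) := by
  refine ⟨smS_mul hφ he, ?_⟩
  refine (closure_mono ?_).trans hs
  rintro x ⟨hx, hx'⟩
  refine ⟨hx, fun h => hx' ?_⟩
  simp only [h, Complex.ofReal_zero, zero_smul]

theorem spt_off {Γ : Set M} {φ : M → ℝ} (hs : Spt n Γ φ) {x : M} (hx : x ∈ (𝓡∂ n).boundary M)
    (hxΓ : x ∉ Γ) : φ x = 0 := by
  by_contra h
  exact hxΓ (hs (subset_closure ⟨hx, h⟩))

variable [ConnectedSpace M]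

/-- The scalar energies of `P` and `Q` agree. -/
theorem gq_same {P Q : One n N M} {Γ : Set M} (hb : ((𝓡∂ n).boundary M).Nonempty)
    (hS : SameD P Q Γ) {e e' : M → Fib N} (he : Par P.A e) (he' : Par Q.A e')
    (h1 : ∀ x, ‖e x‖ = 1) (h1' : ∀ x, ‖e' x‖ = 1) (heq : ∀ x ∈ Γ, e' x = e x) {φ ψ : M → ℝ}
    (hφ : SmR n φ) (hψ : SmR n ψ) (sφ : Spt n Γ φ) (sψ : Spt n Γ ψ) {w v w' v' : M → ℝ}
    (hw : Wk P w) (hv : Wk P v) (hw' : Wk Q w') (hv' : Wk Q v')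
    (bw : ∀ x ∈ (𝓡∂ n).boundary M, w x = φ x) (bv : ∀ x ∈ (𝓡∂ n).boundary M, v x = ψ x)
    (bw' : ∀ x ∈ (𝓡∂ n).boundary M, w' x = φ x) (bv' : ∀ x ∈ (𝓡∂ n).boundary M, v' x = ψ x) :
    gq P w v = gq Q w' v' := by
  obtain ⟨u₁, v₁, u₂, v₂, a1, a2, a3, a4, a5⟩ := hS _ _ (dat_par he.sm hφ sφ) (dat_par he.sm hψ sψ)
  have hU1 := (TM.fUniq n N M P hb).1
  have hU2 := (TM.fUniq n N M Q hb).1
  have hcP : ∀ {φ w : M → ℝ} {u : M → Fib N}, P.Harm (fun x => (φ x : ℂ) • e x) u → Wk P w →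
      (∀ x ∈ (𝓡∂ n).boundary M, w x = φ x) → u = fun x => (w x : ℂ) • e x := by
    intro φ w u hu hw hb
    exact hU1 _ _ _ _ hu (harm_par P he hw) fun x hx => by rw [hb x hx]
  have hcQ : ∀ {φ w : M → ℝ} {u : M → Fib N}, Spt n Γ φ →
      Q.Harm (fun x => (φ x : ℂ) • e x) u → Wk Q w →
      (∀ x ∈ (𝓡∂ n).boundary M, w x = φ x) → u = fun x => (w x : ℂ) • e' x := by
    intro φ w u hs hu hw hb
    refine hU2 _ _ _ _ hu (harm_par Q he' hw) fun x hx => ?_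
    rw [hb x hx]
    by_cases hxΓ : x ∈ Γ
    · rw [heq x hxΓ]
    · rw [spt_off hs hx hxΓ]
      simp
  have a5' : P.E u₁ v₁ = Q.E u₂ v₂ := a5
  rw [hcP a1 hw bw, hcP a2 hv bv, hcQ sφ a3 hw' bw', hcQ sψ a4 hv' bv',
    E_real P he h1 hw.sm hv.sm, E_real Q he' h1' hw'.sm hv'.sm] at a5'
  exact a5'

theorem wk_sc {P : One n N M} {w : M → ℝ} (hw : Wk P w) : Wk (scP P) w := ⟨hw.sm, hw.weak⟩

theorem harm_cx (P : One n N M) (hb : ((𝓡∂ n).boundary M).Nonempty) {f : M → Fib 1}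
    {a b : M → ℝ} (ha : Wk P a) (hb' : Wk P b)
    (hf : ∀ x ∈ (𝓡∂ n).boundary M, cx (fun _ => sc0) a b x = f x) :
    (scP P).Harm f (cx (fun _ => sc0) a b) := by
  have h := (TM.fUniq n 1 M (scP P) hb).2.1 _ _ _ _ 1 Complex.I
    (harm_par (scP P) (par_sc0 P) (wk_sc ha)) (harm_par (scP P) (par_sc0 P) (wk_sc hb'))
  exact ⟨h.smooth, hf, h.weak⟩

/-- The scalar data agree. -/
theorem sc_same {P Q : One n N M} {Γ : Set M} (hb : ((𝓡∂ n).boundary M).Nonempty)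
    (hS : SameD P Q Γ) {e e' : M → Fib N} (he : Par P.A e) (he' : Par Q.A e')
    (h1 : ∀ x, ‖e x‖ = 1) (h1' : ∀ x, ‖e' x‖ = 1) (heq : ∀ x ∈ Γ, e' x = e x) :
    SameD (scP P) (scP Q) Γ := by
  have hPs : P.HasSol Γ := fun f hf => by
    obtain ⟨u, -, -, -, hu, -⟩ := hS f f hf hf
    exact ⟨u, hu⟩
  have hQs : Q.HasSol Γ := fun f hf => by
    obtain ⟨-, -, u, -, -, -, hu, -⟩ := hS f f hf hf
    exact ⟨u, hu⟩
  have hcs : SmS n (fun _ : M => sc0) := contMDiff_const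
  have dec : ∀ f : M → Fib 1, IsBdryData (𝓡∂ n) Γ f → ∃ φ ψ : M → ℝ, SmR n φ ∧ SmR n ψ ∧
      Spt n Γ φ ∧ Spt n Γ ψ ∧ ∀ (x : M) (a b : M → ℝ), a x = φ x → b x = ψ x →
        cx (fun _ => sc0) a b x = f x := by
    intro f hf
    have hs : ∀ {t : M → ℝ}, (∀ x, f x = 0 → t x = 0) → Spt n Γ t := by
      intro t ht
      refine (closure_mono ?_).trans hf.supp
      rintro x ⟨hx, hx'⟩
      exact ⟨hx, fun h0 => hx' (ht x h0)⟩
    refine ⟨reI (fun _ => sc0) f, imI (fun _ => sc0) f, smR_reI hcs hf.smooth,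
      smR_imI hcs hf.smooth, hs fun x h0 => ?_, hs fun x h0 => ?_, fun x a b ha hb => ?_⟩
    · rw [reI, h0, inner_zero_right]
      rfl
    · rw [imI, h0, inner_zero_right]
      rfl
    · ext i
      have hi : i = 0 := Subsingleton.elim _ _
      subst hi
      show (1 : ℂ) * ((a x : ℂ) * sc0 0) + Complex.I * ((b x : ℂ) * sc0 0) = f x 0
      have h3 : sc0 0 = 1 := by simp [sc0]
      rw [h3, ha, hb, reI, imI, sc0_inner]
      have h4 := Complex.re_add_im (f x 0)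
      linear_combination h4
  intro f h hf hh
  obtain ⟨φ, ψ, m1, m2, m3, m4, m5⟩ := dec f hf
  obtain ⟨α, β, k1, k2, k3, k4, k5⟩ := dec h hh
  obtain ⟨a, ha, a0⟩ := ex_par P he h1 hPs m1 m3
  obtain ⟨b, hb1, b0⟩ := ex_par P he h1 hPs m2 m4
  obtain ⟨c, hc, c0⟩ := ex_par P he h1 hPs k1 k3
  obtain ⟨d, hd, d0⟩ := ex_par P he h1 hPs k2 k4
  obtain ⟨a', ha', a0'⟩ := ex_par Q he' h1' hQs m1 m3
  obtain ⟨b', hb1', b0'⟩ := ex_par Q he' h1' hQs m2 m4
  obtain ⟨c', hc', c0'⟩ := ex_par Q he' h1' hQs k1 k3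
  obtain ⟨d', hd', d0'⟩ := ex_par Q he' h1' hQs k2 k4
  refine ⟨_, _, _, _, harm_cx P hb ha hb1 fun x hx => m5 x a b (a0 x hx) (b0 x hx),
    harm_cx P hb hc hd fun x hx => k5 x c d (c0 x hx) (d0 x hx),
    harm_cx Q hb ha' hb1' fun x hx => m5 x a' b' (a0' x hx) (b0' x hx),
    harm_cx Q hb hc' hd' fun x hx => k5 x c' d' (c0' x hx) (d0' x hx), ?_⟩
  have e1 := E_cx (scP P) (par_sc0 P) (fun _ => sc0_norm) ha.sm hb1.sm hc.sm hd.sm
  have e2 := E_cx (scP Q) (par_sc0 Q) (fun _ => sc0_norm) ha'.sm hb1'.sm hc'.sm hd'.sm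
  have g1 : gq (scP P) a c = gq (scP Q) a' c' :=
    gq_same hb hS he he' h1 h1' heq m1 k1 m3 k3 ha hc ha' hc' a0 c0 a0' c0'
  have g2 : gq (scP P) b c = gq (scP Q) b' c' :=
    gq_same hb hS he he' h1 h1' heq m2 k1 m4 k3 hb1 hc hb1' hc' b0 c0 b0' c0'
  have g3 : gq (scP P) a d = gq (scP Q) a' d' :=
    gq_same hb hS he he' h1 h1' heq m1 k2 m3 k4 ha hd ha' hd' a0 d0 a0' d0'
  have g4 : gq (scP P) b d = gq (scP Q) b' d' :=
    gq_same hb hS he he' h1 h1' heq m2 k2 m4 k4 hb1 hd hb1' hd' b0 d0 b0' d0'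
  rw [g1, g2, g3, g4, ← e2] at e1
  exact e1

end

end Vale.Agent.P088.EYM.O

namespace Vale.Agent.P088.B7

open Vale.Agent.P088 Vale.Agent.P088.B Vale.Agent.P088.B2 Vale.Agent.P088.EYM
  Vale.Agent.P088.EYM.O

universe u

/-- Parallel sections `e`, `e'` with `e' = e ≠ 0` on `Γ`, and metrics which are piecewise ordered on
`W`: the metrics are equal on `W`. -/
theorem scal {n N : ℕ} [NeZero n] (hn : 3 ≤ n) {M : Type u} [TopologicalSpace M]
    [ChartedSpace (EuclideanHalfSpace n) M] [IsManifold (𝓡∂ n) ∞ M] [T2Space M] [CompactSpace M]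
    [ConnectedSpace M] (Z : At n M) (hZ : Z = at_ n M) (Γ O : Set M) (hO : IsOpen O)
    (hΓ : Γ = O ∩ bd Z) (P Q : Pair Z N) (hd : B.SameData Γ P Q) (e e' : M → Fin N → ℂ)
    (he : B.Par P e) (he' : B.Par Q e') (h0 : e ≠ 0) (heq : ∀ x ∈ Γ, e' x = e x) (W : Set M)
    (hp : PwLe W Γ P Q) : ∀ x ∈ closure W, Q.g x = P.g x := by
  subst hZ
  rw [bd_at] at hΓ
  let _ : MeasurableSpace M := borel M
  have _ : BorelSpace M := ⟨rfl⟩
  obtain ⟨hWo, hWc, ⟨D, hDW, hDo, hDc, ⟨p, hpD, hpΓ⟩, hDs⟩, hloc⟩ := hp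
  have hb : ((𝓡∂ n).boundary M).Nonempty := by
    rw [hΓ] at hpΓ
    exact ⟨p, hpΓ.2⟩
  have hS := B2.sameD_one hd
  have hE := (par_toF P e).1 he
  have hE' := (par_toF Q e').1 he'
  have hnorm := s0 n N M _ _ hE
  have hnorm' := s0 n N M _ _ hE'
  have hpe : S.toF e' p = S.toF e p := by
    show WithLp.toLp 2 (e' p) = WithLp.toLp 2 (e p)
    rw [heq p hpΓ]
  have hpos : 0 < ‖S.toF e p‖ := by
    rw [norm_pos_iff]
    intro h
    apply h0
    funext x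
    have h2 := hnorm x p
    rw [h, norm_zero] at h2
    have h3 : S.toF e x = 0 := norm_eq_zero.1 h2
    exact (WithLp.toLp_injective 2) (h3.trans (WithLp.toLp_zero 2).symm)
  set c : ℝ := ‖S.toF e p‖⁻¹ with hc
  have hc1 : ∀ x, ‖c • S.toF e x‖ = 1 := fun x => by
    rw [norm_smul, hnorm x p, hc, norm_inv, norm_norm, inv_mul_cancel₀ hpos.ne']
  have hc1' : ∀ x, ‖c • S.toF e' x‖ = 1 := fun x => by
    rw [norm_smul, hnorm' x p, hpe, hc, norm_inv, norm_norm, inv_mul_cancel₀ hpos.ne']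
  have hsc := sc_same hb hS (hE.smul c).toPar (hE'.smul c).toPar hc1 hc1' (fun x hx => by
    show c • WithLp.toLp 2 (e' x) = c • WithLp.toLp 2 (e x)
    rw [heq x hx])
  have hs1 : ∀ {D : Set M}, Le D P Q → ∀ y ∈ D, (sig (scP (one Q)).g y -
      sig (scP (one P)).g y).PosSemidef := by
    intro D h y hy
    show (sig (S.gOf (conv Q)) y - sig (S.gOf (conv P)) y).PosSemidef
    rw [sig_sub P Q y]
    exact h y hy
  have hs2 : ∀ {D : Set M}, Le D Q P → ∀ y ∈ D, (sig (scP (one P)).g y -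
      sig (scP (one Q)).g y).PosSemidef := by
    intro D h y hy
    show (sig (S.gOf (conv P)) y - sig (S.gOf (conv Q)) y).PosSemidef
    rw [sig_sub Q P y]
    exact h y hy
  have hmet := lP_closed n 1 M (scP (one P)) (scP (one Q)) Γ W D hn one_pos ⟨O, hO, hΓ⟩ hWo hWc hsc
    hDo hDc hDW ⟨p, hpD, hpΓ⟩ (hDs.imp hs1 hs2) (fun _ _ _ => rfl) (fun y hy => by
      obtain ⟨V', h1, h2, D₁, h3, h4, h5, h6, D₂, h7, h8, h9, h10, h11⟩ := hloc y hy
      exact ⟨V', D₁, D₂, h1, h2, h4, h5, h3, h8, h9, h7, h11, hs1 h6, hs2 h10⟩)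
  exact fun x hx => met_of_inner_at (P := P) (Q := Q) (hmet x hx)

end Vale.Agent.P088.B7

end
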