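import Vale.Agent.P088.H5.St2

/-!
# P088: gauge equivalent connections and piecewise ordered metrics
-/

open Manifold MeasureTheory Set
open scoped ContDiff Matrix

noncomputable section

namespace Vale.Agent.P088.B8

open Vale.Agent.P088.B

universe u

variable {n N : ℕ} {M : Type u} {Z : At n M}

/-- `U : M → U(N)` is smooth, `U = I` on `Γ` and `A₂ = U⁻¹ A₁ U + U⁻¹ dU` on `W`. -/
def GaugeBy (U : M → Matrix (Fin N) (Fin N) ℂ) (W Γ : Set M)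
    (A₁ A₂ : M → Fin n → Matrix (Fin N) (Fin N) ℂ) (Z : At n M) : Prop :=
  (∀ a, Sm Z (fun x => U x a)) ∧ (∀ x, (U x)ᴴ * U x = 1) ∧ (∀ x ∈ Γ, U x = 1) ∧
    ∀ x ∈ W, ∀ j, A₂ x j = (U x)ᴴ * (A₁ x j * U x + dM (fun y => U (pt Z x y)) (Z.ch x x) j)

/-- `√(det g₁) g₁⁻¹ ≤ √(det g₂) g₂⁻¹` on `W`. -/
def Le (W : Set M) (P Q : Pair Z N) : Prop :=
  ∀ x ∈ W, (√(Q.g x).det • (Q.g x)⁻¹ - √(P.g x).det • (P.g x)⁻¹).PosSemidef

/-- `g₁` and `g₂` are piecewise ordered on `O`: there is a dense connected open subset `W` of `O`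
such that they are ordered on a connected open set `D ⊆ W` which meets `Γ`, and near each point `x`
of `W`, up to closure, `s(g₁) ≤ s(g₂)` on a connected open set `D₁ ⊆ W` and `s(g₂) ≤ s(g₁)` on a
connected open set `D₂ ⊆ W` (each may be empty), where `s(g) = √(det g) g⁻¹`. -/
def PwLe [TopologicalSpace M] (O Γ : Set M) (P Q : Pair Z N) : Prop :=
  ∃ W ⊆ O, O ⊆ closure W ∧ IsOpen W ∧ IsPreconnected W ∧
    (∃ D ⊆ W, IsOpen D ∧ IsPreconnected D ∧ (D ∩ Γ).Nonempty ∧ (Le D P Q ∨ Le D Q P)) ∧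
    ∀ x ∈ W, ∃ V, IsOpen V ∧ x ∈ V ∧ ∃ D₁ ⊆ W, IsOpen D₁ ∧ IsPreconnected D₁ ∧ Le D₁ P Q ∧
      ∃ D₂ ⊆ W, IsOpen D₂ ∧ IsPreconnected D₂ ∧ Le D₂ Q P ∧ V ⊆ closure (D₁ ∪ D₂)

/-- `e : V → ℂ^N` is smooth and parallel: `∂_i e + A_i e = 0` on `V`. -/
def ParOn (V : Set M) (P : Pair Z N) (e : M → Fin N → ℂ) : Prop :=
  (∀ a, Z.sm V (fun x => e x a)) ∧
    ∀ x ∈ V, ∀ i a, dj (fun y => e (pt Z x y) a) (Z.ch x x) i + (P.A x i *ᵥ e x) a = 0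

/-- `A = E⁻¹ dE` on `V` for a smooth `E : V → U(N)`. -/
def PureOn (V : Set M) (A : M → Fin n → Matrix (Fin N) (Fin N) ℂ) (Z : At n M) : Prop :=
  ∃ E : M → Matrix (Fin N) (Fin N) ℂ, (∀ a b, Z.sm V (fun x => E x a b)) ∧
    ∀ x ∈ V, (E x)ᴴ * E x = 1 ∧
      ∀ j, A x j = (E x)ᴴ * dM (fun y => E (pt Z x y)) (Z.ch x x) j

/-- `K` is a hole: a closed set in the interior of `M`, with connected complement and with the open
neighborhood `V`; the connections are gauge equivalent and the metrics piecewise ordered off `K`. -/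
def Hole [TopologicalSpace M] (U : M → Matrix (Fin N) (Fin N) ℂ) (K V Γ : Set M)
    (P Q : Pair Z N) : Prop :=
  IsClosed K ∧ K ∩ bd Z = ∅ ∧ IsPreconnected Kᶜ ∧ IsOpen V ∧ K ⊆ V ∧ PwLe Kᶜ Γ P Q ∧
    GaugeBy U Kᶜ Γ P.A Q.A Z

end Vale.Agent.P088.B8
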