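import Vale.Agent.P088.H5.Fin820
import Vale.Agent.P088.H5.St6
import Vale.Agent.P088.H5.I.Q1I435
import Vale.Agent.P088.H5.SC_332

/-!
# P088: arbitrary smooth pairs, the clauses (second form)
-/

open Bundle Manifold MeasureTheory Set Filter
open scoped ContDiff Matrix Topology ENNReal

noncomputable section

set_option linter.all false

namespace Vale.Agent.P088.B8

open Vale.Agent.P088 Vale.Agent.P088.B

universe u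

section

variable {n N : ℕ} {M : Type u} {Z : At n M} [TopologicalSpace M]

theorem PwLe.dense {O Γ : Set M} {P Q : Pair Z N} (h : PwLe O Γ P Q) :
    ∃ W ⊆ O, O ⊆ closure W ∧ B7.PwLe W Γ P Q := h

/-- equal metrics are ordered -/
theorem pw_of_eq {O Γ : Set M} {P Q : Pair Z N} (hO : IsOpen O) (hOc : IsPreconnected O)
    (hne : (O ∩ Γ).Nonempty) (h : ∀ x ∈ O, Q.g x = P.g x) : B5.PwLe O Γ P Q := by
  have h1 : B5.Le O P Q := fun x hx => by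
    rw [h x hx, sub_self]
    exact Matrix.PosSemidef.zero
  refine ⟨⟨O, Subset.rfl, hO, hOc, hne, Or.inl h1⟩, fun x hx =>
    ⟨O, hO, hx, O, Subset.rfl, hO, hOc, h1, ∅, empty_subset _, isOpen_empty,
      isPreconnected_empty, fun x hx => absurd hx (notMem_empty x), ?_⟩⟩
  rw [union_empty]
  exact subset_closure

end

variable {n N : ℕ} [NeZero n] {M : Type u} [TopologicalSpace M]
  [ChartedSpace (EuclideanHalfSpace n) M] [IsManifold (𝓡∂ n) ∞ M] [T2Space M] [CompactSpace M]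
  [ConnectedSpace M]

/-- the local clause -/
theorem loc (hn : 3 ≤ n) (hN : 1 ≤ N) (Z : At n M) (hZ : Z = at_ n M) (Γ O₀ : Set M)
    (hO₀ : IsOpen O₀) (hΓ : Γ = O₀ ∩ bd Z) (P Q : Pair Z N) (hd : B.SameData Γ P Q) (O : Set M)
    (hO : IsOpen O) (hp : PwLe O Γ P Q) (U : M → Matrix (Fin N) (Fin N) ℂ)
    (hU : GaugeBy U O (O ∩ Γ) P.A Q.A Z) :
    (∀ x ∈ closure O, Q.g x = P.g x) ∧ ∀ f u u', Data Z (O ∩ Γ) f → Harm P f u →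
      Harm Q f u' → ∀ x ∈ O, u x = U x *ᵥ u' x := by
  obtain ⟨W, hWO, hOW, hW, hWc, ⟨D, hDW, hD1, hD2, hD3, hD4⟩, hloc⟩ := hp
  have h1 := (B5.smooth_local hn hN Z hZ Γ O₀ hO₀ hΓ P Q hd W hW hWc U
    ⟨hU.1, hU.2.1, fun x hx => hU.2.2.1 x ⟨hWO hx.1, hx.2⟩, fun x hx => hU.2.2.2 x (hWO hx)⟩
    ⟨⟨D, hDW, hD1, hD2, hD3, hD4⟩, hloc⟩).1
  have hOc : IsPreconnected O := hWc.subset_closure hWO hOW
  have hcl : closure O ⊆ closure W := closure_minimal hOW isClosed_closure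
  refine ⟨fun x hx => h1 x (hcl hx), ?_⟩
  exact (B5.smooth_local hn hN Z hZ Γ O₀ hO₀ hΓ P Q hd O hO hOc U hU
    (pw_of_eq hO hOc (hD3.mono fun x hx => ⟨hWO (hDW hx.1), hx.2⟩)
      fun x hx => h1 x (hOW hx))).2

/-- the clause on holes -/
theorem hole (hn : 3 ≤ n) (hN : 1 ≤ N) (Z : At n M) (hZ : Z = at_ n M) (Γ O₀ : Set M)
    (hO₀ : IsOpen O₀) (hΓ : Γ = O₀ ∩ bd Z) (hne : Γ.Nonempty) (P₀ P Q : Pair Z N)
    (hd : B.SameData Γ P₀ Q) (hR : Related Γ P₀ P) (U : M → Matrix (Fin N) (Fin N) ℂ)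
    (K V : Set M) (h : Hole U K V Γ P Q) :
    (∀ x ∉ K, Q.g x = P.g x) ∧
      (∀ e, ParOn V P e → ∃ e', ParOn V Q e' ∧ ∀ x ∉ K, e x = U x *ᵥ e' x) ∧
      (PureOn V P.A Z → (∃ U', GaugeBy U' univ Γ P.A Q.A Z ∧ ∀ x ∉ K, U' x = U x) ∧
        (PwLe univ Γ P Q → Related Γ P₀ Q)) := by
  obtain ⟨hK, hKb, hKc, hV, hKV, ⟨W₁, hW₁, hd₁, hp₁⟩, hU⟩ := h
  obtain ⟨a1, a2, a3⟩ := B7.holesP_closed hn hN Z hZ Γ O₀ hO₀ hΓ hne P₀ P Q hd hR K V W₁ hK hKb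
    hKc hV hKV hW₁ hd₁ hp₁ U hU
  refine ⟨a1, a2, fun hp => ⟨(a3 hp).1, fun hw => (a3 hp).2 ?_⟩⟩
  obtain ⟨W, -, hW, hW'⟩ := hw
  exact ⟨W, univ_subset_iff.1 hW, hW'⟩

/-- the clause on holes, without the transform -/
theorem hole' (hn : 3 ≤ n) (hN : 1 ≤ N) (Z : At n M) (hZ : Z = at_ n M) (Γ O₀ : Set M)
    (hO₀ : IsOpen O₀) (hΓ : Γ = O₀ ∩ bd Z) (hne : Γ.Nonempty) (P Q : Pair Z N)
    (hd : B.SameData Γ P Q) (U : M → Matrix (Fin N) (Fin N) ℂ)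
    (K V : Set M) (h : Hole U K V Γ P Q) :
    (∀ x ∉ K, Q.g x = P.g x) ∧
      (∀ e, ParOn V P e → ∃ e', ParOn V Q e' ∧ ∀ x ∉ K, e x = U x *ᵥ e' x) ∧
      (PureOn V P.A Z → ∃ U', GaugeBy U' univ Γ P.A Q.A Z ∧ ∀ x ∉ K, U' x = U x) := by
  subst hZ
  obtain ⟨a1, a2, a3⟩ := hole hn hN _ rfl Γ O₀ hO₀ hΓ hne P P Q hd (related_refl Γ P) U K V h
  exact ⟨a1, a2, fun hp => (a3 hp).1⟩

/-- Q1 -/
theorem q1 (hn : 3 ≤ n) (hN : 1 ≤ N) (Z : At n M) (hZ : Z = at_ n M) (Γ O₀ : Set M)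
    (hO₀ : IsOpen O₀) (hΓ : Γ = O₀ ∩ bd Z) (hne : Γ.Nonempty) (P P' Q : Pair Z N)
    (hd : B.SameData Γ P Q) (hR : Related Γ P P')
    (h : (PwLe univ Γ P' Q ∧ ∃ U K V, Hole U K V Γ P' Q ∧ PureOn V P'.A Z) ∨
      (Le univ P' Q ∧ ∃ U, GaugeBy U univ Γ 0 P'.A Z)) : Related Γ P Q := by
  rcases h with ⟨h1, U, K, V, h2, h3⟩ | ⟨h1, h2⟩
  · exact ((hole hn hN Z hZ Γ O₀ hO₀ hΓ hne P P' Q hd hR U K V h2).2.2 h3).2 h1
  · exact B5.q1_of hn hN Z hZ Γ O₀ hO₀ hΓ hne P P' Q hd hR (Or.inr ⟨h1, h2⟩)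

/-- parallel sections which agree on `Γ` -/
theorem scal (hn : 3 ≤ n) (Z : At n M) (hZ : Z = at_ n M) (Γ O₀ : Set M)
    (hO₀ : IsOpen O₀) (hΓ : Γ = O₀ ∩ bd Z) (P Q : Pair Z N) (hd : B.SameData Γ P Q)
    (e e' : M → Fin N → ℂ) (he : Par P e) (he' : Par Q e') (h0 : e ≠ 0)
    (heq : ∀ x ∈ Γ, e' x = e x) (O : Set M) (hp : PwLe O Γ P Q) :
    ∀ x ∈ closure O, Q.g x = P.g x := by
  obtain ⟨W, hWO, hOW, hW⟩ := hp
  have h1 := B7.scal hn Z hZ Γ O₀ hO₀ hΓ P Q hd e e' he he' h0 heq W hW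
  exact fun x hx => h1 x (closure_minimal hOW isClosed_closure hx)

end Vale.Agent.P088.B8
end
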