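import Vale.Agent.P088.H5.J332

/-!
# P088, Theorem R: reduction to the scalar problem, full data, two manifolds
-/

set_option linter.all false

open Bundle Manifold MeasureTheory Set Filter
open scoped ContDiff Matrix Topology ENNReal

noncomputable section

namespace Vale.Agent.P088.B6

open Vale.Agent.P088 Vale.Agent.P088.B

universe u

/-- `P₀` is the pair `(g, 0)`, `N = 1`. -/
structure Sc {n N : ℕ} {M : Type u} {Z : At n M} (P : Pair Z N) (P₀ : Pair Z 1) : Prop where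
  g : P₀.g = P.g
  A : P₀.A = 0

/-- (R1) a parallel section on `M₁`: the metrics have the same scalar data. -/
def R1_statement : Prop :=
  ∀ {n N : ℕ} [NeZero n] {M₁ M₂ : Type u}
    [TopologicalSpace M₁] [ChartedSpace (EuclideanHalfSpace n) M₁] [IsManifold (𝓡∂ n) ∞ M₁]
    [T2Space M₁] [CompactSpace M₁] [ConnectedSpace M₁]
    [TopologicalSpace M₂] [ChartedSpace (EuclideanHalfSpace n) M₂] [IsManifold (𝓡∂ n) ∞ M₂]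
    [T2Space M₂] [CompactSpace M₂] [ConnectedSpace M₂]
    (Z₁ : At n M₁) (_ : Z₁ = at_ n M₁) (Z₂ : At n M₂) (_ : Z₂ = at_ n M₂)
    (_ : (bd Z₁).Nonempty) (ψ : M₂ → M₁) (_ : B2.Iden N Z₁ Z₂ (bd Z₁) (bd Z₂) ψ)
    (P : Pair Z₁ N) (Q : Pair Z₂ N) (_ : B2.SameData₂ (bd Z₁) (bd Z₂) ψ P Q)
    (e : M₁ → Fin N → ℂ) (_ : Par P e) (_ : e ≠ 0) (P₀ : Pair Z₁ 1) (Q₀ : Pair Z₂ 1)
    (_ : Sc P P₀) (_ : Sc Q Q₀),
    B2.Iden 1 Z₁ Z₂ (bd Z₁) (bd Z₂) ψ ∧ B2.SameData₂ (bd Z₁) (bd Z₂) ψ P₀ Q₀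

/-- (R2) the metrics are related and the connections gauge trivial: the pairs are related. -/
def R2_statement : Prop :=
  ∀ {n N : ℕ} [NeZero n] {M₁ M₂ : Type u}
    [TopologicalSpace M₁] [ChartedSpace (EuclideanHalfSpace n) M₁] [IsManifold (𝓡∂ n) ∞ M₁]
    [T2Space M₁] [CompactSpace M₁] [ConnectedSpace M₁]
    [TopologicalSpace M₂] [ChartedSpace (EuclideanHalfSpace n) M₂] [IsManifold (𝓡∂ n) ∞ M₂]
    [T2Space M₂] [CompactSpace M₂] [ConnectedSpace M₂]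
    (Z₁ : At n M₁) (_ : Z₁ = at_ n M₁) (Z₂ : At n M₂) (_ : Z₂ = at_ n M₂)
    (Γ₁ : Set M₁) (Γ₂ : Set M₂) (ψ : M₂ → M₁) (_ : MapsTo ψ Γ₂ Γ₁)
    (P : Pair Z₁ N) (Q : Pair Z₂ N) (_ : ∃ U, B7.GaugeBy U univ Γ₁ 0 P.A Z₁)
    (_ : ∃ U, B7.GaugeBy U univ Γ₂ 0 Q.A Z₂) (P₀ : Pair Z₁ 1) (Q₀ : Pair Z₂ 1)
    (_ : Sc P P₀) (_ : Sc Q Q₀) (Φ : M₂ → M₁) (Ψ : M₁ → M₂)
    (U₀ : M₂ → Matrix (Fin 1) (Fin 1) ℂ) (_ : B2.Rel₂ Γ₂ ψ P₀ Q₀ Φ Ψ U₀),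
    ∃ U, B2.Rel₂ Γ₂ ψ P Q Φ Ψ U

/-- (R3) full data determine whether the connection is gauge trivial, two manifolds. -/
def R3_statement : Prop :=
  ∀ {n N : ℕ} [NeZero n] {M₁ M₂ : Type u}
    [TopologicalSpace M₁] [ChartedSpace (EuclideanHalfSpace n) M₁] [IsManifold (𝓡∂ n) ∞ M₁]
    [T2Space M₁] [CompactSpace M₁] [ConnectedSpace M₁]
    [TopologicalSpace M₂] [ChartedSpace (EuclideanHalfSpace n) M₂] [IsManifold (𝓡∂ n) ∞ M₂]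
    [T2Space M₂] [CompactSpace M₂] [ConnectedSpace M₂]
    (Z₁ : At n M₁) (_ : Z₁ = at_ n M₁) (Z₂ : At n M₂) (_ : Z₂ = at_ n M₂)
    (_ : (bd Z₁).Nonempty) (ψ : M₂ → M₁) (_ : B2.Iden N Z₁ Z₂ (bd Z₁) (bd Z₂) ψ)
    (P : Pair Z₁ N) (Q : Pair Z₂ N) (_ : B2.SameData₂ (bd Z₁) (bd Z₂) ψ P Q)
    (_ : ∃ U, B7.GaugeBy U univ (bd Z₁) 0 P.A Z₁), ∃ U, B7.GaugeBy U univ (bd Z₂) 0 Q.A Z₂

end Vale.Agent.P088.B6

end
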