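import Vale.Agent.P088.H5.R1_332
import Vale.Agent.P088.H5.RSpec

/-!
# P088, Theorem R, block R1
-/

set_option linter.all false

noncomputable section

namespace Vale.Agent.P088.B6

universe u

theorem r1 : R1_statement.{u} := by
  intro n N _ M₁ M₂ _ _ _ _ _ _ _ _ _ _ _ _ Z₁ hZ₁ Z₂ hZ₂ hne ψ hψ P Q hd e he h0 P₀ Q₀ hP hQ
  exact red_two Z₁ hZ₁ Z₂ hZ₂ hne hψ hd e he h0 P₀ Q₀ hP.g hP.A hQ.g hQ.A

end Vale.Agent.P088.B6

end
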