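import Vale.Agent.P088.H5.Br820

/-!
# P088: parallel sections on two manifolds, full data
-/

open Bundle Manifold MeasureTheory Set Filter
open scoped ContDiff Matrix Topology ENNReal

noncomputable section

set_option linter.all false

namespace Vale.Agent.P088.B2

open Vale.Agent.P088 Vale.Agent.P088.B Vale.Agent.P088.EYM Vale.Agent.P088.EYM.O

universe u

/-- the form vanishes on parallel sections -/
theorem par_energy (n N : ℕ) [NeZero n] (M : Type u) [TopologicalSpace M]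
    [ChartedSpace (EuclideanHalfSpace n) M] [IsManifold (𝓡∂ n) ∞ M] [T2Space M] [CompactSpace M]
    [ConnectedSpace M] [MeasurableSpace M] [BorelSpace M] (P : One n N M)
    (hbd : ((𝓡∂ n).boundary M).Nonempty) (e u v : M → Fib N)
    (he : ParS P.A e) (h1 : P.Harm e u) (h2 : P.Harm e v) : P.E u v = 0 := by
  obtain ⟨-, -, hPe⟩ := TM.fUniq n N M P hbd
  have e2 : P.E u v = P.E u e :=
    (hPe _ u v e h1 h2.smooth he.sm (fun x hx => h2.boundary x hx)).1
  rw [e2]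
  have h6 : ∀ x, pairing P.g P.A u e x = 0 := by
    intro x
    unfold pairing
    simp only [he.par, inner_zero_right, mul_zero, Finset.sum_const_zero]
  unfold One.E energy
  simp only [h6, integral_zero]

/-- solutions of energy zero are parallel -/
theorem energy_par (n N : ℕ) [NeZero n] (M : Type u) [TopologicalSpace M]
    [ChartedSpace (EuclideanHalfSpace n) M] [IsManifold (𝓡∂ n) ∞ M] [T2Space M] [CompactSpace M]
    [ConnectedSpace M] [MeasurableSpace M] [BorelSpace M] (Q : One n N M)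
    (hbd : ((𝓡∂ n).boundary M).Nonempty) (f u v : M → Fib N)
    (h1 : Q.Harm f u) (h2 : Q.Harm f v) (h3 : Q.E u v = 0) : ParS Q.A u := by
  obtain ⟨hQu, -, -⟩ := TM.fUniq n N M Q hbd
  have e1 : u = v := hQu _ _ _ _ h1 h2 fun _ _ => rfl
  subst e1
  exact ⟨h1.smooth, fun x X => cov_zero_of_energy Q h1.smooth (by rw [h3, Complex.zero_re]) x X⟩

/-- Full data, two manifolds: the parallel sections correspond. -/
theorem par_two {n N : ℕ} [NeZero n] {M₁ M₂ : Type u}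
    [TopologicalSpace M₁] [ChartedSpace (EuclideanHalfSpace n) M₁] [IsManifold (𝓡∂ n) ∞ M₁]
    [T2Space M₁] [CompactSpace M₁] [ConnectedSpace M₁]
    [TopologicalSpace M₂] [ChartedSpace (EuclideanHalfSpace n) M₂] [IsManifold (𝓡∂ n) ∞ M₂]
    [T2Space M₂] [CompactSpace M₂] [ConnectedSpace M₂]
    (Z₁ : At n M₁) (hZ₁ : Z₁ = at_ n M₁) (Z₂ : At n M₂) (hZ₂ : Z₂ = at_ n M₂)
    (Γ₁ : Set M₁) (hne : Γ₁.Nonempty) (Γ₂ : Set M₂) (ψ : M₂ → M₁)
    (hψ : Iden N Z₁ Z₂ Γ₁ Γ₂ ψ) (P : Pair Z₁ N) (Q : Pair Z₂ N)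
    (hdata : SameData₂ Γ₁ Γ₂ ψ P Q) (h₁ : Γ₁ = bd Z₁) (h₂ : Γ₂ = bd Z₂) (e : M₁ → Fin N → ℂ)
    (he : Par P e) : ∃ e', Par Q e' ∧ ∀ x ∈ Γ₂, e' x = e (ψ x) := by
  subst hZ₁ hZ₂
  rw [bd_at] at h₁ h₂
  obtain ⟨hbij, hext, -⟩ := hψ
  have hne₂ : Γ₂.Nonempty := by
    obtain ⟨x, hx⟩ := hne
    obtain ⟨y, hy, -⟩ := hbij.surjOn hx
    exact ⟨y, hy⟩
  let _ : MeasurableSpace M₁ := borel M₁
  have _ : BorelSpace M₁ := ⟨rfl⟩
  let _ : MeasurableSpace M₂ := borel M₂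
  have _ : BorelSpace M₂ := ⟨rfl⟩
  have hcl : IsClosed ((𝓡∂ n).boundary M₁) := by
    obtain ⟨hIo, -, -⟩ := TM.fConn n M₁
    rw [← ModelWithCorners.compl_interior]
    exact hIo.isClosed_compl
  have hD : Data (at_ n M₁) Γ₁ e := by
    refine data_iff'.2 ⟨he.1, ?_⟩
    rw [h₁]
    exact closure_minimal (fun x hx => hx.1) hcl
  obtain ⟨f₂, hc⟩ := hext e hD
  obtain ⟨u, v, u', v', a1, a2, a3, a4, a5⟩ := hdata e f₂ e f₂ hc hc
  rw [energy_one a1 a2, energy_one a3 a4] at a5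
  have hb1 : ((𝓡∂ n).boundary M₁).Nonempty := by
    have : Γ₁ = (𝓡∂ n).boundary M₁ := h₁
    rw [← this]; exact hne
  have hb2 : ((𝓡∂ n).boundary M₂).Nonempty := by
    have : Γ₂ = (𝓡∂ n).boundary M₂ := h₂
    rw [← this]; exact hne₂
  have b1 := par_energy n N M₁ (one P) hb1 (S.toF e) (S.toF u) (S.toF v) ((par_toF P e).1 he)
    (harm_one a1) (harm_one a2)
  have b2 := energy_par n N M₂ (one Q) hb2 (S.toF f₂) (S.toF u') (S.toF v') (harm_one a3)
    (harm_one a4) (a5.symm.trans b1)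
  refine ⟨u', (par_toF Q u').2 b2, fun x hx => ?_⟩
  have hx' : x ∈ bd (at_ n M₂) := by rw [bd_at, ← h₂]; exact hx
  rw [a3.2.1 x hx']
  exact hc.2.2 x hx

end Vale.Agent.P088.B2
end
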