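import Vale.Agent.P088.H5.Spec3
import Vale.Agent.P088.H5.Calc

/-!
# P088, Theorem M+: products of parallel sections in the interior are constant
-/

set_option linter.all false

open Bundle Manifold MeasureTheory Set Filter Topology
open scoped ContDiff Matrix

noncomputable section

namespace Vale.Agent.P088.EYM.O

open Vale.Agent.P088 Vale.Agent.P088.EYM

universe u

section

variable {n N : ℕ} [NeZero n] {M : Type u} [TopologicalSpace M]
  [ChartedSpace (EuclideanHalfSpace n) M] [IsManifold (𝓡∂ n) ∞ M] [ConnectedSpace M]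

/-- The product of two sections which are smooth and parallel in the interior is constant there. -/
theorem inner_const_int {A : Connection (𝓡∂ n) N M} {s t : M → Fib N}
    (hs : ContMDiffOn (𝓡∂ n) 𝓘(ℝ, Fib N) ∞ s (Mi n M))
    (ht : ContMDiffOn (𝓡∂ n) 𝓘(ℝ, Fib N) ∞ t (Mi n M))
    (hsp : ∀ x ∈ Mi n M, ∀ X : TangentSpace (𝓡∂ n) x, cov A s x X = 0)
    (htp : ∀ x ∈ Mi n M, ∀ X : TangentSpace (𝓡∂ n) x, cov A t x X = 0) :
    ∀ x ∈ Mi n M, ∀ y ∈ Mi n M, (inner ℂ (s x) (t x) : ℂ) = inner ℂ (s y) (t y) := by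
  obtain ⟨hIo, -, -⟩ := TM.fConn n M
  set B : Fib N →L[ℝ] Fib N →L[ℝ] ℂ :=
    (isBoundedBilinearMap_inner (𝕜 := ℂ) (E := Fib N)).toContinuousLinearMap with hB
  have hBa : ∀ v w : Fib N, B v w = inner ℂ v w := fun _ _ => rfl
  have hsm : ContMDiffOn (𝓡∂ n) 𝓘(ℝ, ℂ) ∞ (fun y => (inner ℂ (s y) (t y) : ℂ)) (Mi n M) :=
    (contDiff_inner (𝕜 := ℂ) (E := Fib N)).contMDiff.comp_contMDiffOn (hs.prodMk_space ht)
  refine const_of_dmap hsm fun x hx X => ?_
  have h1 : MDifferentiableAt (𝓡∂ n) 𝓘(ℝ, Fib N) s x :=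
    (hs.contMDiffAt (hIo.mem_nhds hx)).mdifferentiableAt (by simp)
  have h2 : MDifferentiableAt (𝓡∂ n) 𝓘(ℝ, Fib N) t x :=
    (ht.contMDiffAt (hIo.mem_nhds hx)).mdifferentiableAt (by simp)
  have h3 := dmap_bilin B h1 h2 X
  have e1 : dmap (𝓡∂ n) s x X = -(A.form x X (s x)) := by
    have := hsp x hx X
    unfold cov at this
    exact eq_neg_of_add_eq_zero_left this
  have e2 : dmap (𝓡∂ n) t x X = -(A.form x X (t x)) := by
    have := htp x hx X
    unfold cov at this
    exact eq_neg_of_add_eq_zero_left this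
  have h8 : (inner ℂ (A.form x X (s x)) (t x) : ℂ) = -inner ℂ (s x) (A.form x X (t x)) := by
    rw [← ContinuousLinearMap.adjoint_inner_right, A.skew x X, ContinuousLinearMap.neg_apply,
      inner_neg_right]
  rw [e1, e2] at h3
  refine h3.trans ?_
  rw [hBa, hBa, inner_neg_left, inner_neg_right, h8]
  ring

/-- A section which is smooth and parallel in the interior has constant norm there. -/
theorem norm_const_int {A : Connection (𝓡∂ n) N M} {s : M → Fib N}
    (hs : ContMDiffOn (𝓡∂ n) 𝓘(ℝ, Fib N) ∞ s (Mi n M))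
    (hsp : ∀ x ∈ Mi n M, ∀ X : TangentSpace (𝓡∂ n) x, cov A s x X = 0) :
    ∀ x ∈ Mi n M, ∀ y ∈ Mi n M, ‖s x‖ = ‖s y‖ := by
  intro x hx y hy
  have h5 := inner_const_int hs hs hsp hsp x hx y hy
  simp only [inner_self_eq_norm_sq_to_K] at h5
  have h6 : ‖s x‖ ^ 2 = ‖s y‖ ^ 2 := by exact_mod_cast h5
  exact (pow_left_inj₀ (norm_nonneg _) (norm_nonneg _) two_ne_zero).1 h6

/-- The product of two parallel sections is constant. -/
theorem inner_const {A : Connection (𝓡∂ n) N M} {e e' : M → Fib N} (he : ParS A e)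
    (he' : ParS A e') : ∀ x y, (inner ℂ (e x) (e' x) : ℂ) = inner ℂ (e y) (e' y) := by
  obtain ⟨hIo, hIc, hd⟩ := TM.fConn n M
  have h4 := inner_const_int he.sm.contMDiffOn he'.sm.contMDiffOn (fun x _ => he.par x)
    (fun x _ => he'.par x)
  have hc : Continuous fun x => (inner ℂ (e x) (e' x) : ℂ) :=
    he.sm.continuous.inner he'.sm.continuous
  obtain ⟨x0, hx0⟩ : (Mi n M).Nonempty := by
    obtain ⟨x⟩ : Nonempty M := inferInstance
    exact closure_nonempty_iff.1 ⟨x, hd x⟩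
  have h7 : ∀ x : M, (inner ℂ (e x) (e' x) : ℂ) = inner ℂ (e x0) (e' x0) := by
    intro x
    have hcl : IsClosed {x : M | (inner ℂ (e x) (e' x) : ℂ) = inner ℂ (e x0) (e' x0)} :=
      isClosed_eq hc continuous_const
    exact hcl.closure_subset_iff.2 (fun y hy => h4 y hy x0 hx0) (hd x)
  intro x y
  rw [h7 x, h7 y]

end

end Vale.Agent.P088.EYM.O

end
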