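import Vale.Agent.P088.H5.R2_275
import Vale.Agent.P088.H5.S0_590
import Vale.Agent.P088.H5.Br820
import Vale.Agent.P088.H5.MF2_820

/-!
# P088, Theorem R, block R3
-/

set_option linter.all false

open Bundle Manifold MeasureTheory Set Filter
open scoped ContDiff Matrix Topology ENNReal

noncomputable section

namespace Vale.Agent.P088.B6

open Vale.Agent.P088 Vale.Agent.P088.B

universe u

section

variable {n : ℕ} [NeZero n] {N : ℕ} {M : Type u}
  [TopologicalSpace M] [ChartedSpace (EuclideanHalfSpace n) M] [IsManifold (𝓡∂ n) ∞ M]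
  [T2Space M] [CompactSpace M] [ConnectedSpace M]

/-- the adjoint of a smooth unitary function -/
theorem adj_uni {U : M → Matrix (Fin N) (Fin N) ℂ} (a1 : ∀ a, Sm (at_ n M) (fun x => U x a))
    (a2 : ∀ x, (U x)ᴴ * U x = 1) : (∀ a, Sm (at_ n M) (fun x => (U x)ᴴ a)) ∧
      (∀ x, ((U x)ᴴ)ᴴ * (U x)ᴴ = 1) ∧ ∀ x j,
        dM (fun y => (U (pt (at_ n M) x y))ᴴ) ((at_ n M).ch x x) j =
          -((U x)ᴴ * dM (fun y => U (pt (at_ n M) x y)) ((at_ n M).ch x x) j * (U x)ᴴ) := by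
  have hW : IsSmoothUnitary (𝓡∂ n) (fun x => S.toE (U x)) := B2.unU a1 a2
  have hWs : IsSmoothUnitary (𝓡∂ n) (fun x => S.toE ((U x)ᴴ)) := by
    have e : (fun x => S.toE ((U x)ᴴ)) = fun x => EYM.adjRE (S.toE (U x)) := by
      funext x
      exact S.toE_star _
    rw [e]
    exact ⟨EYM.adjRE.contMDiff.comp hW.smooth, fun x => Unitary.star_mem (hW.unitary x)⟩
  have s1 : ∀ a, Sm (at_ n M) (fun x => (U x)ᴴ a) := by
    have h8 := (S.uni_ofE hWs).1
    simp only [S.ofE_toE] at h8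
    exact h8
  have w3 : ∀ x, U x * (U x)ᴴ = 1 := fun x => mul_eq_one_comm.1 (a2 x)
  have s2 : ∀ x, ((U x)ᴴ)ᴴ * (U x)ᴴ = 1 := fun x => by
    rw [Matrix.conjTranspose_conjTranspose]; exact w3 x
  refine ⟨s1, s2, fun x j => ?_⟩
  have k4 := dM_mul s1 s2 a1 a2 x j
  have k5 : (fun y => (U (pt (at_ n M) x y))ᴴ * U (pt (at_ n M) x y)) = fun _ => 1 := by
    funext y
    exact a2 _
  rw [k5, dM_one] at k4
  have w3x := w3 x
  generalize dM (fun y => (U (pt (at_ n M) x y))ᴴ) ((at_ n M).ch x x) j = dS at *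
  generalize dM (fun y => U (pt (at_ n M) x y)) ((at_ n M).ch x x) j = dW at *
  have e1 : (U x)ᴴ * dW = -(dS * U x) := by
    rw [eq_neg_iff_add_eq_zero, add_comm]
    exact k4.symm
  rw [e1, neg_mul, neg_neg, Matrix.mul_assoc, w3x, Matrix.mul_one]

/-- the columns of a trivialization are parallel -/
theorem cols_par {P : Pair (at_ n M) N} {U : M → Matrix (Fin N) (Fin N) ℂ} {Γ : Set M}
    (h : B7.GaugeBy U univ Γ 0 P.A (at_ n M)) (b : Fin N) : Par P (fun x a => (U x)ᴴ a b) := by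
  obtain ⟨a1, a2, a3, a4⟩ := h
  obtain ⟨s1, s2, s3⟩ := adj_uni a1 a2
  refine ⟨fun a => s1 a b, fun x i a => ?_⟩
  have h1 := s3 x i
  have h2 := a4 x (mem_univ x) i
  simp only [Pi.zero_apply, zero_mul, zero_add] at h2
  rw [← h2] at h1
  have h3 := congrFun (congrFun h1 a) b
  show dj (fun y => (U (pt (at_ n M) x y))ᴴ a b) ((at_ n M).ch x x) i +
    (P.A x i *ᵥ fun a => (U x)ᴴ a b) a = 0
  have h4 : dj (fun y => (U (pt (at_ n M) x y))ᴴ a b) ((at_ n M).ch x x) i =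
    (-(P.A x i * (U x)ᴴ)) a b := h3
  rw [h4]
  show -((P.A x i * (U x)ᴴ) a b) + _ = 0
  rw [Matrix.mul_apply]
  exact neg_add_cancel _

/-- a parallel frame which is the identity on `Γ` is a trivialization -/
theorem triv_of_cols {Q : Pair (at_ n M) N} {Γ : Set M} (hne : Γ.Nonempty)
    (e : Fin N → M → Fin N → ℂ) (he : ∀ b, Par Q (e b))
    (h1 : ∀ b, ∀ x ∈ Γ, ∀ a, e b x a = (1 : Matrix (Fin N) (Fin N) ℂ) a b) :
    ∃ U, B7.GaugeBy U univ Γ 0 Q.A (at_ n M) := by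
  obtain ⟨p, hp⟩ := hne
  set E : M → Matrix (Fin N) (Fin N) ℂ := fun x => Matrix.of fun a b => e b x a with hE
  have hEu : ∀ x, (E x)ᴴ * E x = 1 := by
    intro x
    ext a b
    have h2 := EYM.O.inner_const ((B2.par_toF Q (e a)).1 (he a)) ((B2.par_toF Q (e b)).1 (he b)) x p
    have h3 : ∀ y, (inner ℂ (S.toF (e a) y) (S.toF (e b) y) : ℂ) = ((E y)ᴴ * E y) a b := by
      intro y
      rw [Matrix.mul_apply, PiLp.inner_apply]
      refine Finset.sum_congr rfl fun c _ => ?_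
      show (inner ℂ (e a y c) (e b y c) : ℂ) = star (e a y c) * e b y c
      rw [RCLike.inner_apply]
      exact mul_comm _ _
    rw [h3, h3] at h2
    rw [h2]
    have h4 : E p = 1 := by
      ext c d
      exact h1 d p hp c
    rw [h4, Matrix.conjTranspose_one, Matrix.one_mul]
  have hEs : ∀ a, Sm (at_ n M) (fun x => E x a) := fun a b => (he b).1 a
  obtain ⟨s1, s2, s3⟩ := adj_uni hEs hEu
  refine ⟨fun x => (E x)ᴴ, s1, s2, fun x hx => ?_, fun x _ j => ?_⟩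
  · have h4 : E x = 1 := by
      ext c d
      exact h1 d x hx c
    show (E x)ᴴ = 1
    rw [h4, Matrix.conjTranspose_one]
  · have h5 : dM (fun y => E (pt (at_ n M) x y)) ((at_ n M).ch x x) j = -(Q.A x j * E x) := by
      ext a b
      have h6 := (he b).2 x j a
      have h7 : dj (fun y => e b (pt (at_ n M) x y) a) ((at_ n M).ch x x) j =
          -((Q.A x j *ᵥ e b x) a) := eq_neg_of_add_eq_zero_left h6
      show dj (fun y => e b (pt (at_ n M) x y) a) ((at_ n M).ch x x) j = -((Q.A x j * E x) a b)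
      rw [h7]
      rfl
    have h8 := s3 x j
    rw [h5] at h8
    have h9 : E x * (E x)ᴴ = 1 := mul_eq_one_comm.1 (hEu x)
    show Q.A x j = ((E x)ᴴ)ᴴ * ((0 : M → Fin n → Matrix (Fin N) (Fin N) ℂ) x j * (E x)ᴴ +
      dM (fun y => (E (pt (at_ n M) x y))ᴴ) ((at_ n M).ch x x) j)
    rw [h8, Matrix.conjTranspose_conjTranspose]
    simp only [Pi.zero_apply, zero_mul, zero_add]
    have h10 : E x * -((E x)ᴴ * -(Q.A x j * E x) * (E x)ᴴ) =
        (E x * (E x)ᴴ) * Q.A x j * (E x * (E x)ᴴ) := by noncomm_ring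
    rw [h10, h9, Matrix.one_mul, Matrix.mul_one]

end

theorem r3 : R3_statement.{u} := by
  intro n N _ M₁ M₂ _ _ _ _ _ _ _ _ _ _ _ _ Z₁ hZ₁ Z₂ hZ₂ hne ψ hψ P Q hd hP
  subst hZ₁
  subst hZ₂
  obtain ⟨U₁, hU₁⟩ := hP
  have hne₂ : (bd (at_ n M₂)).Nonempty := by
    obtain ⟨x, hx⟩ := hne
    obtain ⟨y, hy, -⟩ := hψ.1.surjOn hx
    exact ⟨y, hy⟩
  have hex : ∀ b : Fin N, ∃ e', Par Q e' ∧
      ∀ x ∈ bd (at_ n M₂), e' x = (fun x a => (U₁ x)ᴴ a b) (ψ x) := fun b =>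
    B2.par_two (at_ n M₁) rfl (at_ n M₂) rfl _ hne _ ψ hψ P Q hd rfl rfl _ (cols_par hU₁ b)
  choose e he1 he2 using hex
  refine triv_of_cols hne₂ e he1 fun b x hx a => ?_
  rw [he2 b x hx]
  show (U₁ (ψ x))ᴴ a b = _
  rw [hU₁.2.2.1 (ψ x) (hψ.1.mapsTo hx), Matrix.conjTranspose_one]

end Vale.Agent.P088.B6

end
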