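import Vale.Agent.P088.H5.RSpec

/-!
# P088, Theorem R, block R2
-/

set_option linter.all false

open Bundle Manifold MeasureTheory Set Filter
open scoped ContDiff Matrix Topology ENNReal

noncomputable section

namespace Vale.Agent.P088.B6

open Vale.Agent.P088 Vale.Agent.P088.B

universe u

section

variable {n : ℕ} [NeZero n] {N : ℕ} {M₁ M₂ : Type u}
  [TopologicalSpace M₁] [ChartedSpace (EuclideanHalfSpace n) M₁] [IsManifold (𝓡∂ n) ∞ M₁]
  [T2Space M₁] [CompactSpace M₁] [ConnectedSpace M₁]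
  [TopologicalSpace M₂] [ChartedSpace (EuclideanHalfSpace n) M₂] [IsManifold (𝓡∂ n) ∞ M₂]
  [T2Space M₂] [CompactSpace M₂] [ConnectedSpace M₂]

/-- chain rule for matrix valued functions -/
theorem dM_comp {Φ : M₂ → M₁} (hΦ : ContMDiff (𝓡∂ n) (𝓡∂ n) ∞ Φ)
    {U : M₁ → Matrix (Fin N) (Fin N) ℂ} (hU : IsSmoothUnitary (𝓡∂ n) (fun x => S.toE (U x)))
    (x : M₂) (j : Fin n) :
    dM (fun y => U (Φ (pt (at_ n M₂) x y))) ((at_ n M₂).ch x x) j =
      ∑ i, B2.jac₂ (at_ n M₁) (at_ n M₂) Φ x i j •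
        dM (fun y => U (pt (at_ n M₁) (Φ x) y)) ((at_ n M₁).ch (Φ x) (Φ x)) i := by
  have hW : IsSmoothUnitary (𝓡∂ n) (fun x => S.toE (U (Φ x))) :=
    ⟨hU.smooth.comp hΦ, fun x => hU.unitary (Φ x)⟩
  have e1 := toE_dM hW x j
  have hd : MDifferentiableAt (𝓡∂ n) (𝓡∂ n) Φ x := hΦ.mdifferentiable (by simp) x
  simp only [S.ofE_toE] at e1
  apply S.toE_inj
  rw [e1, ← S.toE_rsum]
  have e2 : ∀ i, S.toE (dM (fun y => U (pt (at_ n M₁) (Φ x) y)) ((at_ n M₁).ch (Φ x) (Φ x)) i) =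
      dI (𝓡∂ n) (fun x => S.toE (U x)) (Φ x) (es n i) := by
    intro i
    have e3 := toE_dM hU (Φ x) i
    simp only [S.ofE_toE] at e3
    exact e3
  simp only [e2]
  have e4 : dI (𝓡∂ n) (fun x => S.toE (U (Φ x))) x (es n j) =
      dI (𝓡∂ n) (fun x => S.toE (U x)) (Φ x) (B2.D2 Φ x (es n j)) := by
    have h1 := mfderiv_comp x (hU.smooth.mdifferentiable (by simp) (Φ x)) hd
    exact DFunLike.congr_fun h1 (es n j)
  rw [e4]
  have e5 : B2.D2 Φ x (es n j) = ∑ i, B2.jac₂ (at_ n M₁) (at_ n M₂) Φ x i j •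
      (es n i : EuclideanSpace ℝ (Fin n)) := by
    have h2 := B2.exp_es (n := n) (B2.D2 Φ x (es n j))
    refine h2.trans (Finset.sum_congr rfl fun i _ => ?_)
    rw [B2.jac₂_eq hd]
  rw [e5, map_sum]
  exact Finset.sum_congr rfl fun i _ => map_smul _ _ _

theorem dM_one (x : M₂) (j : Fin n) :
    dM (fun _ : V n => (1 : Matrix (Fin N) (Fin N) ℂ)) ((at_ n M₂).ch x x) j = 0 := by
  ext a b
  show derivWithin (fun _ => (1 : Matrix (Fin N) (Fin N) ℂ) a b) _ _ = 0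
  simp

end

theorem r2 : R2_statement.{u} := by
  intro n N _ M₁ M₂ _ _ _ _ _ _ _ _ _ _ _ _ Z₁ hZ₁ Z₂ hZ₂ Γ₁ Γ₂ ψ hψ P Q hP hQ P₀ Q₀ hs₁ hs₂ Φ Ψ
    U₀ hR
  subst hZ₁
  subst hZ₂
  obtain ⟨U₁, a1, a2, a3, a4⟩ := hP
  obtain ⟨U₂, b1, b2, b3, b4⟩ := hQ
  obtain ⟨h1, h2, h3, h3', h4, h5, h6, h7⟩ := hR
  have hΦ := B2.unmap₂ h1
  letI := borel M₂
  haveI : BorelSpace M₂ := ⟨rfl⟩
  have hU₁ : IsSmoothUnitary (𝓡∂ n) (fun x => S.toE (U₁ x)) := B2.unU a1 a2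
  set W : M₂ → Matrix (Fin N) (Fin N) ℂ := fun x => U₁ (Φ x) with hWd
  have hW : IsSmoothUnitary (𝓡∂ n) (fun x => S.toE (W x)) :=
    ⟨hU₁.smooth.comp hΦ, fun x => hU₁.unitary (Φ x)⟩
  have hWs : IsSmoothUnitary (𝓡∂ n) (fun x => S.toE ((W x)ᴴ)) := by
    have e : (fun x => S.toE ((W x)ᴴ)) = fun x => EYM.adjRE (S.toE (W x)) := by
      funext x
      exact S.toE_star _
    rw [e]
    exact ⟨EYM.adjRE.contMDiff.comp hW.smooth, fun x => Unitary.star_mem (hW.unitary x)⟩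
  have w1 : ∀ a, Sm (at_ n M₂) (fun x => W x a) := by
    have h8 := (S.uni_ofE hW).1
    simp only [S.ofE_toE] at h8
    exact h8
  have w2 : ∀ x, (W x)ᴴ * W x = 1 := fun x => a2 (Φ x)
  have s1 : ∀ a, Sm (at_ n M₂) (fun x => (W x)ᴴ a) := by
    have h8 := (S.uni_ofE hWs).1
    simp only [S.ofE_toE] at h8
    exact h8
  have w3 : ∀ x, W x * (W x)ᴴ = 1 := fun x => mul_eq_one_comm.1 (w2 x)
  have s2 : ∀ x, ((W x)ᴴ)ᴴ * (W x)ᴴ = 1 := fun x => by
    rw [Matrix.conjTranspose_conjTranspose]; exact w3 x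
  have hU₂ : IsSmoothUnitary (𝓡∂ n) (fun x => S.toE (U₂ x)) := B2.unU b1 b2
  have hFG : IsSmoothUnitary (𝓡∂ n) (fun x => S.toE ((W x)ᴴ * U₂ x)) := by
    have e : (fun x => S.toE ((W x)ᴴ * U₂ x)) = fun x => S.toE ((W x)ᴴ) * S.toE (U₂ x) := by
      funext x
      exact S.toE_mul _ _
    rw [e]
    exact ⟨contMDiff_bilin isBB_mul hWs.smooth hU₂.smooth,
      fun x => mul_mem (hWs.unitary x) (hU₂.unitary x)⟩
  refine ⟨fun x => (W x)ᴴ * U₂ x, h1, h2, h3, h3', ?_, fun x => ?_, fun x hx => ?_, fun x => ?_⟩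
  · have h8 := (S.uni_ofE hFG).1
    simp only [S.ofE_toE] at h8
    exact h8
  · rw [Matrix.conjTranspose_mul, Matrix.conjTranspose_conjTranspose, Matrix.mul_assoc,
      ← Matrix.mul_assoc (W x), w3 x, Matrix.one_mul, b2 x]
  · refine ⟨(h6 x hx).1, ?_⟩
    show (U₁ (Φ x))ᴴ * U₂ x = 1
    rw [b3 x hx, (h6 x hx).1, a3 (ψ x) (hψ hx), Matrix.conjTranspose_one, Matrix.one_mul]
  · intro J
    obtain ⟨h8, -⟩ := h7 x
    refine ⟨?_, fun j => ?_⟩
    · rw [← hs₂.g, ← hs₁.g]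
      exact h8
    · have k1 : (∑ i, J i j • P.A (Φ x) i) =
          (W x)ᴴ * dM (fun y => W (pt (at_ n M₂) x y)) ((at_ n M₂).ch x x) j := by
        have k2 := dM_comp hΦ hU₁ x j
        show _ = (W x)ᴴ * dM (fun y => U₁ (Φ (pt (at_ n M₂) x y))) ((at_ n M₂).ch x x) j
        rw [k2, Finset.mul_sum]
        refine Finset.sum_congr rfl fun i _ => ?_
        rw [a4 (Φ x) (mem_univ _) i, Matrix.mul_smul]
        simp only [Pi.zero_apply, zero_mul, zero_add]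
        rfl
      have k3 := dM_mul s1 s2 b1 b2 x j
      have k4 := dM_mul s1 s2 w1 w2 x j
      have k5 : (fun y => (W (pt (at_ n M₂) x y))ᴴ * W (pt (at_ n M₂) x y)) = fun _ => 1 := by
        funext y
        exact w2 _
      rw [k5, dM_one] at k4
      have k6 := b4 x (mem_univ x) j
      simp only [Pi.zero_apply, zero_mul, zero_add] at k6
      show Q.A x j = ((W x)ᴴ * U₂ x)ᴴ * ((∑ i, J i j • P.A (Φ x) i) * ((W x)ᴴ * U₂ x) +
        dM (fun y => (W (pt (at_ n M₂) x y))ᴴ * U₂ (pt (at_ n M₂) x y)) ((at_ n M₂).ch x x) j)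
      rw [k1, k3, k6, Matrix.conjTranspose_mul, Matrix.conjTranspose_conjTranspose]
      have w3x := w3 x
      generalize dM (fun y => (W (pt (at_ n M₂) x y))ᴴ) ((at_ n M₂).ch x x) j = dS at *
      generalize dM (fun y => W (pt (at_ n M₂) x y)) ((at_ n M₂).ch x x) j = dW at *
      generalize dM (fun y => U₂ (pt (at_ n M₂) x y)) ((at_ n M₂).ch x x) j = dU at *
      generalize hw : W x = w at *
      have e1 : w ᴴ * dW = -(dS * w) := by
        rw [eq_neg_iff_add_eq_zero, add_comm]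
        exact k4.symm
      rw [e1]
      have e2 : -(dS * w) * (wᴴ * U₂ x) + (dS * U₂ x + wᴴ * dU) = wᴴ * dU := by
        have : -(dS * w) * (wᴴ * U₂ x) = -(dS * ((w * wᴴ) * U₂ x)) := by noncomm_ring
        rw [this, w3x, Matrix.one_mul]
        abel
      rw [e2, Matrix.mul_assoc, ← Matrix.mul_assoc w, w3x, Matrix.one_mul]

end Vale.Agent.P088.B6

end
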