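import Vale.Agent.P088.H5.R7_435
import Vale.Agent.P088.H5.R2_275

/-!
# P088, Theorem R: related pairs have related metrics
-/

set_option linter.all false

open Bundle Manifold MeasureTheory Set Filter
open scoped ContDiff Matrix Topology ENNReal

noncomputable section

namespace Vale.Agent.P088.B6

open Vale.Agent.P088 Vale.Agent.P088.B

universe u

theorem dM_const8 {n N : ℕ} (c : Matrix (Fin N) (Fin N) ℂ) (y : V n) (i : Fin n) :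
    dM (fun _ => c) y i = 0 := by
  ext a b
  exact congrFun (derivWithin_const _ (c a b)) (y i)

theorem related_sc {n N : ℕ} [NeZero n] (hN : 1 ≤ N) {M₁ M₂ : Type u}
    [TopologicalSpace M₁] [ChartedSpace (EuclideanHalfSpace n) M₁] [IsManifold (𝓡∂ n) ∞ M₁]
    [T2Space M₁] [CompactSpace M₁] [ConnectedSpace M₁]
    [TopologicalSpace M₂] [ChartedSpace (EuclideanHalfSpace n) M₂] [IsManifold (𝓡∂ n) ∞ M₂]
    [T2Space M₂] [CompactSpace M₂] [ConnectedSpace M₂]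
    {Γ₁ O₁ : Set M₁} (hO₁ : IsOpen O₁) (hΓ₁ : Γ₁ = O₁ ∩ bd (at_ n M₁))
    (hne : Γ₁.Nonempty) {Γ₂ O₂ : Set M₂} (hO₂ : IsOpen O₂) (hΓ₂ : Γ₂ = O₂ ∩ bd (at_ n M₂))
    {ψ : M₂ → M₁} (hψ : B2.Iden N (at_ n M₁) (at_ n M₂) Γ₁ Γ₂ ψ) {P : Pair (at_ n M₁) N}
    {Q : Pair (at_ n M₂) N} (hR : B2.Related₂ Γ₁ Γ₂ ψ P Q)
    (P₀ : Pair (at_ n M₁) 1) (Q₀ : Pair (at_ n M₂) 1) (a1 : P₀.g = P.g) (a2 : P₀.A = 0)
    (a3 : Q₀.g = Q.g) (a4 : Q₀.A = 0) : B2.Related₂ Γ₁ Γ₂ ψ P₀ Q₀ := by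
  obtain ⟨Φ, Ψ, U, b1, b2, b3, b4, b5, b6, b7, b8, -⟩ := hR
  have hRel : B2.Rel₂ Γ₂ ψ P₀ Q₀ Φ Ψ (fun _ => 1) := by
    refine ⟨b1, b2, b3, b4, fun a => ?_, fun x => ?_, fun x hx => ⟨(b7 x hx).1, rfl⟩, fun x => ?_⟩
    · intro b
      exact contMDiffOn_const
    · rw [Matrix.conjTranspose_one, Matrix.mul_one]
    · refine ⟨?_, fun j => ?_⟩
      · rw [a1, a3]
        exact (b8 x).1
      · rw [a2, a4, dM_const8]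
        simp
  exact ⟨Φ, Ψ, _, b1, b2, b3, b4, hRel.2.2.2.2.1, hRel.2.2.2.2.2.1, hRel.2.2.2.2.2.2.1,
    hRel.2.2.2.2.2.2.2, rel_sol hO₁ hΓ₁ hne hO₂ hΓ₂ (iden_one hN hψ) hRel⟩

/-- Full data on two manifolds. If `A₁` has a parallel section, the metrics have the same scalar
data; if `A₁` is gauge trivial, the pairs are related if and only if the metrics are. -/
theorem red_iff_of (r3 : R3_statement.{u})
    {n N : ℕ} [NeZero n] (hn : 3 ≤ n) (hN : 1 ≤ N) {M₁ M₂ : Type u}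
    [TopologicalSpace M₁] [ChartedSpace (EuclideanHalfSpace n) M₁] [IsManifold (𝓡∂ n) ∞ M₁]
    [T2Space M₁] [CompactSpace M₁] [ConnectedSpace M₁]
    [TopologicalSpace M₂] [ChartedSpace (EuclideanHalfSpace n) M₂] [IsManifold (𝓡∂ n) ∞ M₂]
    [T2Space M₂] [CompactSpace M₂] [ConnectedSpace M₂]
    (Z₁ : At n M₁) (hZ₁ : Z₁ = at_ n M₁) (Z₂ : At n M₂) (hZ₂ : Z₂ = at_ n M₂)
    (hne : (bd Z₁).Nonempty) (ψ : M₂ → M₁) (hψ : B2.Iden N Z₁ Z₂ (bd Z₁) (bd Z₂) ψ)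
    (P : Pair Z₁ N) (Q : Pair Z₂ N) (hd : B2.SameData₂ (bd Z₁) (bd Z₂) ψ P Q)
    (P₀ : Pair Z₁ 1) (Q₀ : Pair Z₂ 1) (a1 : P₀.g = P.g) (a2 : P₀.A = 0) (a3 : Q₀.g = Q.g)
    (a4 : Q₀.A = 0) :
    ((∃ e, Par P e ∧ e ≠ 0) → B2.SameData₂ (bd Z₁) (bd Z₂) ψ P₀ Q₀) ∧
    ((∃ U, B8.GaugeBy U univ (bd Z₁) 0 P.A Z₁) →
      (B2.Related₂ (bd Z₁) (bd Z₂) ψ P Q ↔ B2.Related₂ (bd Z₁) (bd Z₂) ψ P₀ Q₀)) := by
  have h := red_related_of r2 r3 hn hN Z₁ hZ₁ Z₂ hZ₂ hne ψ hψ P Q hd P₀ Q₀ a1 a2 a3 a4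
  refine ⟨h.1, fun hU => ⟨fun hR => ?_, h.2 hU⟩⟩
  subst hZ₁ hZ₂
  exact related_sc hN isOpen_univ (univ_inter _).symm hne isOpen_univ (univ_inter _).symm hψ hR
    P₀ Q₀ a1 a2 a3 a4

end Vale.Agent.P088.B6

end
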