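import Vale.Agent.P088.H5.Fin2_820
import Vale.Agent.P088.H5.R1b_332
import Vale.Agent.P088.H5.R3_275
import Vale.Agent.P088.H5.R8_435

/-!
# P088: arbitrary smooth pairs, two manifolds
-/

open Bundle Manifold MeasureTheory Set Filter
open scoped ContDiff Matrix Topology ENNReal

noncomputable section

set_option linter.all false

namespace Vale.Agent.P088.B8

open Vale.Agent.P088 Vale.Agent.P088.B Vale.Agent.P088.B2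

universe u

/-- two manifolds: parallel sections, the trivial connection, reduction to the scalar problem -/
theorem two_man
    {n N : ℕ} [NeZero n] (hN : 1 ≤ N) {M₁ M₂ : Type u}
    [TopologicalSpace M₁] [ChartedSpace (EuclideanHalfSpace n) M₁] [IsManifold (𝓡∂ n) ∞ M₁]
    [T2Space M₁] [CompactSpace M₁] [ConnectedSpace M₁]
    [TopologicalSpace M₂] [ChartedSpace (EuclideanHalfSpace n) M₂] [IsManifold (𝓡∂ n) ∞ M₂]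
    [T2Space M₂] [CompactSpace M₂] [ConnectedSpace M₂]
    (Z₁ : At n M₁) (hZ₁ : Z₁ = at_ n M₁) (Z₂ : At n M₂) (hZ₂ : Z₂ = at_ n M₂)
    (Γ₁ O₁ : Set M₁) (hO₁ : IsOpen O₁) (hΓ₁ : Γ₁ = O₁ ∩ bd Z₁) (hne : Γ₁.Nonempty)
    (Γ₂ O₂ : Set M₂) (hO₂ : IsOpen O₂) (hΓ₂ : Γ₂ = O₂ ∩ bd Z₂) (ψ : M₂ → M₁)
    (hψ : Iden N Z₁ Z₂ Γ₁ Γ₂ ψ) (P : Pair Z₁ N) (Q : Pair Z₂ N) (hd : SameData₂ Γ₁ Γ₂ ψ P Q) :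
    (Γ₁ = bd Z₁ → Γ₂ = bd Z₂ →
      (∀ e, Par P e → ∃ e', Par Q e' ∧ ∀ x ∈ Γ₂, e' x = e (ψ x)) ∧
      ((∃ U, GaugeBy U univ Γ₁ 0 P.A Z₁) → ∃ U, GaugeBy U univ Γ₂ 0 Q.A Z₂)) ∧
    (∀ (P₀ : Pair Z₁ 1) (Q₀ : Pair Z₂ 1), P₀.g = P.g → P₀.A = 0 → Q₀.g = Q.g → Q₀.A = 0 →
      (∀ e, Par P e → e ≠ 0 → (∃ e', Par Q e' ∧ ∀ x ∈ Γ₂, e' x = e (ψ x)) ∨
        (Γ₁ = bd Z₁ ∧ Γ₂ = bd Z₂) → SameData₂ Γ₁ Γ₂ ψ P₀ Q₀) ∧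
      ((∃ U, GaugeBy U univ Γ₁ 0 P.A Z₁) →
        (∃ U, GaugeBy U univ Γ₂ 0 Q.A Z₂) ∨ (Γ₁ = bd Z₁ ∧ Γ₂ = bd Z₂) →
        SameData₂ Γ₁ Γ₂ ψ P₀ Q₀ ∧
          (Related₂ Γ₁ Γ₂ ψ P Q ↔ Related₂ Γ₁ Γ₂ ψ P₀ Q₀))) := by
  have key : Γ₁ = bd Z₁ → Γ₂ = bd Z₂ → (∃ U, GaugeBy U univ Γ₁ 0 P.A Z₁) →
      ∃ U, GaugeBy U univ Γ₂ 0 Q.A Z₂ := by
    intro h₁ h₂ hU
    subst h₁ h₂
    exact B6.r3 Z₁ hZ₁ Z₂ hZ₂ hne ψ hψ P Q hd hU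
  refine ⟨fun h₁ h₂ => ⟨fun e he => par_two Z₁ hZ₁ Z₂ hZ₂ Γ₁ hne Γ₂ ψ hψ P Q hd h₁ h₂ e he,
      key h₁ h₂⟩, fun P₀ Q₀ hPg hPA hQg hQA => ?_⟩
  have hA : ∀ e e', Par P e → Par Q e' → e ≠ 0 → (∀ x ∈ Γ₂, e' x = e (ψ x)) →
        SameData₂ Γ₁ Γ₂ ψ P₀ Q₀ := by
    intro e e' he he' h0 heq
    subst hZ₁ hZ₂
    exact (B6.red_gen hO₁ hΓ₁ hne hO₂ hΓ₂ hψ hd he he' h0 heq P₀ Q₀ hPg hPA hQg hQA).2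
  refine ⟨fun e he h0 h => ?_, fun h1 h2' => ?_⟩
  · rcases h with ⟨e', he', heq⟩ | ⟨h₁, h₂⟩
    · exact hA e e' he he' h0 heq
    · obtain ⟨e', he', heq⟩ := par_two Z₁ hZ₁ Z₂ hZ₂ Γ₁ hne Γ₂ ψ hψ P Q hd h₁ h₂ e he
      exact hA e e' he he' h0 heq
  have h2 : ∃ U, GaugeBy U univ Γ₂ 0 Q.A Z₂ := by
    rcases h2' with h2 | ⟨h₁, h₂⟩
    · exact h2
    · exact key h₁ h₂ h1
  clear h2' key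
  refine ⟨?_, fun h3 => ?_, fun h3 => ?_⟩
  · obtain ⟨U₁, hU₁⟩ := h1
    obtain ⟨U₂, hU₂⟩ := h2
    subst hZ₁ hZ₂
    have hU₁' : B7.GaugeBy U₁ univ Γ₁ 0 P.A (at_ n M₁) := hU₁
    have hU₂' : B7.GaugeBy U₂ univ Γ₂ 0 Q.A (at_ n M₂) := hU₂
    refine hA _ _ (B6.cols_par hU₁' ⟨0, hN⟩) (B6.cols_par hU₂' ⟨0, hN⟩) (fun h => ?_)
      fun x hx => ?_
    · obtain ⟨p, hp⟩ := hne
      have h4 := congrFun (congrFun h p) ⟨0, hN⟩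
      have h5 : (U₁ p)ᴴ ⟨0, hN⟩ ⟨0, hN⟩ = 0 := h4
      rw [hU₁.2.2.1 p hp, Matrix.conjTranspose_one, Matrix.one_apply_eq] at h5
      exact one_ne_zero h5
    · funext a
      show (U₂ x)ᴴ a ⟨0, hN⟩ = (U₁ (ψ x))ᴴ a ⟨0, hN⟩
      rw [hU₂.2.2.1 x hx, hU₁.2.2.1 (ψ x) (hψ.1.mapsTo hx)]
  · subst hZ₁ hZ₂
    exact B6.related_sc hN hO₁ hΓ₁ hne hO₂ hΓ₂ hψ h3 P₀ Q₀ hPg hPA hQg hQA
  · obtain ⟨Φ, Ψ, U₀, b1, b2, b3, b4, b5, b6, b7, b8, -⟩ := h3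
    obtain ⟨U, hR⟩ := B6.r2 Z₁ hZ₁ Z₂ hZ₂ Γ₁ Γ₂ ψ hψ.1.mapsTo P Q h1 h2 P₀ Q₀ ⟨hPg, hPA⟩
      ⟨hQg, hQA⟩ Φ Ψ U₀ ⟨b1, b2, b3, b4, b5, b6, b7, b8⟩
    subst hZ₁ hZ₂
    have hs := B6.rel_sol hO₁ hΓ₁ hne hO₂ hΓ₂ hψ hR
    obtain ⟨c1, c2, c3, c4, c5, c6, c7, c8⟩ := hR
    exact ⟨Φ, Ψ, U, c1, c2, c3, c4, c5, c6, c7, c8, hs⟩

/-- Question 1, for the transform -/
theorem q1key {n N : ℕ} [NeZero n] {M : Type u} [TopologicalSpace M]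
    [ChartedSpace (EuclideanHalfSpace n) M] [IsManifold (𝓡∂ n) ∞ M] [T2Space M] [CompactSpace M]
    [ConnectedSpace M] (hn : 3 ≤ n) (hN : 1 ≤ N) (Γ O₀ : Set M)
    (hO₀ : IsOpen O₀) (hΓ : Γ = O₀ ∩ bd (at_ n M)) (hne : Γ.Nonempty)
    (P' Q : Pair (at_ n M) N) (hd' : B.SameData Γ P' Q)
    (h : (PwLe univ Γ P' Q ∧ ∃ U K V, Hole U K V Γ P' Q ∧ PureOn V P'.A (at_ n M)) ∨
      ((Le univ P' Q ∨ Γ = bd (at_ n M) ∧ PwLe univ Γ P' Q) ∧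
        ∃ U, GaugeBy U univ Γ 0 P'.A (at_ n M))) :
    (∃ V, GaugeBy V univ Γ P'.A Q.A (at_ n M)) ∧ Q.g = P'.g := by
  have key : ∀ V, PwLe univ Γ P' Q → GaugeBy V univ Γ P'.A Q.A (at_ n M) → Q.g = P'.g := by
    intro V h2 h3
    have h4 := (loc hn hN (at_ n M) rfl Γ O₀ hO₀ hΓ P' Q hd' univ isOpen_univ h2 V
      (by rw [univ_inter]; exact h3)).1
    exact funext fun x => h4 x (by rw [closure_univ]; exact mem_univ x)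
  rcases h with ⟨h1, U, K, V, h2, h3⟩ | ⟨h | ⟨h1, h2⟩, U, hU⟩
  · obtain ⟨U', hU', -⟩ := (hole' hn hN (at_ n M) rfl Γ O₀ hO₀ hΓ hne P' Q hd' U K V h2).2.2 h3
    exact ⟨⟨U', hU'⟩, key U' h1 hU'⟩
  · have e1 : GaugeEq Γ 0 P'.A (at_ n M) :=
      ⟨U, hU.1, hU.2.1, hU.2.2.1, fun x j => hU.2.2.2 x (mem_univ x) j⟩
    have h4 := (theoremM hn hN (at_ n M) rfl Γ O₀ hO₀ hΓ hne P' Q hd').2.1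
      (fun x => h x (mem_univ x)) e1
    obtain ⟨V, k1, k2, k3, k4⟩ := B5.gauge_triv e1 h4.1
    exact ⟨⟨V, k1, k2, k3, fun x _ j => k4 x j⟩, h4.2⟩
  · obtain ⟨U', hU'⟩ := ((B5.smooth_par hn hN (at_ n M) rfl Γ O₀ hO₀ hΓ hne P' Q hd').1
      (Or.inl h1)).2 ⟨U, hU⟩
    have e1 : GaugeEq Γ 0 P'.A (at_ n M) :=
      ⟨U, hU.1, hU.2.1, hU.2.2.1, fun x j => hU.2.2.2 x (mem_univ x) j⟩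
    have e2 : GaugeEq Γ 0 Q.A (at_ n M) :=
      ⟨U', hU'.1, hU'.2.1, hU'.2.2.1, fun x j => hU'.2.2.2 x (mem_univ x) j⟩
    obtain ⟨V, k1, k2, k3, k4⟩ := B5.gauge_triv e1 e2
    have h3 : GaugeBy V univ Γ P'.A Q.A (at_ n M) := ⟨k1, k2, k3, fun x _ j => k4 x j⟩
    exact ⟨⟨V, h3⟩, key V h2 h3⟩

/-- Question 1 -/
theorem q1' {n N : ℕ} [NeZero n] {M : Type u} [TopologicalSpace M]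
    [ChartedSpace (EuclideanHalfSpace n) M] [IsManifold (𝓡∂ n) ∞ M] [T2Space M] [CompactSpace M]
    [ConnectedSpace M] (hn : 3 ≤ n) (hN : 1 ≤ N) (Z : At n M) (hZ : Z = at_ n M) (Γ O₀ : Set M)
    (hO₀ : IsOpen O₀) (hΓ : Γ = O₀ ∩ bd Z) (hne : Γ.Nonempty) (P P' Q : Pair Z N)
    (hd : B.SameData Γ P Q) (hR : Related Γ P P')
    (h : (PwLe univ Γ P' Q ∧ ∃ U K V, Hole U K V Γ P' Q ∧ PureOn V P'.A Z) ∨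
      ((Le univ P' Q ∨ Γ = bd Z ∧ PwLe univ Γ P' Q) ∧ ∃ U, GaugeBy U univ Γ 0 P'.A Z)) :
    Related Γ P Q := by
  have hd' : B.SameData Γ P' Q := B.same_related Z hZ hO₀ hΓ hne hR hd
  subst hZ
  obtain ⟨⟨V, hV⟩, hg⟩ := q1key hn hN Γ O₀ hO₀ hΓ hne P' Q hd' h
  exact B5.related_of hR hV hg

/-- Question 1, two manifolds -/
theorem q1_two {n N : ℕ} [NeZero n] (hn : 3 ≤ n) (hN : 1 ≤ N) {M₁ M₂ : Type u}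
    [TopologicalSpace M₁] [ChartedSpace (EuclideanHalfSpace n) M₁] [IsManifold (𝓡∂ n) ∞ M₁]
    [T2Space M₁] [CompactSpace M₁] [ConnectedSpace M₁]
    [TopologicalSpace M₂] [ChartedSpace (EuclideanHalfSpace n) M₂] [IsManifold (𝓡∂ n) ∞ M₂]
    [T2Space M₂] [CompactSpace M₂] [ConnectedSpace M₂]
    (Z₁ : At n M₁) (hZ₁ : Z₁ = at_ n M₁) (Z₂ : At n M₂) (hZ₂ : Z₂ = at_ n M₂)
    (Γ₁ O₁ : Set M₁) (hO₁ : IsOpen O₁) (hΓ₁ : Γ₁ = O₁ ∩ bd Z₁) (hne : Γ₁.Nonempty)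
    (Γ₂ O₂ : Set M₂) (hO₂ : IsOpen O₂) (hΓ₂ : Γ₂ = O₂ ∩ bd Z₂) (ψ : M₂ → M₁)
    (hψ : Iden N Z₁ Z₂ Γ₁ Γ₂ ψ) (P : Pair Z₁ N) (Q : Pair Z₂ N) (hd : SameData₂ Γ₁ Γ₂ ψ P Q)
    (P' : Pair Z₂ N) (hR : Related₂ Γ₁ Γ₂ ψ P P')
    (h : (PwLe univ Γ₂ P' Q ∧ ∃ U K V, Hole U K V Γ₂ P' Q ∧ PureOn V P'.A Z₂) ∨
      ((Le univ P' Q ∨ Γ₂ = bd Z₂ ∧ PwLe univ Γ₂ P' Q) ∧ ∃ U, GaugeBy U univ Γ₂ 0 P'.A Z₂)) :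
    Related₂ Γ₁ Γ₂ ψ P Q := by
  obtain ⟨Φ, Ψ, U, b1, b2, b3, b4, b5, b6, b7, b8, -⟩ := hR
  have hR' : Rel₂ Γ₂ ψ P P' Φ Ψ U := ⟨b1, b2, b3, b4, b5, b6, b7, b8⟩
  subst hZ₁ hZ₂
  have hne₂ : Γ₂.Nonempty := by
    obtain ⟨x, hx⟩ := hne
    obtain ⟨y, hy, -⟩ := hψ.1.surjOn hx
    exact ⟨y, hy⟩
  have hS := B6.same_rel2 hO₁ hΓ₁ hne hO₂ hΓ₂ hψ hR' hd
  obtain ⟨⟨V, hV⟩, hg⟩ := q1key hn hN Γ₂ O₂ hO₂ hΓ₂ hne₂ P' Q hS h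
  obtain ⟨U', hU'⟩ := B6.rel_gauge hR'
    ⟨V, hV.1, hV.2.1, hV.2.2.1, fun x j => hV.2.2.2 x (mem_univ x) j⟩ hg
  have hs := B6.rel_sol hO₁ hΓ₁ hne hO₂ hΓ₂ hψ hU'
  obtain ⟨c1, c2, c3, c4, c5, c6, c7, c8⟩ := hU'
  exact ⟨Φ, Ψ, U', c1, c2, c3, c4, c5, c6, c7, c8, hs⟩

end Vale.Agent.P088.B8
end
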