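import Vale.Agent.P088.H5.MF2_820
import Vale.Agent.P088.H5.BrLS275
import Vale.Agent.P088.H5.Rel332

/-!
# P088: arbitrary smooth pairs, one manifold
-/

open Bundle Manifold MeasureTheory Set Filter
open scoped ContDiff Matrix Topology ENNReal

noncomputable section

set_option linter.all false

namespace Vale.Agent.P088.B5

open Vale.Agent.P088 Vale.Agent.P088.B

universe u

theorem gaugeEq_iff {n N : ℕ} {M : Type u} {Z : At n M} {Γ : Set M}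
    {A₁ A₂ : M → Fin n → Matrix (Fin N) (Fin N) ℂ} :
    GaugeEq Γ A₁ A₂ Z ↔ ∃ U, GaugeBy U univ Γ A₁ A₂ Z :=
  ⟨fun ⟨U, h1, h2, h3, h4⟩ => ⟨U, h1, h2, h3, fun x _ j => h4 x j⟩,
    fun ⟨U, h1, h2, h3, h4⟩ => ⟨U, h1, h2, h3, fun x j => h4 x (mem_univ x) j⟩⟩

theorem le_iff {n N : ℕ} {M : Type u} {Z : At n M} {P Q : Pair Z N} :
    SigLe P Q ↔ Le univ P Q :=
  ⟨fun h x _ => h x, fun h x => h x (mem_univ x)⟩

theorem smooth_par {n N : ℕ} [NeZero n] (hn : 3 ≤ n) (hN : 1 ≤ N) {M : Type u}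
    [TopologicalSpace M] [ChartedSpace (EuclideanHalfSpace n) M] [IsManifold (𝓡∂ n) ∞ M]
    [T2Space M] [CompactSpace M] [ConnectedSpace M] (Z : At n M) (hZ : Z = at_ n M)
    (Γ O : Set M) (hO : IsOpen O) (hΓ : Γ = O ∩ bd Z) (hne : Γ.Nonempty) (P Q : Pair Z N)
    (hd : B.SameData Γ P Q) :
    (Γ = bd Z ∨ Le univ P Q → (∀ e, Par P e → ∃ e', Par Q e' ∧ ∀ x ∈ Γ, e' x = e x) ∧
      ((∃ U, GaugeBy U univ Γ 0 P.A Z) → ∃ U, GaugeBy U univ Γ 0 Q.A Z)) ∧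
    (Le univ P Q → (∃ e, Par P e ∧ e ≠ 0) → Q.g = P.g) := by
  obtain ⟨a1, a2⟩ := B2.elemMP_closed hn Z hZ Γ O hO hΓ hne P Q hd
  obtain ⟨b1, b2, -⟩ := theoremM hn hN Z hZ Γ O hO hΓ hne P Q hd
  refine ⟨fun h => ⟨a1 (h.imp_right le_iff.2), fun hg => gaugeEq_iff.1 ?_⟩,
    fun h => a2 (le_iff.2 h)⟩
  rcases h with h | h
  · exact b1 (gaugeEq_iff.2 hg) (Or.inl h)
  · exact (b2 (le_iff.2 h) (gaugeEq_iff.2 hg)).1

end Vale.Agent.P088.B5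
end
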