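import Vale.Agent.P088.H5.Q1_332
import Vale.Agent.P088.H5.StJ
import Vale.Agent.P088.H4.Blk

/-!
# P088: two manifolds, the joint hypothesis gives the unique diffeomorphism and gauge
-/

open Bundle Manifold MeasureTheory Set Filter
open scoped ContDiff Matrix Topology ENNReal

noncomputable section

set_option linter.all false

namespace Vale.Agent.P088.B6

open Vale.Agent.P088 Vale.Agent.P088.B Vale.Agent.P088.B5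

universe u

section

variable {n : ℕ} [NeZero n] {N : ℕ} {M₁ M₂ : Type u}
  [TopologicalSpace M₁] [ChartedSpace (EuclideanHalfSpace n) M₁] [IsManifold (𝓡∂ n) ∞ M₁]
  [T2Space M₁] [CompactSpace M₁] [ConnectedSpace M₁]
  [TopologicalSpace M₂] [ChartedSpace (EuclideanHalfSpace n) M₂] [IsManifold (𝓡∂ n) ∞ M₂]
  [T2Space M₂] [CompactSpace M₂] [ConnectedSpace M₂]

/-- Composition of a transform with a change of gauge. -/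
theorem rel_gauge {Γ₂ : Set M₂} {ψ : M₂ → M₁} {P : Pair (at_ n M₁) N}
    {P' Q : Pair (at_ n M₂) N} {Φ : M₂ → M₁} {Ψ : M₁ → M₂}
    {U : M₂ → Matrix (Fin N) (Fin N) ℂ} (hR : B2.Rel₂ Γ₂ ψ P P' Φ Ψ U)
    (hG : GaugeEq Γ₂ P'.A Q.A (at_ n M₂)) (hg : Q.g = P'.g) :
    ∃ U', B2.Rel₂ Γ₂ ψ P Q Φ Ψ U' := by
  obtain ⟨h1, h2, h3, h3', h4, h5, h6, h7⟩ := hR
  obtain ⟨V, k1, k2, k3, k4⟩ := hG
  letI := borel M₂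
  haveI : BorelSpace M₂ := ⟨rfl⟩
  have hU := isSmU_toE h4 h5
  have hV := isSmU_toE k1 k2
  have hFG : IsSmoothUnitary (𝓡∂ n) (fun x => S.toE (U x) * S.toE (V x)) :=
    ⟨contMDiff_bilin isBB_mul hU.smooth hV.smooth, fun x => mul_mem (hU.unitary x) (hV.unitary x)⟩
  have huv : (fun x => S.ofE (S.toE (U x) * S.toE (V x))) = fun x => U x * V x := by
    funext y
    rw [← S.toE_mul, S.ofE_toE]
  refine ⟨fun x => U x * V x, h1, h2, h3, h3', ?_, fun x => ?_, fun x hx => ?_, fun x => ?_⟩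
  · have h8 := (S.uni_ofE hFG).1
    have h9 : ∀ x, S.ofE (S.toE (U x) * S.toE (V x)) = U x * V x := fun x => congrFun huv x
    intro a
    have h10 := h8 a
    simp only [h9] at h10
    exact h10
  · rw [Matrix.conjTranspose_mul, Matrix.mul_assoc, ← Matrix.mul_assoc (U x)ᴴ, h5 x,
      Matrix.one_mul, k2 x]
  · refine ⟨(h6 x hx).1, ?_⟩
    show U x * V x = 1
    rw [(h6 x hx).2, k3 x hx, Matrix.one_mul]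
  · intro J
    obtain ⟨h8, h9⟩ := h7 x
    refine ⟨?_, fun j => ?_⟩
    · rw [hg]
      exact h8
    · have h10 := k4 x j
      rw [h9 j] at h10
      rw [h10, dM_mul h4 h5 k1 k2 x j]
      have h11 := h5 x
      generalize dM (fun y => U (pt (at_ n M₂) x y)) ((at_ n M₂).ch x x) j = dU
      generalize dM (fun y => V (pt (at_ n M₂) x y)) ((at_ n M₂).ch x x) j = dV
      rw [Matrix.conjTranspose_mul]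
      have h12 : dV = (U x)ᴴ * (U x * dV) := by
        rw [← Matrix.mul_assoc, h11, Matrix.one_mul]
      conv_lhs => rw [h12]
      show (V x)ᴴ * ((U x)ᴴ * ((∑ i, J i j • P.A (Φ x) i) * U x + dU) * V x +
        (U x)ᴴ * (U x * dV)) = (V x)ᴴ * (U x)ᴴ * ((∑ i, J i j • P.A (Φ x) i) * (U x * V x) +
          (dU * V x + U x * dV))
      generalize (∑ i, J i j • P.A (Φ x) i) = B
      noncomm_ring

/-- Solutions are intertwined. -/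
theorem rel_sol {Γ₁ O₁ : Set M₁} (hO₁ : IsOpen O₁) (hΓ₁ : Γ₁ = O₁ ∩ bd (at_ n M₁))
    (hne : Γ₁.Nonempty) {Γ₂ O₂ : Set M₂} (hO₂ : IsOpen O₂) (hΓ₂ : Γ₂ = O₂ ∩ bd (at_ n M₂))
    {ψ : M₂ → M₁} (hψ : B2.Iden N (at_ n M₁) (at_ n M₂) Γ₁ Γ₂ ψ) {P : Pair (at_ n M₁) N}
    {Q : Pair (at_ n M₂) N} {Φ : M₂ → M₁} {Ψ : M₁ → M₂}
    {U : M₂ → Matrix (Fin N) (Fin N) ℂ} (h : B2.Rel₂ Γ₂ ψ P Q Φ Ψ U) :
    ∀ f₁ f₂ u₁ u₂, B2.Corr (at_ n M₁) (at_ n M₂) Γ₁ Γ₂ ψ f₁ f₂ → Harm P f₁ u₁ → Harm Q f₂ u₂ →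
      ∀ x, u₁ (Φ x) = U x *ᵥ u₂ x := by
  obtain ⟨χ, hOk⟩ := B2.glOk hO₁ hΓ₁ hne hO₂ hΓ₂ hψ
  letI := borel M₁
  letI := borel M₂
  haveI : BorelSpace M₁ := ⟨rfl⟩
  haveI : BorelSpace M₂ := ⟨rfl⟩
  obtain ⟨F, hF, -, hG⟩ := B2.toGeo (Γ₁ := Γ₁) (χ := χ) h
  intro f₁ f₂ u₁ u₂ hc h1 h2 x
  obtain ⟨c1, c2, c3⟩ := hc
  have h3 := hG.sol hOk (u := (S.toF u₁, S.toF u₂))
    ⟨S.toF f₁, S.toF f₂, ⟨B2.bdData c1, B2.bdData c2, fun x hx => by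
      show WithLp.toLp 2 (f₂ x) = WithLp.toLp 2 (f₁ (ψ x))
      rw [c3 x hx]⟩, B2.harm_one h1, B2.harm_one h2⟩ x
  have h4 : S.toE (U x) (WithLp.toLp 2 (u₂ x)) = WithLp.toLp 2 (U x *ᵥ u₂ x) := S.toE_apply _ _
  have h5 : WithLp.toLp 2 (u₁ (F x)) = S.toE (U x) (WithLp.toLp 2 (u₂ x)) := h3
  rw [h4, hF] at h5
  exact (WithLp.toLp_injective 2) h5

/-- If `P'` is a transform of `P`, then `P'` and `Q` have the same data if `P` and `Q` have. -/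
theorem same_rel2 {Γ₁ O₁ : Set M₁} (hO₁ : IsOpen O₁) (hΓ₁ : Γ₁ = O₁ ∩ bd (at_ n M₁))
    (hne : Γ₁.Nonempty) {Γ₂ O₂ : Set M₂} (hO₂ : IsOpen O₂) (hΓ₂ : Γ₂ = O₂ ∩ bd (at_ n M₂))
    {ψ : M₂ → M₁} (hψ : B2.Iden N (at_ n M₁) (at_ n M₂) Γ₁ Γ₂ ψ) {P : Pair (at_ n M₁) N}
    {P' Q : Pair (at_ n M₂) N} {Φ : M₂ → M₁} {Ψ : M₁ → M₂}
    {U : M₂ → Matrix (Fin N) (Fin N) ℂ} (h : B2.Rel₂ Γ₂ ψ P P' Φ Ψ U)
    (hS : B2.SameData₂ Γ₁ Γ₂ ψ P Q) : B.SameData Γ₂ P' Q := by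
  have hbd : ((𝓡∂ n).boundary M₁).Nonempty := by
    obtain ⟨x, hx⟩ := hne
    rw [hΓ₁, bd_at] at hx
    exact ⟨x, hx.2⟩
  have hPP := B2.rel_same (at_ n M₁) rfl (at_ n M₂) rfl Γ₁ O₁ hO₁ hΓ₁ hne Γ₂ O₂ hO₂ hΓ₂ ψ hψ P P'
    (B2.solv_of hψ hS) h
  intro f k hf hk
  obtain ⟨f₁, hf₁⟩ := hψ.2.2 f hf
  obtain ⟨k₁, hk₁⟩ := hψ.2.2 k hk
  obtain ⟨u, v, u', v', a1, a2, a3, a4, a5⟩ := hPP f₁ f k₁ k hf₁ hk₁
  obtain ⟨c, d, c', d', b1, b2, b3, b4, b5⟩ := hS f₁ f k₁ k hf₁ hk₁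
  refine ⟨u', v', c', d', a3, a4, b3, b4, ?_⟩
  rw [← a5, harm_unique hbd a1 b1, harm_unique hbd a2 b2, b5]

end

/-- Two manifolds. -/
theorem hyp_two {n N : ℕ} [NeZero n] (hn : 3 ≤ n) (hN : 1 ≤ N) {M₁ M₂ : Type u}
    [TopologicalSpace M₁] [ChartedSpace (EuclideanHalfSpace n) M₁] [IsManifold (𝓡∂ n) ∞ M₁]
    [T2Space M₁] [CompactSpace M₁] [ConnectedSpace M₁]
    [TopologicalSpace M₂] [ChartedSpace (EuclideanHalfSpace n) M₂] [IsManifold (𝓡∂ n) ∞ M₂]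
    [T2Space M₂] [CompactSpace M₂] [ConnectedSpace M₂]
    (Z₁ : At n M₁) (hZ₁ : Z₁ = at_ n M₁) (Z₂ : At n M₂) (hZ₂ : Z₂ = at_ n M₂)
    (Γ₁ O₁ : Set M₁) (hO₁ : IsOpen O₁) (hΓ₁ : Γ₁ = O₁ ∩ bd Z₁) (hne : Γ₁.Nonempty)
    (Γ₂ O₂ : Set M₂) (hO₂ : IsOpen O₂) (hΓ₂ : Γ₂ = O₂ ∩ bd Z₂) (ψ : M₂ → M₁)
    (hψ : B2.Iden N Z₁ Z₂ Γ₁ Γ₂ ψ) (P : Pair Z₁ N) (Q : Pair Z₂ N)
    (hdata : B2.SameData₂ Γ₁ Γ₂ ψ P Q) (h : Hyp Γ₂ ψ P Q) : B4.UniqueRel Γ₁ Γ₂ ψ P Q := by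
  rcases h with h | ⟨P', ⟨Φ, Ψ, U, hR⟩, h⟩
  · exact (B2.same_two B2.blocks hn hN Z₁ hZ₁ Z₂ hZ₂ Γ₁ O₁ hO₁ hΓ₁ hne Γ₂ O₂ hO₂ hΓ₂ ψ hψ P Q
      hdata).1 h
  · subst hZ₁ hZ₂
    have hne₂ : Γ₂.Nonempty := by
      obtain ⟨x, hx⟩ := hne
      obtain ⟨y, hy, -⟩ := hψ.1.surjOn hx
      exact ⟨y, hy⟩
    have hR' : B2.Rel₂ Γ₂ ψ P P' Φ Ψ U := hR
    have hS := same_rel2 hO₁ hΓ₁ hne hO₂ hΓ₂ hψ hR' hdata
    have key : GaugeEq Γ₂ P'.A Q.A (at_ n M₂) ∧ Q.g = P'.g := by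
      rcases h with ⟨⟨W, hWd, hWp⟩, V, h2⟩ | ⟨h1, V, h2⟩
      · have h3 := (smooth_local hn hN (at_ n M₂) rfl Γ₂ O₂ hO₂ hΓ₂ P' Q hS W hWp.1
          hWp.2.1 V ⟨h2.1, h2.2.1, fun x hx => h2.2.2.1 x hx.2,
            fun x _ => h2.2.2.2 x (mem_univ x)⟩ hWp.2.2).1
        exact ⟨⟨V, h2.1, h2.2.1, h2.2.2.1, fun x j => h2.2.2.2 x (mem_univ x) j⟩,
          funext fun x => h3 x (by rw [hWd]; exact mem_univ x)⟩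
      · have h3 : GaugeEq Γ₂ 0 P'.A (at_ n M₂) :=
          ⟨V, h2.1, h2.2.1, h2.2.2.1, fun x j => h2.2.2.2 x (mem_univ x) j⟩
        have h4 := (theoremM hn hN (at_ n M₂) rfl Γ₂ O₂ hO₂ hΓ₂ hne₂ P' Q hS).2.1
          (fun x => h1 x (mem_univ x)) h3
        exact ⟨gauge_triv h3 h4.1, h4.2⟩
    obtain ⟨U', hU'⟩ := rel_gauge hR' key.1 key.2
    exact ⟨Φ, Ψ, U', hU', rel_sol hO₁ hΓ₁ hne hO₂ hΓ₂ hψ hU', fun Φ' Ψ' U'' h' =>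
      B2.rel_uniq (by omega) hN (at_ n M₁) rfl (at_ n M₂) rfl Γ₁ O₁ hO₁ hΓ₁ hne Γ₂ O₂ hO₂ hΓ₂ ψ hψ
        P Q (B2.solv_of hψ hdata) h' hU'⟩

/-- One manifold. -/
theorem hyp_one {n N : ℕ} [NeZero n] (hn : 3 ≤ n) (hN : 1 ≤ N) {M : Type u}
    [TopologicalSpace M] [ChartedSpace (EuclideanHalfSpace n) M] [IsManifold (𝓡∂ n) ∞ M]
    [T2Space M] [CompactSpace M] [ConnectedSpace M]
    (Z : At n M) (hZ : Z = at_ n M) (Γ O : Set M) (hO : IsOpen O) (hΓ : Γ = O ∩ bd Z)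
    (hne : Γ.Nonempty) (P Q : Pair Z N) (hd : B.SameData Γ P Q) (h : Hyp Γ id P Q) :
    B4.UniqueRel Γ Γ id P Q :=
  hyp_two hn hN Z hZ Z hZ Γ O hO hΓ hne Γ O hO hΓ id (B2.iden_id Γ) P Q (B2.sameData_id hd) h

end Vale.Agent.P088.B6

end
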