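import Vale.Agent.P088.H5.Fin820
import Vale.Agent.P088.H5.J332

/-!
# P088: joint determination, the final statement
-/

open Bundle Manifold MeasureTheory Set Filter
open scoped ContDiff Matrix Topology ENNReal

noncomputable section

set_option linter.all false

namespace Vale.Agent.P088.B6

open Vale.Agent.P088 Vale.Agent.P088.B Vale.Agent.P088.B7

universe u

/-- the local clause -/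
theorem smooth_local {n N : ℕ} [NeZero n] (hn : 3 ≤ n) (hN : 1 ≤ N) {M : Type u}
    [TopologicalSpace M] [ChartedSpace (EuclideanHalfSpace n) M] [IsManifold (𝓡∂ n) ∞ M]
    [T2Space M] [CompactSpace M] [ConnectedSpace M] (Z : B.At n M) (hZ : Z = at_ n M)
    (Γ O : Set M) (hO : IsOpen O) (hΓ : Γ = O ∩ bd Z) (P Q : B.Pair Z N)
    (hd : B.SameData Γ P Q) (W : Set M) (hp : PwLe W Γ P Q)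
    (U : M → Matrix (Fin N) (Fin N) ℂ) (hU : GaugeBy U W (W ∩ Γ) P.A Q.A Z) :
    (∀ x ∈ closure W, Q.g x = P.g x) ∧ ∀ f u u', B.Data Z (W ∩ Γ) f → B.Harm P f u →
      B.Harm Q f u' → ∀ x ∈ W, u x = U x *ᵥ u' x :=
  B5.smooth_local hn hN Z hZ Γ O hO hΓ P Q hd W hp.1 hp.2.1 U hU hp.2.2

theorem joint {n N : ℕ} [NeZero n] (hn : 3 ≤ n) (hN : 1 ≤ N) {M₁ M₂ : Type u}
    [TopologicalSpace M₁] [ChartedSpace (EuclideanHalfSpace n) M₁] [IsManifold (𝓡∂ n) ∞ M₁]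
    [T2Space M₁] [CompactSpace M₁] [ConnectedSpace M₁]
    [TopologicalSpace M₂] [ChartedSpace (EuclideanHalfSpace n) M₂] [IsManifold (𝓡∂ n) ∞ M₂]
    [T2Space M₂] [CompactSpace M₂] [ConnectedSpace M₂]
    (Z₁ : At n M₁) (hZ₁ : Z₁ = at_ n M₁) (Z₂ : At n M₂) (hZ₂ : Z₂ = at_ n M₂)
    (Γ₁ O₁ : Set M₁) (hO₁ : IsOpen O₁) (hΓ₁ : Γ₁ = O₁ ∩ bd Z₁) (hne : Γ₁.Nonempty)
    (Γ₂ O₂ : Set M₂) (hO₂ : IsOpen O₂) (hΓ₂ : Γ₂ = O₂ ∩ bd Z₂) :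
    (∀ P Q : Pair Z₁ N, B.SameData Γ₁ P Q →
      (Hyp Γ₁ id P Q → UniqueRel Γ₁ Γ₁ id P Q) ∧
      (∀ W, PwLe W Γ₁ P Q → ∀ U, GaugeBy U W (W ∩ Γ₁) P.A Q.A Z₁ →
        (∀ x ∈ closure W, Q.g x = P.g x) ∧
        ∀ f u u', B.Data Z₁ (W ∩ Γ₁) f → B.Harm P f u → B.Harm Q f u' → ∀ x ∈ W, u x = U x *ᵥ u' x) ∧
      (Γ₁ = bd Z₁ ∨ Le univ P Q → ∀ e, Par P e → ∃ e', Par Q e' ∧ ∀ x ∈ Γ₁, e' x = e x) ∧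
      (Le univ P Q → (∃ e, Par P e ∧ e ≠ 0) → Q.g = P.g)) ∧
    ∀ (ψ : M₂ → M₁) (_ : Iden N Z₁ Z₂ Γ₁ Γ₂ ψ) (P : Pair Z₁ N) (Q : Pair Z₂ N),
      SameData₂ Γ₁ Γ₂ ψ P Q → (Hyp Γ₂ ψ P Q → UniqueRel Γ₁ Γ₂ ψ P Q) ∧
      (Γ₁ = bd Z₁ → Γ₂ = bd Z₂ → ∀ e, Par P e → ∃ e', Par Q e' ∧ ∀ x ∈ Γ₂, e' x = e (ψ x)) := by
  refine ⟨fun P Q hd => ⟨fun h => ?_, fun W hp U hU =>
    smooth_local hn hN Z₁ hZ₁ Γ₁ O₁ hO₁ hΓ₁ P Q hd W hp U hU, fun h => ?_, ?_⟩,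
    fun ψ hψ P Q hd => ⟨fun h => ?_, fun h₁ h₂ e he => ?_⟩⟩
  · exact hyp_one hn hN Z₁ hZ₁ Γ₁ O₁ hO₁ hΓ₁ hne P Q hd h
  · exact ((B5.smooth_par hn hN Z₁ hZ₁ Γ₁ O₁ hO₁ hΓ₁ hne P Q hd).1 h).1
  · exact (B5.smooth_par hn hN Z₁ hZ₁ Γ₁ O₁ hO₁ hΓ₁ hne P Q hd).2
  · exact hyp_two hn hN Z₁ hZ₁ Z₂ hZ₂ Γ₁ O₁ hO₁ hΓ₁ hne Γ₂ O₂ hO₂ hΓ₂ ψ hψ P Q hd h
  · exact B2.par_two Z₁ hZ₁ Z₂ hZ₂ Γ₁ hne Γ₂ ψ hψ P Q hd h₁ h₂ e he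

end Vale.Agent.P088.B6
end
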