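import Vale.Agent.P088.H5.M3
import Vale.Agent.P088.H5.M4332
import Vale.Agent.P088.H5.MD452

/-!
# P088, Theorem M: assembly
-/

set_option linter.all false

open Bundle Manifold MeasureTheory Set Filter Topology
open scoped ContDiff Matrix

noncomputable section

namespace Vale.Agent.P088.EYM.O

open Vale.Agent.P088 Vale.Agent.P088.EYM

universe u

/-- (M9a) from the data: the section with `w d_A u = u ⊗ dw`, and the equality case of the
comparison of the energies. -/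
def M9a_statement : Prop :=
  ∀ (n N : ℕ) [NeZero n] (M : Type u) [TopologicalSpace M] [ChartedSpace (EuclideanHalfSpace n) M]
    [IsManifold (𝓡∂ n) ∞ M] [T2Space M] [CompactSpace M] [ConnectedSpace M] [MeasurableSpace M]
    [BorelSpace M] (P Q : One n N M) (Γ : Set M), 0 < N → (∀ x X, P.A.form x X = 0) →
    RelBd n Γ → Γ.Nonempty → SameD P Q Γ → (∀ x, (sig Q.g x - sig P.g x).PosSemidef) →
    ∀ (w φ : M → ℝ) (v : Fib N), Wk P w → (∀ x, 0 ≤ w x) → SmR n φ → Spt n Γ φ →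
    (∀ y ∈ (𝓡∂ n).boundary M, w y = φ y ^ 2) → ‖v‖ = 1 →
    ∃ u : M → Fib N, SmS n u ∧ (∀ x ∈ (𝓡∂ n).boundary M, u x = (w x : ℂ) • v) ∧
      (∀ (x : M) (X : TangentSpace (𝓡∂ n) x),
        (w x : ℂ) • cov Q.A u x X = ((dmap (𝓡∂ n) w x X : ℝ) : ℂ) • u x) ∧
      ∀ x i, ∑ j, (((sig Q.g x - sig P.g x) i j : ℝ) : ℂ) •
        cov Q.A u x (coordVec (𝓡∂ n) x x j) = 0

section

variable {n N : ℕ} [NeZero n] {M : Type u} [TopologicalSpace M]
  [ChartedSpace (EuclideanHalfSpace n) M] [IsManifold (𝓡∂ n) ∞ M]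

theorem smooth_bilin {F₁ F₂ F₃ : Type*} [NormedAddCommGroup F₁] [NormedSpace ℝ F₁]
    [NormedAddCommGroup F₂] [NormedSpace ℝ F₂] [NormedAddCommGroup F₃] [NormedSpace ℝ F₃]
    (B : F₁ →L[ℝ] F₂ →L[ℝ] F₃) {f : M → F₁} {g : M → F₂}
    (hf : ContMDiff (𝓡∂ n) 𝓘(ℝ, F₁) ∞ f) (hg : ContMDiff (𝓡∂ n) 𝓘(ℝ, F₂) ∞ g) :
    ContMDiff (𝓡∂ n) 𝓘(ℝ, F₃) ∞ (fun y => B (f y) (g y)) := by
  have h1 : ContMDiff (𝓡∂ n) 𝓘(ℝ, F₂ →L[ℝ] F₃) ∞ (fun y => B (f y)) := B.contMDiff.comp hf
  exact h1.clm_apply hg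

/-- a cut-off equal to `1` at two given points of `Γ` -/
theorem chi2 [T2Space M] [CompactSpace M] {Γ : Set M} (hΓ : RelBd n Γ)
    (hbd : IsClosed ((𝓡∂ n).boundary M)) {p q : M} (hp : p ∈ Γ) (hq : q ∈ Γ) :
    ∃ χ : M → ℝ, SmR n χ ∧ Spt n Γ χ ∧ χ p = 1 ∧ χ q = 1 := by
  obtain ⟨O, hO, hΓO⟩ := hΓ
  have hK : IsClosed ({p, q} : Set M) := (Set.toFinite _).isClosed
  have hKO : ({p, q} : Set M) ⊆ O := by
    rintro x (rfl | rfl)
    · rw [hΓO] at hp; exact hp.1
    · rw [hΓO] at hq; exact hq.1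
  obtain ⟨O', hO', hKO', hcl⟩ := normal_exists_closure_subset hK hO hKO
  obtain ⟨f, hf0, hf1, -⟩ := exists_contMDiffMap_zero_one_of_isClosed (𝓡∂ n) (n := (⊤ : ℕ∞))
    (s := O'ᶜ) (t := ({p, q} : Set M)) hO'.isClosed_compl hK
    (disjoint_compl_left_iff_subset.2 hKO')
  refine ⟨f, f.contMDiff, ?_, hf1 (by simp), hf1 (by simp)⟩
  have h1 : closure {x ∈ (𝓡∂ n).boundary M | f x ≠ 0} ⊆ closure O' ∩ (𝓡∂ n).boundary M := by
    refine closure_minimal ?_ (isClosed_closure.inter hbd)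
    rintro x ⟨hx, hx'⟩
    refine ⟨subset_closure (by_contra fun h => hx' ?_), hx⟩
    exact hf0 h
  intro x hx
  rw [hΓO]
  exact ⟨hcl (h1 hx).1, (h1 hx).2⟩

/-- Parallel unitary frames with the same value at a point are equal. -/
theorem par_uniq [T2Space M] [CompactSpace M] [ConnectedSpace M] {A : Connection (𝓡∂ n) N M}
    {S R : M → EndF N} (hS : IsSmoothUnitary (𝓡∂ n) S) (hR : IsSmoothUnitary (𝓡∂ n) R)
    (hSp : ∀ (x : M) (X : TangentSpace (𝓡∂ n) x), dmap (𝓡∂ n) S x X + A.form x X ∘L S x = 0)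
    (hRp : ∀ (x : M) (X : TangentSpace (𝓡∂ n) x), dmap (𝓡∂ n) R x X + A.form x X ∘L R x = 0)
    {p : M} (h : S p = R p) (x : M) : S x = R x := by
  obtain ⟨hIo, hIc, hIcl⟩ := TM.fConn n M
  set f : M → EndF N := fun y => mulL (adjRE (S y)) (R y) with hf
  have hSd : ∀ y, MDifferentiableAt (𝓡∂ n) 𝓘(ℝ, EndF N) S y := fun y =>
    hS.smooth.mdifferentiable (by simp) y
  have hRd : ∀ y, MDifferentiableAt (𝓡∂ n) 𝓘(ℝ, EndF N) R y := fun y =>
    hR.smooth.mdifferentiable (by simp) y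
  have hfs : ContMDiff (𝓡∂ n) 𝓘(ℝ, EndF N) ∞ f := by
    have h0 : ContMDiff (𝓡∂ n) 𝓘(ℝ, EndF N) ∞ (fun y => adjRE (S y)) :=
      (adjRE (N := N)).contMDiff.comp hS.smooth
    exact smooth_bilin mulL h0 hR.smooth
  have hd : ∀ (y : M) (X : TangentSpace (𝓡∂ n) y), dmap (𝓡∂ n) f y X = 0 := by
    intro y X
    have hadj : MDifferentiableAt (𝓡∂ n) 𝓘(ℝ, EndF N) (fun y => adjRE (S y)) y :=
      (adjRE.differentiable.mdifferentiable (S y)).comp y (hSd y)
    rw [hf, dmap_bilin mulL hadj (hRd y) X, dmap_clm adjRE (hSd y) X]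
    have h1 : dmap (𝓡∂ n) S y X = -(A.form y X * S y) := eq_neg_of_add_eq_zero_left (hSp y X)
    have h2 : dmap (𝓡∂ n) R y X = -(A.form y X * R y) := eq_neg_of_add_eq_zero_left (hRp y X)
    rw [h1, h2, mulL_apply, mulL_apply, adjRE_apply, adjRE_apply, map_neg, adj_mulE, A.skew]
    have h3 : -(ContinuousLinearMap.adjoint (S y) * -A.form y X) * R y +
        ContinuousLinearMap.adjoint (S y) * -(A.form y X * R y) = (0 : EndF N) := by
      rw [mul_neg, neg_neg, mul_neg, mul_assoc, add_neg_cancel]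
    exact h3
  have hc := const_of_dmap hfs.contMDiffOn (fun y _ X => hd y X)
  obtain ⟨x₀, hx₀⟩ : (Mi n M).Nonempty := by
    by_contra h0
    rw [not_nonempty_iff_eq_empty] at h0
    have := hIcl p
    rw [h0, closure_empty] at this
    exact this
  have hall : ∀ y, f y = f x₀ := by
    intro y
    have hcl : IsClosed {y | f y = f x₀} := isClosed_eq hfs.continuous continuous_const
    exact closure_minimal (fun z hz => hc z hz x₀ hx₀) hcl (hIcl y)
  have h1 : f x = f p := (hall x).trans (hall p).symm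
  have h2 : f p = 1 := by
    rw [hf]
    show ContinuousLinearMap.adjoint (S p) * R p = 1
    rw [← h]
    exact (Unitary.mem_iff.1 (hS.unitary p)).1
  have h3 : ContinuousLinearMap.adjoint (S x) * R x = 1 := h1.trans h2
  have h4 : S x * ContinuousLinearMap.adjoint (S x) = 1 := (Unitary.mem_iff.1 (hS.unitary x)).2
  calc S x = S x * (ContinuousLinearMap.adjoint (S x) * R x) := by rw [h3, mul_one]
    _ = R x := by rw [← mul_assoc, h4, one_mul]

/-- From a parallel unitary frame to the gauge transformation. -/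
theorem gauge_of_par {A : Connection (𝓡∂ n) N M} {S : M → EndF N}
    (hS : IsSmoothUnitary (𝓡∂ n) S)
    (hSp : ∀ (x : M) (X : TangentSpace (𝓡∂ n) x), dmap (𝓡∂ n) S x X + A.form x X ∘L S x = 0) :
    IsSmoothUnitary (𝓡∂ n) (fun x => adjRE (S x)) ∧
    ∀ (x : M) (X : TangentSpace (𝓡∂ n) x), A.form x X =
      ContinuousLinearMap.adjoint (adjRE (S x)) ∘L dmap (𝓡∂ n) (fun x => adjRE (S x)) x X := by
  refine ⟨⟨adjRE.contMDiff.comp hS.smooth, fun x => ?_⟩, fun x X => ?_⟩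
  · rw [adjRE_apply]
    exact Unitary.star_mem (hS.unitary x)
  · rw [dmap_clm adjRE (hS.smooth.mdifferentiable (by simp) x) X, adjRE_apply, adjRE_apply,
      ContinuousLinearMap.adjoint_adjoint]
    have h1 : dmap (𝓡∂ n) S x X = -(A.form x X * S x) := eq_neg_of_add_eq_zero_left (hSp x X)
    rw [h1, map_neg, adj_mulE, A.skew]
    have h4 : S x * ContinuousLinearMap.adjoint (S x) = 1 := (Unitary.mem_iff.1 (hS.unitary x)).2
    show A.form x X = S x * -(ContinuousLinearMap.adjoint (S x) * -A.form x X)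
    rw [mul_neg, neg_neg, ← mul_assoc, h4, one_mul]

variable [MeasurableSpace M]

theorem dd_neg {w : M → ℝ} (hw : SmR n w) (x : M) (i : Fin n) :
    dd (fun y => -w y) x i = -dd w x i := by
  unfold dd
  have h := dmap_clm (-ContinuousLinearMap.id ℝ ℝ) (hw.mdifferentiable (by simp) x)
    (coordVec (𝓡∂ n) x x i)
  exact h

theorem Wk.neg {P : One n N M} {w : M → ℝ} (h : Wk P w) : Wk P (fun x => -w x) := by
  refine ⟨h.sm.neg, fun ψ h1 h2 => ?_⟩
  have h3 : ∀ x, gp P.g (fun x => -w x) ψ x = -gp P.g w ψ x := by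
    intro x
    unfold gp
    rw [← Finset.sum_neg_distrib]
    refine Finset.sum_congr rfl fun i _ => ?_
    rw [← Finset.sum_neg_distrib]
    refine Finset.sum_congr rfl fun j _ => ?_
    rw [dd_neg h.sm]
    ring
  simp_rw [h3]
  rw [integral_neg, h.weak ψ h1 h2, neg_zero]

theorem wk_zero [T2Space M] [CompactSpace M] [ConnectedSpace M] [BorelSpace M]
    (h1 : M1_statement.{u}) {P : One n N M} {w : M → ℝ} (hne : ((𝓡∂ n).boundary M).Nonempty)
    (h : Wk P w) (hb : ∀ x ∈ (𝓡∂ n).boundary M, w x = 0) (x : M) : w x = 0 := by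
  have e1 := h1 n N M P w hne h (fun x hx => (hb x hx).ge) x
  have e2 := h1 n N M P (fun x => -w x) hne h.neg (fun x hx => by
    show 0 ≤ -w x
    rw [hb x hx, neg_zero]) x
  have e3 : 0 ≤ -w x := e2
  linarith

end

/-- The blocks. -/
structure BlkM : Prop where
  m0b : M0b_statement.{u}
  m1 : M1_statement.{u}
  m4 : M4_statement.{u}
  m5g : M5G_statement.{u}
  m7 : M7_statement.{u}
  m8 : M8_statement
  m9a : M9a_statement.{u}

theorem m9 (B : BlkM.{u}) : M9_statement.{u} := by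
  intro n N _ M _ _ _ _ _ _ _ _ P Q Γ hn hN hA hΓ hΓn hS hle
  obtain ⟨hIo, -, hcl⟩ := TM.fConn n M
  have hbd : IsClosed ((𝓡∂ n).boundary M) := by
    rw [← ModelWithCorners.compl_interior]
    exact hIo.isClosed_compl
  have hΓb : Γ ⊆ (𝓡∂ n).boundary M := by
    obtain ⟨O, -, rfl⟩ := hΓ
    exact inter_subset_right
  have hbne : ((𝓡∂ n).boundary M).Nonempty := hΓn.mono hΓb
  obtain ⟨⟨hPs, -, -⟩, -⟩ :=
    Vale.Agent.P088.EYM.cData TM.fUniq TM.fForm n N M P Q Γ hΓ hΓn hS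
  -- harmonic extensions of squares
  have hex : ∀ φ : M → ℝ, SmR n φ → Spt n Γ φ → ∃ w, Wk P w ∧ (∀ x, 0 ≤ w x) ∧
      ∀ x ∈ (𝓡∂ n).boundary M, w x = φ x ^ 2 := by
    intro φ h1 h2
    have h3 : SmR n (fun x => φ x ^ 2) := by
      have := h1.mul h1
      exact this.congr fun x => pow_two _
    obtain ⟨w, hw, hwb⟩ := B.m0b n N M P Γ (fun x => φ x ^ 2) hN hA hPs h3
      (h2.of fun x _ h0 => by rw [h0]; norm_num)
    exact ⟨w, hw, B.m1 n N M P w hbne hw (fun x hx => by rw [hwb x hx]; positivity), hwb⟩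
  -- the frame of a boundary datum
  have hfr : ∀ w φ : M → ℝ, Wk P w → SmR n φ → Spt n Γ φ →
      (∀ x ∈ (𝓡∂ n).boundary M, w x = φ x ^ 2) → (∃ p ∈ (𝓡∂ n).boundary M, φ p ≠ 0) →
      (∃ S : M → EndF N, IsSmoothUnitary (𝓡∂ n) S ∧
        (∀ (x : M) (X : TangentSpace (𝓡∂ n) x), dmap (𝓡∂ n) S x X + Q.A.form x X ∘L S x = 0) ∧
        ∀ q ∈ (𝓡∂ n).boundary M, φ q ≠ 0 → S q = 1) ∧
      ∀ x ∈ Mi n M, ∀ i, ∑ j, (sig Q.g x - sig P.g x) i j * dd w x j = 0 := by
    intro w φ hw hφ hsp hwb hp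
    obtain ⟨p, hp, hφp⟩ := hp
    have hw0 : ∀ x, 0 ≤ w x :=
      B.m1 n N M P w hbne hw (fun x hx => by rw [hwb x hx]; positivity)
    have hwp : w p ≠ 0 := by
      rw [hwb p hp]
      positivity
    have hpos : ∀ x ∈ Mi n M, 0 < w x := B.m7 n N M P w hw hw0 ⟨p, hwp⟩
    choose u hu1 hu2 hu3 hu4 using fun a : Fin N =>
      B.m9a n N M P Q Γ hN hA hΓ hΓn hS hle w φ (EuclideanSpace.single a (1 : ℂ)) hw hw0 hφ hsp hwb
        (by simp)
    obtain ⟨S, hS1, hS2, hS3, hS4, hS5⟩ := m3' n N M Q.A w u p hw.sm hpos hu1 hu2 hu3 hp hwp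
    obtain ⟨S', hS', hSS, hpar⟩ := B.m5g n N M Q.A S hS1 hS2 hS3
    refine ⟨⟨S', hS', hpar, fun q hq hφq => ?_⟩, fun x hx i => ?_⟩
    · have h1 := hS4 q hq (by rw [hwb q hq]; positivity)
      have h2 : Tendsto S' (𝓝[Mi n M] q) (𝓝 1) := by
        refine h1.congr' ?_
        filter_upwards [self_mem_nhdsWithin] with y hy
        exact (hSS y hy).symm
      have hne : (𝓝[Mi n M] q).NeBot := mem_closure_iff_nhdsWithin_neBot.1 (hcl q)
      exact tendsto_nhds_unique (hS'.smooth.continuous.continuousAt.mono_left nhdsWithin_le_nhds) h2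
    · set a : Fin N := ⟨0, hN⟩
      have h1 := hu4 a x i
      have h2 : ∑ j, (((sig Q.g x - sig P.g x) i j * dd w x j : ℝ) : ℂ) • u a x = 0 := by
        have h3 : (w x : ℂ) • ∑ j, (((sig Q.g x - sig P.g x) i j : ℝ) : ℂ) •
            cov Q.A (u a) x (coordVec (𝓡∂ n) x x j) = 0 := by
          rw [h1, smul_zero]
        rw [Finset.smul_sum] at h3
        rw [← h3]
        refine Finset.sum_congr rfl fun j _ => ?_
        rw [smul_comm, hu3 a x, smul_smul]
        unfold dd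
        push_cast
        rfl
      rw [← Finset.sum_smul, ← Complex.ofReal_sum] at h2
      rcases smul_eq_zero.1 h2 with h3 | h3
      · exact_mod_cast h3
      · exfalso
        have h4 := hS5 x hx a
        rw [h3] at h4
        have h5 := (smul_eq_zero.1 h4.symm).resolve_left (hpos x hx).ne'
        have h6 : (ContinuousLinearMap.adjoint (S x) * S x) (EuclideanSpace.single a (1 : ℂ)) = 0 := by
          show ContinuousLinearMap.adjoint (S x) (S x (EuclideanSpace.single a (1 : ℂ))) = 0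
          rw [h5, map_zero]
        have h7 : ContinuousLinearMap.adjoint (S x) * S x = 1 := (Unitary.mem_iff.1 (hS2 x hx)).1
        rw [h7] at h6
        have h8 := congrArg (fun v : Fib N => v a) h6
        simp at h8
  constructor
  · -- the metric
    have key : ∀ x ∈ Mi n M, gram Q.g x x = gram P.g x x := by
      intro x hx
      have hs : sig Q.g x = sig P.g x := by
        ext i k
        have h1 := B.m4 n N M P Γ hn hN hA hΓ hΓn hPs x hx
          (fun j => (sig Q.g x - sig P.g x) i j) (by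
            intro w φ hw hφ hsp hwb
            by_cases hz : ∃ p ∈ (𝓡∂ n).boundary M, φ p ≠ 0
            · exact (hfr w φ hw hφ hsp hwb hz).2 x hx i
            · push Not at hz
              have h2 : w = fun _ => (0 : ℝ) := by
                funext y
                exact wk_zero B.m1 hbne hw (fun y hy => by rw [hwb y hy, hz y hy]; norm_num) y
              refine Finset.sum_eq_zero fun j _ => ?_
              have h3 : dd w x j = 0 := by
                rw [h2]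
                exact dmap_clm (0 : ℝ →L[ℝ] ℝ) (hw.sm.mdifferentiable (by simp) x) _
              rw [h3, mul_zero])
        have h2 := congrFun h1 k
        have h3 : (sig Q.g x - sig P.g x) i k = 0 := h2
        rw [Matrix.sub_apply] at h3
        exact sub_eq_zero.1 h3
      exact B.m8 n _ _ hn (gram_posDef Q.g (mem_extChartAt_source x))
        (gram_posDef P.g (mem_extChartAt_source x)) hs
    exact fun x v w => inner_of_gram (gram_of_int hcl key x) v w
  · -- the connection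
    obtain ⟨p, hp⟩ := hΓn
    have hat : ∀ q ∈ Γ, ∃ S : M → EndF N, IsSmoothUnitary (𝓡∂ n) S ∧
        (∀ (x : M) (X : TangentSpace (𝓡∂ n) x), dmap (𝓡∂ n) S x X + Q.A.form x X ∘L S x = 0) ∧
        S p = 1 ∧ S q = 1 := by
      intro q hq
      obtain ⟨χ, h1, h2, h3, h4⟩ := chi2 (n := n) hΓ hbd hp hq
      obtain ⟨w, hw, -, hwb⟩ := hex χ h1 h2
      obtain ⟨⟨S, e1, e2, e3⟩, -⟩ := hfr w χ hw h1 h2 hwb ⟨p, hΓb hp, by rw [h3]; norm_num⟩
      exact ⟨S, e1, e2, e3 p (hΓb hp) (by rw [h3]; norm_num),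
        e3 q (hΓb hq) (by rw [h4]; norm_num)⟩
    obtain ⟨S, hS1, hS2, hS3, -⟩ := hat p hp
    obtain ⟨g1, g2⟩ := gauge_of_par hS1 hS2
    refine ⟨fun x => adjRE (S x), g1, fun q hq => ?_, g2⟩
    obtain ⟨R, hR1, hR2, hR3, hR4⟩ := hat q hq
    have h1 := par_uniq hS1 hR1 hS2 hR2 (hS3.trans hR3.symm) q
    show adjRE (S q) = 1
    rw [h1, hR4, adjRE_apply]
    exact star_one (EndF N)

end Vale.Agent.P088.EYM.O

end
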