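import Vale.Agent.P088.H5.M0849

/-!
# P088, Theorem L: the abstract projection lemma
-/

set_option linter.all false

open MeasureTheory Set Filter Topology

noncomputable section

namespace Vale.Agent.P088.EYM.O

open Vale.Agent.P088 Vale.Agent.P088.EYM

universe u

section

variable {X : Type u} [AddCommGroup X] [Module ℂ X] {F : X → X → ℂ}

/-- Cauchy-Schwarz. -/
theorem l1_cs (h1 : ∀ u v w, F u (v + w) = F u v + F u w)
    (h2 : ∀ (a : ℂ) u v, F u (a • v) = a * F u v)
    (h3 : ∀ u v, F v u = (starRingEnd ℂ) (F u v)) (h4 : ∀ u, 0 ≤ (F u u).re) (u v : X) :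
    ‖F u v‖ ^ 2 ≤ (F u u).re * (F v v).re :=
  cForm_cs (fun _ => True) F (fun _ _ _ _ => trivial) (fun _ _ _ => trivial)
    (fun u v w _ _ _ => h1 u v w) (fun a u v _ _ => h2 a u v) (fun u v _ _ => h3 u v)
    (fun u _ => h4 u) u v trivial trivial

theorem l1_sub_right (h1 : ∀ u v w, F u (v + w) = F u v + F u w)
    (h2 : ∀ (a : ℂ) u v, F u (a • v) = a * F u v) (u v w : X) :
    F u (v - w) = F u v - F u w := by
  have h := h1 u v ((-1 : ℂ) • w)
  rw [h2, neg_one_smul, ← sub_eq_add_neg] at h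
  rw [h]; ring

theorem l1_sub_left (h1 : ∀ u v w, F u (v + w) = F u v + F u w)
    (h2 : ∀ (a : ℂ) u v, F u (a • v) = a * F u v)
    (h3 : ∀ u v, F v u = (starRingEnd ℂ) (F u v)) (u v w : X) :
    F (u - v) w = F u w - F v w := by
  rw [h3 w (u - v), l1_sub_right h1 h2, map_sub, ← h3 w u, ← h3 w v]

/-- Projection on a subspace `U`: `T - u_k` tends weakly to a functional `l` which vanishes on `U`,
and `F (T - u_k) (T - u_k)` tends to `l T`. -/
theorem l1 (F : X → X → ℂ) (U : Submodule ℂ X) (T : X)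
    (h1 : ∀ u v w, F u (v + w) = F u v + F u w)
    (h2 : ∀ (a : ℂ) u v, F u (a • v) = a * F u v)
    (h3 : ∀ u v, F v u = (starRingEnd ℂ) (F u v)) (h4 : ∀ u, 0 ≤ (F u u).re) :
    ∃ (u : ℕ → X) (l : X →ₗ[ℂ] ℂ) (C : ℝ), (∀ k, u k ∈ U) ∧ 0 ≤ C ∧
      (∀ φ, ‖l φ‖ ^ 2 ≤ C * (F φ φ).re) ∧ (∀ v ∈ U, l v = 0) ∧
      (∀ φ, Tendsto (fun k => F (T - u k) φ) atTop (𝓝 (l φ))) ∧
      Tendsto (fun k => (F (T - u k) (T - u k)).re) atTop (𝓝 (l T).re) := by
  have cs := l1_cs h1 h2 h3 h4
  let lT : U →ₗ[ℂ] ℂ :=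
    { toFun := fun v => F T v
      map_add' := fun v w => by rw [Submodule.coe_add, h1]
      map_smul' := fun a v => by rw [Submodule.coe_smul, h2, RingHom.id_apply, smul_eq_mul] }
  obtain ⟨w, hw1, hw2⟩ := cHilb U (fun u v => F (u : X) (v : X)) lT (F T T).re
    (fun u v w => h1 _ _ _) (fun a u v => h2 _ _ _) (fun u v => h3 _ _) (fun u => h4 _)
    (fun u => cs T u)
  set u : ℕ → X := fun k => (w k : X) with hu
  -- energies are bounded
  have hq2 : ∀ a b : X, (F (a - b) (a - b)).re ≤ 2 * (F a a).re + 2 * (F b b).re := by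
    intro a b
    have e1 : (F (a - b) (a - b)).re = (F a a).re - 2 * (F a b).re + (F b b).re := by
      rw [l1_sub_right h1 h2, l1_sub_left h1 h2 h3, l1_sub_left h1 h2 h3, h3 a b]
      simp only [Complex.sub_re, Complex.conj_re]
      ring
    have e2 : (F (a + b) (a + b)).re = (F a a).re + 2 * (F a b).re + (F b b).re := by
      rw [h1, chilb_add_left h1 h3, chilb_add_left h1 h3, h3 a b]
      simp only [Complex.add_re, Complex.conj_re]
      ring
    have e3 := h4 (a + b)
    rw [e1]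
    linarith
  obtain ⟨k₁, hk₁⟩ := hw1 1 one_pos
  obtain ⟨B, hB0, hB⟩ : ∃ B : ℝ, 0 ≤ B ∧ ∀ k, (F (u k) (u k)).re ≤ B := by
    have h5 : ∀ k ≥ k₁, (F (u k) (u k)).re ≤ 2 * (F (u k₁) (u k₁)).re + 2 := by
      intro k hk
      have h6 := hk₁ k hk k₁ le_rfl
      have h7 := hq2 (u k₁) (u k₁ - u k)
      rw [sub_sub_cancel] at h7
      have h8 : (F (u k₁ - u k) (u k₁ - u k)).re = (F (u k - u k₁) (u k - u k₁)).re := by
        have e : u k₁ - u k = (-1 : ℂ) • (u k - u k₁) := by rw [neg_one_smul, neg_sub]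
        rw [e, h2, chilb_smul_left h2 h3]
        simp
      have h9 : (F (u k - u k₁) (u k - u k₁)).re ≤ 1 := h6
      linarith
    refine ⟨2 * (F (u k₁) (u k₁)).re + 2 + ∑ i ∈ Finset.range k₁, (F (u i) (u i)).re, ?_, ?_⟩
    · have := h4 (u k₁)
      have := Finset.sum_nonneg (s := Finset.range k₁) fun i _ => h4 (u i)
      linarith
    · intro k
      have h10 : 0 ≤ ∑ i ∈ Finset.range k₁, (F (u i) (u i)).re :=
        Finset.sum_nonneg fun i _ => h4 (u i)
      by_cases hk : k₁ ≤ k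
      · linarith [h5 k hk]
      · have h11 := Finset.single_le_sum (f := fun i => (F (u i) (u i)).re)
          (fun i _ => h4 (u i)) (Finset.mem_range.2 (not_le.1 hk))
        have := h4 (u k₁)
        have h12 : (F (u k) (u k)).re ≤ ∑ i ∈ Finset.range k₁, (F (u i) (u i)).re := h11
        linarith
  -- the functional
  have hlim : ∀ φ, ∃ c : ℂ, Tendsto (fun k => F (T - u k) φ) atTop (𝓝 c) := by
    intro φ
    refine cauchySeq_tendsto_of_complete ?_
    rw [Metric.cauchySeq_iff]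
    intro ε hε
    have hφ := h4 φ
    obtain ⟨k₀, hk₀⟩ := hw1 (ε ^ 2 / (4 * ((F φ φ).re + 1))) (by positivity)
    refine ⟨k₀, fun k hk j hj => ?_⟩
    rw [dist_eq_norm]
    have e1 : F (T - u k) φ - F (T - u j) φ = -(F (u k - u j) φ) := by
      rw [l1_sub_left h1 h2 h3, l1_sub_left h1 h2 h3, l1_sub_left h1 h2 h3]
      ring
    rw [e1, norm_neg]
    have h5 := cs (u k - u j) φ
    have h6 : (F (u k - u j) (u k - u j)).re ≤ ε ^ 2 / (4 * ((F φ φ).re + 1)) := hk₀ k hk j hj
    have h7 : ‖F (u k - u j) φ‖ ^ 2 ≤ (ε / 2) ^ 2 := by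
      refine h5.trans ((mul_le_mul_of_nonneg_right h6 hφ).trans ?_)
      rw [div_mul_eq_mul_div, div_le_iff₀ (by positivity)]
      nlinarith [sq_nonneg ε]
    have h8 := abs_le_of_sq_le_sq' h7 (by positivity)
    linarith [h8.2]
  choose l hl using hlim
  have hadd : ∀ φ ψ, l (φ + ψ) = l φ + l ψ := fun φ ψ => by
    refine tendsto_nhds_unique (hl _) ?_
    simp only [h1]
    exact (hl φ).add (hl ψ)
  have hsm : ∀ (a : ℂ) φ, l (a • φ) = a * l φ := fun a φ => by
    refine tendsto_nhds_unique (hl _) ?_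
    simp only [h2]
    exact (hl φ).const_mul a
  let L : X →ₗ[ℂ] ℂ :=
    { toFun := l
      map_add' := hadd
      map_smul' := fun a φ => by rw [hsm, RingHom.id_apply, smul_eq_mul] }
  have hBT : ∀ k, (F (T - u k) (T - u k)).re ≤ 2 * (F T T).re + 2 * B := fun k =>
    (hq2 T (u k)).trans (by linarith [hB k])
  have hT0 := h4 T
  have hUz : ∀ v ∈ U, l v = 0 := by
    intro v hv
    have h5 := hw2 ⟨v, hv⟩
    have h6 : Tendsto (fun k => F (T - u k) v) atTop (𝓝 (F T v - F T v)) := by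
      simp only [l1_sub_left h1 h2 h3]
      exact tendsto_const_nhds.sub h5
    rw [sub_self] at h6
    exact tendsto_nhds_unique (hl v) h6
  refine ⟨u, L, 2 * (F T T).re + 2 * B, fun k => (w k).2, by positivity, fun φ => ?_, hUz,
    fun φ => hl φ, ?_⟩
  · refine le_of_tendsto' ((hl φ).norm.pow 2) fun k => ?_
    exact (cs (T - u k) φ).trans (mul_le_mul_of_nonneg_right (hBT k) (h4 φ))
  · -- `F (T - u k) (u k) → 0`
    have h7 : Tendsto (fun k => F (T - u k) (u k)) atTop (𝓝 0) := by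
      rw [Metric.tendsto_atTop]
      intro ε hε
      set D : ℝ := 2 * (F T T).re + 2 * B + 1 with hD
      have hD0 : 0 < D := by positivity
      obtain ⟨j, hj⟩ := hw1 (ε ^ 2 / (16 * D)) (by positivity)
      have h8 : Tendsto (fun k => F (T - u k) (u j)) atTop (𝓝 0) := by
        have := hl (u j)
        rwa [hUz _ (w j).2] at this
      obtain ⟨k₂, hk₂⟩ := (Metric.tendsto_atTop.1 h8) (ε / 2) (by positivity)
      refine ⟨max j k₂, fun k hk => ?_⟩
      have hkj := le_of_max_le_left hk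
      have h9 := hk₂ k (le_of_max_le_right hk)
      rw [dist_zero_right] at h9 ⊢
      have e1 : F (T - u k) (u k) = F (T - u k) (u j) + F (T - u k) (u k - u j) := by
        rw [l1_sub_right h1 h2]
        ring
      have h10 := cs (T - u k) (u k - u j)
      have h11 : (F (u k - u j) (u k - u j)).re ≤ ε ^ 2 / (16 * D) := hj k hkj j le_rfl
      have h12 : ‖F (T - u k) (u k - u j)‖ ^ 2 ≤ (ε / 4) ^ 2 := by
        refine h10.trans ?_
        have h13 : (F (T - u k) (T - u k)).re ≤ D := by rw [hD]; linarith [hBT k]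
        calc _ ≤ D * (ε ^ 2 / (16 * D)) := mul_le_mul h13 h11 (h4 _) hD0.le
          _ = (ε / 4) ^ 2 := by field_simp; ring
      have h14 := (abs_le_of_sq_le_sq' h12 (by positivity)).2
      rw [e1]
      calc _ ≤ ‖F (T - u k) (u j)‖ + ‖F (T - u k) (u k - u j)‖ := norm_add_le _ _
        _ < ε := by linarith
    have h15 := (Complex.continuous_re.tendsto _).comp ((hl T).sub h7)
    rw [sub_zero] at h15
    refine h15.congr fun k => ?_
    rw [Function.comp_apply, ← l1_sub_right h1 h2]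

end

end Vale.Agent.P088.EYM.O

end
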