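import Vale.Agent.P088.H4.St5
import Vale.Agent.P088.H5.St5

/-!
# P088: two manifolds, the unique diffeomorphism and gauge, and the hypothesis on the pairs
-/

open Manifold MeasureTheory Set
open scoped ContDiff Matrix

noncomputable section

namespace Vale.Agent.P088.B10

open Vale.Agent.P088.B Vale.Agent.P088.B7

universe u

variable {n N : ℕ} {M₁ M₂ : Type u} {Z₁ : At n M₁} {Z₂ : At n M₂}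

variable (Z₁ Z₂) in
/-- `f₁ ∈ C_c^∞(Γ₁; ℂ^N)`, `f₂ ∈ C_c^∞(Γ₂; ℂ^N)` and `f₂ = f₁ ∘ ψ` on `Γ₂`. -/
def Corr (Γ₁ : Set M₁) (Γ₂ : Set M₂) (ψ : M₂ → M₁) (f₁ : M₁ → Fin N → ℂ)
    (f₂ : M₂ → Fin N → ℂ) : Prop :=
  Data Z₁ Γ₁ f₁ ∧ Data Z₂ Γ₂ f₂ ∧ ∀ x ∈ Γ₂, f₂ x = f₁ (ψ x)

variable (Z₁ Z₂ N) in
/-- `ψ : Γ₂ → Γ₁` is a diffeomorphism: it is bijective, and `f₁ ∈ C_c^∞(Γ₁; ℂ^N)` if and only if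
`f₁ ∘ ψ ∈ C_c^∞(Γ₂; ℂ^N)`. -/
def Iden (Γ₁ : Set M₁) (Γ₂ : Set M₂) (ψ : M₂ → M₁) : Prop :=
  BijOn ψ Γ₂ Γ₁ ∧
    (∀ f₁ : M₁ → Fin N → ℂ, Data Z₁ Γ₁ f₁ → ∃ f₂, Corr Z₁ Z₂ Γ₁ Γ₂ ψ f₁ f₂) ∧
    ∀ f₂ : M₂ → Fin N → ℂ, Data Z₂ Γ₂ f₂ → ∃ f₁, Corr Z₁ Z₂ Γ₁ Γ₂ ψ f₁ f₂

/-- The data of `(g₁, A₁)` on `Γ₁` and of `(g₂, A₂)` on `Γ₂` agree under `ψ : Γ₂ → Γ₁`: for all
`f, h ∈ C_c^∞(Γ₁; ℂ^N)`,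
`∫ ⟨d_{A₁} u_f, d_{A₁} u_h⟩ dV_{g₁} = ∫ ⟨d_{A₂} u_{f ∘ ψ}, d_{A₂} u_{h ∘ ψ}⟩ dV_{g₂}`. -/
def SameData₂ (Γ₁ : Set M₁) (Γ₂ : Set M₂) (ψ : M₂ → M₁) (P : Pair Z₁ N) (Q : Pair Z₂ N) : Prop :=
  ∀ f₁ f₂ h₁ h₂, Corr Z₁ Z₂ Γ₁ Γ₂ ψ f₁ f₂ → Corr Z₁ Z₂ Γ₁ Γ₂ ψ h₁ h₂ → ∃ u v u' v',
    Harm P f₁ u ∧ Harm P h₁ v ∧ Harm Q f₂ u' ∧ Harm Q h₂ v' ∧ energy P u v = energy Q u' v'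

variable (Z₁ Z₂) in
/-- `Φ : M₂ → M₁` is smooth: it is continuous and its coordinates are smooth functions. -/
def SmMap₂ (Φ : M₂ → M₁) : Prop :=
  @Continuous M₂ M₁ Z₂.top Z₁.top Φ ∧
    ∀ p i, Z₂.sm (Φ ⁻¹' Z₁.src p) (fun x => Z₁.ch p (Φ x) i)

/-- `Φ : M₂ → M₁` is a diffeomorphism with inverse `Ψ`, `U : M₂ → U(N)` is smooth, `Φ = ψ` and
`U = I` on `Γ₂`, `g₂ = Φ^* g₁` and `A₂ = U⁻¹ (Φ^* A₁) U + U⁻¹ dU`; `J` is the Jacobian matrix of `Φ`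
at `x`, in the charts at `x` and at `Φ x`. -/
def Rel (Γ₂ : Set M₂) (ψ : M₂ → M₁) (P : Pair Z₁ N) (Q : Pair Z₂ N) (Φ : M₂ → M₁)
    (Ψ : M₁ → M₂) (U : M₂ → Matrix (Fin N) (Fin N) ℂ) : Prop :=
  SmMap₂ Z₁ Z₂ Φ ∧ SmMap₂ Z₂ Z₁ Ψ ∧ (∀ x, Ψ (Φ x) = x) ∧ (∀ x, Φ (Ψ x) = x) ∧
    (∀ a, Sm Z₂ (fun x => U x a)) ∧ (∀ x, (U x)ᴴ * U x = 1) ∧
    (∀ x ∈ Γ₂, Φ x = ψ x ∧ U x = 1) ∧ ∀ x,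
      let J : Matrix (Fin n) (Fin n) ℝ := fun i j =>
        dj (fun y => Z₁.ch (Φ x) (Φ (pt Z₂ x y)) i) (Z₂.ch x x) j
      Q.g x = Jᵀ * P.g (Φ x) * J ∧ ∀ j, Q.A x j = (U x)ᴴ *
        ((∑ i, J i j • P.A (Φ x) i) * U x + dM (fun y => U (pt Z₂ x y)) (Z₂.ch x x) j)

/-- There is exactly one triple `(Φ, Ψ, U)` as in `Rel`; and `u_f ∘ Φ = U u_{f ∘ ψ}` for all
`f ∈ C_c^∞(Γ₁; ℂ^N)`. -/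
def UniqueRel (Γ₁ : Set M₁) (Γ₂ : Set M₂) (ψ : M₂ → M₁) (P : Pair Z₁ N) (Q : Pair Z₂ N) : Prop :=
  ∃ Φ Ψ U, Rel Γ₂ ψ P Q Φ Ψ U ∧
    (∀ f₁ f₂ u₁ u₂, Corr Z₁ Z₂ Γ₁ Γ₂ ψ f₁ f₂ → Harm P f₁ u₁ → Harm Q f₂ u₂ →
      ∀ x, u₁ (Φ x) = U x *ᵥ u₂ x) ∧
    ∀ Φ' Ψ' U', Rel Γ₂ ψ P Q Φ' Ψ' U' → Φ' = Φ ∧ Ψ' = Ψ ∧ U' = U

/-- Both pairs solve the same natural system; or some transform `P'` of `(g₁, A₁)`, as in `Rel`, has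
a metric which is piecewise ordered with `g₂` on a dense set `W` and a connection which is gauge
equivalent to `A₂`, or a metric with `s(g') ≤ s(g₂)` and a connection which is gauge equivalent to
the trivial one. -/
def Cls (Γ₂ : Set M₂) [TopologicalSpace M₂] (ψ : M₂ → M₁) (P : Pair Z₁ N) (Q : Pair Z₂ N) : Prop :=
  Same univ univ P Q ∨ ∃ P' : Pair Z₂ N, (∃ Φ Ψ U, Rel Γ₂ ψ P P' Φ Ψ U) ∧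
    ((∃ W, closure W = univ ∧ PwLe W Γ₂ P' Q) ∧ (∃ U, GaugeBy U univ Γ₂ P'.A Q.A Z₂) ∨
      Le univ P' Q ∧ ∃ U, GaugeBy U univ Γ₂ 0 P'.A Z₂)

/-- As `Cls`; or: the data are given on the whole boundary, `A₁` is gauge trivial, and the scalar
pairs `(g₁, 0)`, `(g₂, 0)` are as in `Cls` (`A₂` is arbitrary). -/
def Hyp (Γ₁ : Set M₁) (Γ₂ : Set M₂) [TopologicalSpace M₂] (ψ : M₂ → M₁) (P : Pair Z₁ N)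
    (Q : Pair Z₂ N) : Prop :=
  Cls Γ₂ ψ P Q ∨ Γ₁ = bd Z₁ ∧ Γ₂ = bd Z₂ ∧ (∃ U, GaugeBy U univ Γ₁ 0 P.A Z₁) ∧
    ∃ (P₀ : Pair Z₁ 1) (Q₀ : Pair Z₂ 1), P₀.g = P.g ∧ P₀.A = 0 ∧ Q₀.g = Q.g ∧ Q₀.A = 0 ∧
      Cls Γ₂ ψ P₀ Q₀

end Vale.Agent.P088.B10
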