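import Vale.Agent.P088.H5.R5_435
import Vale.Agent.P088.H5.R1b_332
import Vale.Agent.P088.H5.StL

/-!
# P088: two manifolds, the hypothesis `B10.Hyp` gives the unique diffeomorphism and gauge
-/

open Bundle Manifold MeasureTheory Set Filter
open scoped ContDiff Matrix Topology ENNReal

noncomputable section

set_option linter.all false

namespace Vale.Agent.P088.B10

open Vale.Agent.P088 Vale.Agent.P088.B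

universe u

/-- Two manifolds. -/
theorem hypL_two (r2 : B6.R2_statement.{u}) (r3 : B6.R3_statement.{u})
    {n N : ℕ} [NeZero n] (hn : 3 ≤ n) (hN : 1 ≤ N) {M₁ M₂ : Type u}
    [TopologicalSpace M₁] [ChartedSpace (EuclideanHalfSpace n) M₁] [IsManifold (𝓡∂ n) ∞ M₁]
    [T2Space M₁] [CompactSpace M₁] [ConnectedSpace M₁]
    [TopologicalSpace M₂] [ChartedSpace (EuclideanHalfSpace n) M₂] [IsManifold (𝓡∂ n) ∞ M₂]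
    [T2Space M₂] [CompactSpace M₂] [ConnectedSpace M₂]
    (Z₁ : At n M₁) (hZ₁ : Z₁ = at_ n M₁) (Z₂ : At n M₂) (hZ₂ : Z₂ = at_ n M₂)
    (Γ₁ O₁ : Set M₁) (hO₁ : IsOpen O₁) (hΓ₁ : Γ₁ = O₁ ∩ bd Z₁) (hne : Γ₁.Nonempty)
    (Γ₂ O₂ : Set M₂) (hO₂ : IsOpen O₂) (hΓ₂ : Γ₂ = O₂ ∩ bd Z₂) (ψ : M₂ → M₁)
    (hψ : Iden N Z₁ Z₂ Γ₁ Γ₂ ψ) (P : Pair Z₁ N) (Q : Pair Z₂ N)
    (hdata : SameData₂ Γ₁ Γ₂ ψ P Q) (h : Hyp Γ₁ Γ₂ ψ P Q) : UniqueRel Γ₁ Γ₂ ψ P Q := by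
  rcases h with h | ⟨h₁, h₂, hU, P₀, Q₀, a1, a2, a3, a4, h⟩
  · exact B6.hyp_two hn hN Z₁ hZ₁ Z₂ hZ₂ Γ₁ O₁ hO₁ hΓ₁ hne Γ₂ O₂ hO₂ hΓ₂ ψ hψ P Q hdata h
  · subst h₁ h₂
    exact ((B6.red_hyp B6.r1 r2 r3 hn hN Z₁ hZ₁ Z₂ hZ₂ hne ψ hψ P Q hdata P₀ Q₀ ⟨a1, a2⟩
      ⟨a3, a4⟩).2 hU).2 h

/-- One manifold. -/
theorem hypL_one (r2 : B6.R2_statement.{u}) (r3 : B6.R3_statement.{u})
    {n N : ℕ} [NeZero n] (hn : 3 ≤ n) (hN : 1 ≤ N) {M : Type u}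
    [TopologicalSpace M] [ChartedSpace (EuclideanHalfSpace n) M] [IsManifold (𝓡∂ n) ∞ M]
    [T2Space M] [CompactSpace M] [ConnectedSpace M]
    (Z : At n M) (hZ : Z = at_ n M) (Γ O : Set M) (hO : IsOpen O) (hΓ : Γ = O ∩ bd Z)
    (hne : Γ.Nonempty) (P Q : Pair Z N) (hd : B.SameData Γ P Q) (h : Hyp Γ Γ id P Q) :
    UniqueRel Γ Γ id P Q :=
  hypL_two r2 r3 hn hN Z hZ Z hZ Γ O hO hΓ hne Γ O hO hΓ id (B2.iden_id Γ) P Q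
    (B2.sameData_id hd) h

/-- Both. -/
theorem hypL (r2 : B6.R2_statement.{u}) (r3 : B6.R3_statement.{u})
    {n N : ℕ} [NeZero n] (hn : 3 ≤ n) (hN : 1 ≤ N) {M₁ M₂ : Type u}
    [TopologicalSpace M₁] [ChartedSpace (EuclideanHalfSpace n) M₁] [IsManifold (𝓡∂ n) ∞ M₁]
    [T2Space M₁] [CompactSpace M₁] [ConnectedSpace M₁]
    [TopologicalSpace M₂] [ChartedSpace (EuclideanHalfSpace n) M₂] [IsManifold (𝓡∂ n) ∞ M₂]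
    [T2Space M₂] [CompactSpace M₂] [ConnectedSpace M₂]
    (Z₁ : At n M₁) (hZ₁ : Z₁ = at_ n M₁) (Z₂ : At n M₂) (hZ₂ : Z₂ = at_ n M₂)
    (Γ₁ O₁ : Set M₁) (hO₁ : IsOpen O₁) (hΓ₁ : Γ₁ = O₁ ∩ bd Z₁) (hne : Γ₁.Nonempty)
    (Γ₂ O₂ : Set M₂) (hO₂ : IsOpen O₂) (hΓ₂ : Γ₂ = O₂ ∩ bd Z₂) :
    (∀ P Q : Pair Z₁ N, B.SameData Γ₁ P Q → Hyp Γ₁ Γ₁ id P Q → UniqueRel Γ₁ Γ₁ id P Q) ∧
    ∀ (ψ : M₂ → M₁), Iden N Z₁ Z₂ Γ₁ Γ₂ ψ → ∀ (P : Pair Z₁ N) (Q : Pair Z₂ N),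
      SameData₂ Γ₁ Γ₂ ψ P Q → Hyp Γ₁ Γ₂ ψ P Q → UniqueRel Γ₁ Γ₂ ψ P Q :=
  ⟨fun P Q hd h => hypL_one r2 r3 hn hN Z₁ hZ₁ Γ₁ O₁ hO₁ hΓ₁ hne P Q hd h,
    fun ψ hψ P Q hd h => hypL_two r2 r3 hn hN Z₁ hZ₁ Z₂ hZ₂ Γ₁ O₁ hO₁ hΓ₁ hne Γ₂ O₂ hO₂ hΓ₂ ψ hψ
      P Q hd h⟩

end Vale.Agent.P088.B10

end
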