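import Vale.Agent.P088.H5.M2779

/-!
# P088, Theorem M+: the ground state identity for sections with `‖u‖ = w` on the boundary
-/

open Bundle Manifold MeasureTheory Set Filter Topology
open scoped ContDiff Matrix

noncomputable section

set_option linter.unusedSectionVars false

namespace Vale.Agent.P088.EYM.O

open Vale.Agent.P088 Vale.Agent.P088.EYM

universe u

/-- (M2+) the ground state identity and the limit, with `‖u‖ = w` on the boundary only. -/
def M2p_statement : Prop :=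
  ∀ (n N : ℕ) [NeZero n] (M : Type u) [TopologicalSpace M] [ChartedSpace (EuclideanHalfSpace n) M]
    [IsManifold (𝓡∂ n) ∞ M] [T2Space M] [CompactSpace M] [ConnectedSpace M] [MeasurableSpace M]
    [BorelSpace M] (P : One n N M) (A : Connection (𝓡∂ n) N M) (w φ : M → ℝ) (u : M → Fib N),
    Wk P w → (∀ x, 0 ≤ w x) → SmR n φ →
    (∀ x ∈ (𝓡∂ n).boundary M, w x = φ x ^ 2) → SmS n u →
    (∀ x ∈ (𝓡∂ n).boundary M, ‖u x‖ = w x) →
    (energy P.g P.μ A u u).re ≤ ∫ x, gp P.g w w x ∂P.μ →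
    ∫ x, gp P.g w w x ∂P.μ ≤ (energy P.g P.μ A u u).re ∧
      ∀ (x : M) (X : TangentSpace (𝓡∂ n) x),
        (w x : ℂ) • cov A u x X = ((dmap (𝓡∂ n) w x X : ℝ) : ℂ) • u x

open B779 in
theorem m2p : M2p_statement.{u} := by
  intro n N _ M _ _ _ _ _ _ _ _ P A w φ u hw hw0 hφ hwφ hu huv hE
  obtain ⟨hfin, hpos, -⟩ := TM.fInt n N M P
  have hop : P.μ.IsOpenPosMeasure := ⟨fun U hU hne => (hpos U hU hne).ne'⟩
  have cp : Continuous fun x => (pairing P.g A u u x).re :=
    Complex.continuous_re.comp (continuous_pairing P.g A hu hu)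
  have ca : Continuous (gp P.g w w) := cont_gp P.g hw.sm hw.sm
  have cb : Continuous (gp P.g w (nsq u)) := cont_gp P.g hw.sm (sm_nsq hu)
  have cc : Continuous (gp P.g w φ) := cont_gp P.g hw.sm hφ
  have cw : Continuous w := ContMDiff.continuous hw.sm
  have cφ : Continuous φ := ContMDiff.continuous hφ
  have cs : Continuous (nsq u) := ContMDiff.continuous (sm_nsq hu)
  have hint : ∀ {f : M → ℝ}, Continuous f → Integrable f P.μ := fun hf => integrable_of_continuous hf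
  have eE : (energy P.g P.μ A u u).re = ∫ x, (pairing P.g A u u x).re ∂P.μ :=
    (integral_re (𝕜 := ℂ) (integrable_of_continuous (continuous_pairing P.g A hu hu))).symm
  rw [eE] at hE ⊢
  have hQ : ∀ (x : M) (α β : ℝ), 0 ≤ α ^ 2 * (pairing P.g A u u x).re -
      α * β * gp P.g w (nsq u) x + β ^ 2 * (nsq u x * gp P.g w w x) := by
    intro x α β
    rw [← quad P.g A hu w x α β]
    exact rp_nonneg P.g x fun a => α • covI A u x a - (β * dI (𝓡∂ n) w x a) • u x
  have hp0 : ∀ x, 0 ≤ (pairing P.g A u u x).re := by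
    intro x
    have := hQ x 1 0
    simpa using this
  -- the integral of `|T|²`
  have key : ∀ δ : ℝ, 0 < δ → ∫ x, ((pairing P.g A u u x).re -
      (w x + δ ^ 2)⁻¹ * gp P.g w (nsq u) x +
        (w x + δ ^ 2)⁻¹ ^ 2 * (nsq u x * gp P.g w w x)) ∂P.μ ≤
      ∫ x, (pairing P.g A u u x).re ∂P.μ - ∫ x, gp P.g w w x ∂P.μ +
        δ * ∫ x, |gp P.g w φ x| ∂P.μ := by
    intro δ hδ
    have hpos1 : ∀ x, 0 < w x + δ ^ 2 := fun x => add_pos_of_nonneg_of_pos (hw0 x) (by positivity)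
    have hpos2 : ∀ x, 0 < φ x * φ x + δ ^ 2 := fun x => by
      have := mul_self_nonneg (φ x)
      positivity
    have cr : Continuous fun x => (w x + δ ^ 2)⁻¹ :=
      (cw.add continuous_const).inv₀ fun x => (hpos1 x).ne'
    have cq : Continuous fun x => (φ x * φ x + δ ^ 2)⁻¹ :=
      ((cφ.mul cφ).add continuous_const).inv₀ fun x => (hpos2 x).ne'
    obtain ⟨s1, e1⟩ := test1 P.g hw.sm (sm_nsq hu) fun x => (hpos1 x).ne'
    obtain ⟨s2, e2⟩ := test2 P.g hw.sm hφ (fun x => (hpos1 x).ne') fun x => (hpos2 x).ne'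
    have i1 := hw.weak _ s1 fun x hx => by
      have h1 : nsq u x = w x * w x := by
        unfold nsq
        have h2 := inner_self_eq_norm_sq (𝕜 := ℂ) (u x)
        rw [huv x hx, pow_two] at h2
        exact h2
      rw [h1, sub_self, zero_mul]
    have i2 := hw.weak _ s2 fun x hx => by
      have h1 : w x = φ x * φ x := by rw [hwφ x hx, pow_two]
      rw [h1, sub_self]
    simp only [e1] at i1
    simp only [e2] at i2
    have c1 : Continuous fun x => (w x + δ ^ 2)⁻¹ * gp P.g w (nsq u) x -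
        2 * (w x + δ ^ 2)⁻¹ * w x * gp P.g w w x -
        (w x + δ ^ 2)⁻¹ ^ 2 * (nsq u x - w x * w x) * gp P.g w w x := by fun_prop
    have c2 : Continuous fun x => -((w x + δ ^ 2)⁻¹ ^ 2 * gp P.g w w x) +
        2 * (φ x * φ x + δ ^ 2)⁻¹ ^ 2 * φ x * gp P.g w φ x := by fun_prop
    have c0 : Continuous fun x => (pairing P.g A u u x).re -
      (w x + δ ^ 2)⁻¹ * gp P.g w (nsq u) x +
        (w x + δ ^ 2)⁻¹ ^ 2 * (nsq u x * gp P.g w w x) := by fun_prop
    have h3 : ∫ x, ((pairing P.g A u u x).re -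
      (w x + δ ^ 2)⁻¹ * gp P.g w (nsq u) x +
        (w x + δ ^ 2)⁻¹ ^ 2 * (nsq u x * gp P.g w w x)) ∂P.μ =
        ∫ x, ((pairing P.g A u u x).re - gp P.g w w x +
          2 * δ ^ 4 * (φ x * φ x + δ ^ 2)⁻¹ ^ 2 * φ x * gp P.g w φ x) ∂P.μ := by
      have h4 : ∫ x, ((pairing P.g A u u x).re - gp P.g w w x +
          2 * δ ^ 4 * (φ x * φ x + δ ^ 2)⁻¹ ^ 2 * φ x * gp P.g w φ x) ∂P.μ =
          ∫ x, ((((pairing P.g A u u x).re -
            (w x + δ ^ 2)⁻¹ * gp P.g w (nsq u) x +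
            (w x + δ ^ 2)⁻¹ ^ 2 * (nsq u x * gp P.g w w x)) +
            ((w x + δ ^ 2)⁻¹ * gp P.g w (nsq u) x -
              2 * (w x + δ ^ 2)⁻¹ * w x * gp P.g w w x -
              (w x + δ ^ 2)⁻¹ ^ 2 * (nsq u x - w x * w x) * gp P.g w w x)) +
            δ ^ 4 * (-((w x + δ ^ 2)⁻¹ ^ 2 * gp P.g w w x) +
              2 * (φ x * φ x + δ ^ 2)⁻¹ ^ 2 * φ x * gp P.g w φ x)) ∂P.μ := by
        refine integral_congr_ae (Eventually.of_forall fun x => ?_)
        have h5 : (w x + δ ^ 2)⁻¹ * (w x + δ ^ 2) = 1 := inv_mul_cancel₀ (hpos1 x).ne'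
        have h6 : 2 * (w x + δ ^ 2)⁻¹ * w x - (w x + δ ^ 2)⁻¹ ^ 2 * (w x * w x) +
            δ ^ 4 * (w x + δ ^ 2)⁻¹ ^ 2 = 1 := by
          have h7 : (w x + δ ^ 2)⁻¹ * w x = 1 - (w x + δ ^ 2)⁻¹ * δ ^ 2 := by linarith
          have h8 : (w x + δ ^ 2)⁻¹ ^ 2 * (w x * w x) = ((w x + δ ^ 2)⁻¹ * w x) ^ 2 := by ring
          rw [h8, mul_assoc, h7]
          ring
        beta_reduce
        linear_combination (gp P.g w w x) * h6
      exact (h4.trans (int3 (hint c0) (hint c1) (hint c2) i1 i2)).symm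
    rw [h3]
    have h9 : ∫ x, (pairing P.g A u u x).re ∂P.μ - ∫ x, gp P.g w w x ∂P.μ +
        δ * ∫ x, |gp P.g w φ x| ∂P.μ =
        ∫ x, ((pairing P.g A u u x).re - gp P.g w w x + δ * |gp P.g w φ x|) ∂P.μ := by
      exact (int3' (hint cp) (hint ca) (hint cc.abs)).symm
    rw [h9]
    refine integral_mono (hint (by fun_prop)) (hint (by fun_prop)) fun x => ?_
    have := bd1 (φ x) (gp P.g w φ x) δ hδ
    beta_reduce
    linarith
  have hT0 : ∀ δ x, 0 ≤ (pairing P.g A u u x).re -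
      (w x + δ ^ 2)⁻¹ * gp P.g w (nsq u) x +
        (w x + δ ^ 2)⁻¹ ^ 2 * (nsq u x * gp P.g w w x) := by
    intro δ x
    have := hQ x 1 (w x + δ ^ 2)⁻¹
    linarith
  have hK : 0 ≤ ∫ x, |gp P.g w φ x| ∂P.μ := integral_nonneg fun x => abs_nonneg _
  refine ⟨?_, ?_⟩
  · have h1 : ∫ x, gp P.g w w x ∂P.μ - ∫ x, (pairing P.g A u u x).re ∂P.μ ≤ 0 := by
      refine small hK fun δ hδ _ => ?_
      have h2 := key δ hδ
      have h3 : 0 ≤ ∫ x, ((pairing P.g A u u x).re -
          (w x + δ ^ 2)⁻¹ * gp P.g w (nsq u) x +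
          (w x + δ ^ 2)⁻¹ ^ 2 * (nsq u x * gp P.g w w x)) ∂P.μ :=
        integral_nonneg fun x => hT0 δ x
      linarith
    linarith
  · -- the integral of `|R|²`
    obtain ⟨C, hC⟩ := isCompact_univ.exists_bound_of_continuousOn cw.continuousOn
    have hC' : ∀ x, w x ≤ |C| := fun x => by
      have h1 := hC x (mem_univ x)
      rw [Real.norm_eq_abs, abs_of_nonneg (hw0 x)] at h1
      exact h1.trans (le_abs_self C)
    have crr : Continuous fun x => w x ^ 2 * (pairing P.g A u u x).re -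
        w x * 1 * gp P.g w (nsq u) x + 1 ^ 2 * (nsq u x * gp P.g w w x) := by fun_prop
    have hp1 : 0 ≤ ∫ x, (pairing P.g A u u x).re ∂P.μ := integral_nonneg hp0
    have hR : ∫ x, (w x ^ 2 * (pairing P.g A u u x).re -
        w x * 1 * gp P.g w (nsq u) x + 1 ^ 2 * (nsq u x * gp P.g w w x)) ∂P.μ ≤ 0 := by
      refine small (K := 2 * (|C| + 1) ^ 2 * (∫ x, |gp P.g w φ x| ∂P.μ) +
        2 * ∫ x, (pairing P.g A u u x).re ∂P.μ) (by positivity) fun δ hδ hδ1 => ?_
      have hpos1 : ∀ x, 0 < w x + δ ^ 2 :=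
        fun x => add_pos_of_nonneg_of_pos (hw0 x) (by positivity)
      have cr : Continuous fun x => (w x + δ ^ 2)⁻¹ :=
        (cw.add continuous_const).inv₀ fun x => (hpos1 x).ne'
      have c0 : Continuous fun x => (pairing P.g A u u x).re -
        (w x + δ ^ 2)⁻¹ * gp P.g w (nsq u) x +
          (w x + δ ^ 2)⁻¹ ^ 2 * (nsq u x * gp P.g w w x) := by fun_prop
      have h1 : ∫ x, (w x ^ 2 * (pairing P.g A u u x).re -
        w x * 1 * gp P.g w (nsq u) x + 1 ^ 2 * (nsq u x * gp P.g w w x)) ∂P.μ ≤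
          ∫ x, (2 * (|C| + 1) ^ 2 * ((pairing P.g A u u x).re -
            (w x + δ ^ 2)⁻¹ * gp P.g w (nsq u) x +
            (w x + δ ^ 2)⁻¹ ^ 2 * (nsq u x * gp P.g w w x)) +
            2 * δ ^ 4 * (pairing P.g A u u x).re) ∂P.μ := by
        refine integral_mono (hint crr) (hint ((continuous_const.mul c0).add
          (continuous_const.mul cp))) fun x => ?_
        beta_reduce
        have h2 := hQ x (w x + δ ^ 2 + δ ^ 2) 1
        have h3 := hT0 δ x
        have h4 : (w x + δ ^ 2) ^ 2 ≤ (|C| + 1) ^ 2 := by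
          have h5 : δ ^ 2 ≤ 1 := by nlinarith
          have h6 := hC' x
          exact pow_le_pow_left₀ (hpos1 x).le (by linarith) 2
        have h7 := mul_le_mul_of_nonneg_right h4 h3
        have h8 : (w x + δ ^ 2) ^ 2 * ((pairing P.g A u u x).re -
            (w x + δ ^ 2)⁻¹ * gp P.g w (nsq u) x +
            (w x + δ ^ 2)⁻¹ ^ 2 * (nsq u x * gp P.g w w x)) =
            (w x + δ ^ 2) ^ 2 * (pairing P.g A u u x).re -
              (w x + δ ^ 2) * gp P.g w (nsq u) x + nsq u x * gp P.g w w x := by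
          have h9 : (w x + δ ^ 2) * (w x + δ ^ 2)⁻¹ = 1 := mul_inv_cancel₀ (hpos1 x).ne'
          linear_combination (-(w x + δ ^ 2) * gp P.g w (nsq u) x +
            ((w x + δ ^ 2) * (w x + δ ^ 2)⁻¹ + 1) * (nsq u x * gp P.g w w x)) * h9
        rw [h8] at h7
        nlinarith
      have h1' := h1.trans_eq (int2 (c := 2 * (|C| + 1) ^ 2) (d := 2 * δ ^ 4) (hint c0) (hint cp))
      have h2 := key δ hδ
      have h3 : ∫ x, ((pairing P.g A u u x).re -
        (w x + δ ^ 2)⁻¹ * gp P.g w (nsq u) x +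
          (w x + δ ^ 2)⁻¹ ^ 2 * (nsq u x * gp P.g w w x)) ∂P.μ ≤
          δ * ∫ x, |gp P.g w φ x| ∂P.μ := by linarith
      have h4 : 2 * (|C| + 1) ^ 2 * ∫ x, ((pairing P.g A u u x).re -
        (w x + δ ^ 2)⁻¹ * gp P.g w (nsq u) x +
          (w x + δ ^ 2)⁻¹ ^ 2 * (nsq u x * gp P.g w w x)) ∂P.μ ≤
          2 * (|C| + 1) ^ 2 * (δ * ∫ x, |gp P.g w φ x| ∂P.μ) :=
        mul_le_mul_of_nonneg_left h3 (by positivity)
      have h5 : δ ^ 4 ≤ δ := by
        have : δ ^ 4 ≤ δ ^ 1 := pow_le_pow_of_le_one hδ.le hδ1 (by norm_num)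
        simpa using this
      have h6 := mul_le_mul_of_nonneg_right h5 hp1
      refine h1'.trans ((add_le_add_left h4 _).trans ?_)
      linarith
    have hR0 : ∀ x, w x ^ 2 * (pairing P.g A u u x).re -
        w x * 1 * gp P.g w (nsq u) x + 1 ^ 2 * (nsq u x * gp P.g w w x) = 0 := by
      have h2 := le_antisymm hR (integral_nonneg fun x => hQ x (w x) 1)
      have h3 := (integral_eq_zero_iff_of_nonneg (fun x => hQ x (w x) 1) (hint crr)).1 h2
      have h4 : (fun x => w x ^ 2 * (pairing P.g A u u x).re -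
        w x * 1 * gp P.g w (nsq u) x + 1 ^ 2 * (nsq u x * gp P.g w w x)) = fun _ => (0 : ℝ) :=
        (Continuous.ae_eq_iff_eq P.μ crr continuous_const).1 h3
      exact fun x => congrFun h4 x
    intro x X
    have h1 := hR0 x
    rw [← quad P.g A hu w x (w x) 1] at h1
    have h2 := pd_zero (gram_inv_posDef P.g (mem_extChartAt_source x))
      (fun i => w x • covI A u x (es n i) - (1 * dI (𝓡∂ n) w x (es n i)) • u x) h1
    have h3 : ∀ i, w x • covI A u x (es n i) = (dI (𝓡∂ n) w x (es n i)) • u x := by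
      intro i
      have := sub_eq_zero.1 (h2 i)
      rwa [one_mul] at this
    have h4 : w x • covI A u x (X : EuclideanSpace ℝ (Fin n)) =
        (dI (𝓡∂ n) w x (X : EuclideanSpace ℝ (Fin n))) • u x := by
      rw [eq_sum_es (X : EuclideanSpace ℝ (Fin n)), covI_sum, Finset.smul_sum]
      simp only [map_sum, map_smul, Finset.sum_smul]
      refine Finset.sum_congr rfl fun i _ => ?_
      rw [smul_comm, h3 i, smul_smul, smul_eq_mul]
    exact h4

end Vale.Agent.P088.EYM.O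

end
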