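import Vale.Agent.P088.H5.M5_823

/-!
# P088, Theorem M+: bounded parallel sections in the interior extend smoothly to the boundary
-/

open Bundle Manifold MeasureTheory Set Filter Topology
open scoped ContDiff Matrix NNReal

noncomputable section

set_option linter.all false

namespace Vale.Agent.P088.EYM.O

open Vale.Agent.P088 Vale.Agent.P088.EYM

universe u

/-- A bounded parallel field of endomorphisms in the interior extends to `M`. -/
theorem m5gp (n N : ℕ) [NeZero n] (M : Type u) [TopologicalSpace M]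
    [ChartedSpace (EuclideanHalfSpace n) M] [IsManifold (𝓡∂ n) ∞ M] [T2Space M] [CompactSpace M]
    [ConnectedSpace M] (A : Connection (𝓡∂ n) N M) (S : M → EndF N)
    (hS : ContMDiffOn (𝓡∂ n) 𝓘(ℝ, EndF N) ∞ S (Mi n M)) (hU : ∀ x ∈ Mi n M, ‖S x‖ ≤ 1)
    (he : ∀ x ∈ Mi n M, ∀ X : TangentSpace (𝓡∂ n) x,
      dmap (𝓡∂ n) S x X + A.form x X ∘L S x = 0) :
    ∃ S' : M → EndF N, ContMDiff (𝓡∂ n) 𝓘(ℝ, EndF N) ∞ S' ∧ (∀ x ∈ Mi n M, S' x = S x) ∧
      ∀ (x : M) (X : TangentSpace (𝓡∂ n) x), dmap (𝓡∂ n) S' x X + A.form x X ∘L S' x = 0 := by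
  obtain ⟨hIo, -, hIcl⟩ := TM.fConn n M
  have hrel : ∀ p : M, RelOpen (tg n p) := _root_.Vale.Agent.P088.S.brEq_relOpen (n := n)
  -- near every point the frame is the restriction of a smooth one
  have key : ∀ p : M, ∃ (r : ℝ) (s : E n → EndF N), 0 < r ∧ HB (xc n p p) r ⊆ tg n p ∧
      ContDiffOn ℝ ∞ s (HB (xc n p p) r) ∧
      (∀ x ∈ (xc n p).source, xc n p x ∈ HB (xc n p p) r → x ∈ Mi n M → S x = s (xc n p x)) ∧
      ∀ y ∈ HB (xc n p p) r, ∀ j, pd j s y =
        -(A.form ((xc n p).symm y) (coordVec (𝓡∂ n) p ((xc n p).symm y) j) * s y) := by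
    intro p
    set c := xc n p p with hc
    have hct : c ∈ tg n p := mem_extChartAt_target p
    obtain ⟨r, hr, hrD⟩ : ∃ r > 0, HB c r ⊆ tg n p := by
      obtain ⟨O, hO, hOe⟩ := hrel p
      rw [hOe] at hct
      obtain ⟨r, hr, hrO⟩ := Metric.isOpen_iff.1 hO c hct.1
      exact ⟨r, hr, by rw [hOe]; exact inter_subset_inter_left _ hrO⟩
    have hint : ∀ y ∈ HB c r ∩ {x | 0 < x 0}, (xc n p).symm y ∈ Mi n M := by
      rintro y ⟨hy, hy0⟩
      by_contra hcon
      have h1 : (xc n p).symm y ∈ (𝓡∂ n).boundary M := by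
        rw [← ModelWithCorners.compl_interior]
        exact hcon
      rw [m5_boundary_iff p _ ((xc n p).map_target (hrD hy)), (xc n p).right_inv (hrD hy)] at h1
      exact (show 0 < y 0 from hy0).ne' h1
    have hB : ∀ j, ContDiffOn ℝ ∞ (fun y =>
        A.form ((xc n p).symm y) (coordVec (𝓡∂ n) p ((xc n p).symm y) j)) (HB c r) := by
      intro j
      rw [← contMDiffOn_iff_contDiffOn]
      exact (A.smooth p j).comp ((contMDiffOn_extChartAt_symm p).mono hrD)
        fun y hy => (xc n p).map_target (hrD hy)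
    have hs : ContDiffOn ℝ ∞ (lu (𝓡∂ n) p S) (HB c r ∩ {x | 0 < x 0}) := by
      rw [← contMDiffOn_iff_contDiffOn]
      exact hS.comp ((contMDiffOn_extChartAt_symm p).mono fun y hy => hrD hy.1) hint
    obtain ⟨s, hs1, hs2, hs3⟩ := m5_gen c r
      (fun j y => A.form ((xc n p).symm y) (coordVec (𝓡∂ n) p ((xc n p).symm y) j))
      (lu (𝓡∂ n) p S) hB hs (fun y hy => hU _ (hint y hy)) (by
        intro y hy j
        have hyt : y ∈ tg n p := hrD hy.1
        have hm : (xc n p).symm y ∈ (xc n p).source := (xc n p).map_target hyt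
        have hmI := hint y hy
        have hfm : MDifferentiableAt (𝓡∂ n) 𝓘(ℝ, EndF N) S ((xc n p).symm y) :=
          (hS.contMDiffAt (hIo.mem_nhds hmI)).mdifferentiableAt (by simp)
        have h3 := dmap_cc (𝓡∂ n) hm hfm (ev j)
        rw [(xc n p).right_inv hyt, cChart_range] at h3
        show fderivWithin ℝ (lu (𝓡∂ n) p S) (Hs n) y (ev j) = _
        rw [← h3]
        exact eq_neg_of_add_eq_zero_left (he _ hmI _))
    refine ⟨r, s, hr, hrD, hs1, fun x hx hxr hxI => ?_, hs3⟩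
    have hx0 : 0 < xc n p x 0 := by
      have h1 : 0 ≤ xc n p x 0 := hxr.2
      refine lt_of_le_of_ne h1 fun h2 => ?_
      have h3 : x ∈ (𝓡∂ n).boundary M := (m5_boundary_iff p x hx).2 h2.symm
      rw [← ModelWithCorners.compl_interior] at h3
      exact h3 hxI
    rw [hs2 _ ⟨hxr, hx0⟩]
    unfold lu
    rw [(xc n p).left_inv hx]
  -- the extension
  set S' : M → EndF N := extendFrom (Mi n M) S with hS'
  have hext : ∀ x ∈ Mi n M, S' x = S x := extendFrom_extends hS.continuousOn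
  have hnear : ∀ (p : M) (r : ℝ) (s : E n → EndF N), 0 < r → HB (xc n p p) r ⊆ tg n p →
      ContDiffOn ℝ ∞ s (HB (xc n p p) r) →
      (∀ x ∈ (xc n p).source, xc n p x ∈ HB (xc n p p) r → x ∈ Mi n M → S x = s (xc n p x)) →
      ∀ x ∈ (xc n p).source, xc n p x ∈ HB (xc n p p) r → S' x = s (xc n p x) := by
    intro p r s hr hrD hs1 hs2 x hx hxr
    refine extendFrom_eq (hIcl x) ?_
    have hO : IsOpen ((xc n p).source ∩ xc n p ⁻¹' Metric.ball (xc n p p) r) :=
      (continuousOn_extChartAt p).isOpen_inter_preimage (isOpen_extChartAt_source p)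
        Metric.isOpen_ball
    have hOx : (xc n p).source ∩ xc n p ⁻¹' Metric.ball (xc n p p) r ∈ 𝓝 x :=
      hO.mem_nhds ⟨hx, hxr.1⟩
    have h1 : Tendsto (fun y => s (xc n p y)) (𝓝 x) (𝓝 (s (xc n p x))) := by
      have h2 : Tendsto s (𝓝[HB (xc n p p) r] (xc n p x)) (𝓝 (s (xc n p x))) :=
        hs1.continuousOn _ hxr
      refine h2.comp (tendsto_nhdsWithin_iff.2 ⟨continuousAt_extChartAt' hx, ?_⟩)
      filter_upwards [hOx] with y hy
      exact ⟨hy.2, (hrel p).subset ((xc n p).map_source hy.1)⟩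
    refine (h1.mono_left nhdsWithin_le_nhds).congr' ?_
    filter_upwards [mem_nhdsWithin_of_mem_nhds hOx, self_mem_nhdsWithin] with y hy hyI
    exact (hs2 y hy.1 ⟨hy.2, (hrel p).subset ((xc n p).map_source hy.1)⟩ hyI).symm
  have hsm : ∀ p : M, ContMDiffAt (𝓡∂ n) 𝓘(ℝ, EndF N) ∞ S' p := by
    intro p
    obtain ⟨r, s, hr, hrD, hs1, hs2, -⟩ := key p
    have h1 := hnear p r s hr hrD hs1 hs2
    have hO : IsOpen ((xc n p).source ∩ xc n p ⁻¹' Metric.ball (xc n p p) r) :=
      (continuousOn_extChartAt p).isOpen_inter_preimage (isOpen_extChartAt_source p)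
        Metric.isOpen_ball
    have hOp : (xc n p).source ∩ xc n p ⁻¹' Metric.ball (xc n p p) r ∈ 𝓝 p :=
      hO.mem_nhds ⟨mem_extChartAt_source p, Metric.mem_ball_self hr⟩
    have hmaps : MapsTo (xc n p) ((xc n p).source ∩ xc n p ⁻¹' Metric.ball (xc n p p) r)
        (HB (xc n p p) r) := fun y hy => ⟨hy.2, (hrel p).subset ((xc n p).map_source hy.1)⟩
    have h2 : ContMDiffOn (𝓡∂ n) 𝓘(ℝ, EndF N) ∞ (fun x => s (xc n p x))
        ((xc n p).source ∩ xc n p ⁻¹' Metric.ball (xc n p p) r) := by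
      have h3 : ContMDiffOn 𝓘(ℝ, E n) 𝓘(ℝ, EndF N) ∞ s (HB (xc n p p) r) :=
        contMDiffOn_iff_contDiffOn.2 hs1
      have h4 : ContMDiffOn (𝓡∂ n) 𝓘(ℝ, E n) ∞ (xc n p) (xc n p).source := by
        have := contMDiffOn_extChartAt (I := 𝓡∂ n) (n := ∞) (x := p)
        rwa [← extChartAt_source (𝓡∂ n)] at this
      exact h3.comp (h4.mono inter_subset_left) hmaps
    refine (h2.contMDiffAt hOp).congr_of_eventuallyEq ?_
    filter_upwards [hOp] with y hy
    exact h1 y hy.1 (hmaps hy)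
  have hcont : Continuous S' := continuous_iff_continuousAt.2 fun p => (hsm p).continuousAt
  refine ⟨S', fun p => hsm p, hext, fun x X => ?_⟩
  · obtain ⟨r, s, hr, hrD, hs1, hs2, hs3⟩ := key x
    have h1 := hnear x r s hr hrD hs1 hs2
    have hxs : x ∈ (xc n x).source := mem_extChartAt_source x
    have hcr : xc n x x ∈ HB (xc n x x) r :=
      ⟨Metric.mem_ball_self hr, (hrel x).subset ((xc n x).map_source hxs)⟩
    have hlus : EqOn (lu (𝓡∂ n) x S') s (HB (xc n x x) r) := by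
      intro y hy
      have h2 := h1 ((xc n x).symm y) ((xc n x).map_target (hrD hy))
        (by rw [(xc n x).right_inv (hrD hy)]; exact hy)
      rw [(xc n x).right_inv (hrD hy)] at h2
      exact h2
    have hfm : MDifferentiableAt (𝓡∂ n) 𝓘(ℝ, EndF N) S' x := (hsm x).mdifferentiableAt (by simp)
    have h3' := dmap_cc (𝓡∂ n) hxs hfm X
    rw [cChart_range] at h3'
    have h3 : dmap (𝓡∂ n) S' x X = fderivWithin ℝ (lu (𝓡∂ n) x S') (Hs n) (xc n x x) X :=
      (congrArg (dmap (𝓡∂ n) S' x) (cc_self (𝓡∂ n) x X)).symm.trans h3'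
    have h5 : ∀ i, pd i s (xc n x x) = -(A.form x (ev i) * S' x) := by
      intro i
      have h6 := hs3 (xc n x x) hcr i
      rw [(xc n x).left_inv hxs] at h6
      have h7 : coordVec (𝓡∂ n) x x i = (ev i : E n) := cc_self (𝓡∂ n) x (ev i)
      rw [h6, ← h1 x hxs hcr, h7]
    have h8 : ∀ Y : E n, fderivWithin ℝ (lu (𝓡∂ n) x S') (Hs n) (xc n x x) Y =
        -(A.form x Y * S' x) := by
      intro Y
      rw [fderivWithin_eq_sum]
      have h6 : A.form x Y = ∑ i, Y i • A.form x (ev i) := by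
        have h9 := congrArg (A.form x) (en_expand Y)
        refine h9.trans ((map_sum (A.form x) _ _).trans ?_)
        exact Finset.sum_congr rfl fun i _ => (A.form x).map_smul (Y i) (ev i)
      rw [h6, Finset.sum_mul, ← Finset.sum_neg_distrib]
      refine Finset.sum_congr rfl fun i _ => ?_
      rw [(relOpen_HB (xc n x x) r).pd_congr hlus hcr i, h5 i, smul_neg, smul_mul_assoc]
    have h9 : dmap (𝓡∂ n) S' x X = -(A.form x X * S' x) := h3.trans (h8 X)
    show dmap (𝓡∂ n) S' x X + A.form x X * S' x = 0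
    rw [h9]
    exact neg_add_cancel _


/-- Evaluation at the `a`-th unit vector. -/
def evL1 {N : ℕ} (a : Fin N) : EndF N →L[ℝ] Fib N :=
  LinearMap.mkContinuous
    { toFun := fun T => T (EuclideanSpace.single a (1 : ℂ))
      map_add' := fun x y => rfl
      map_smul' := fun c x => rfl } 1 (fun T => by
        have h := T.le_opNorm (EuclideanSpace.single a (1 : ℂ))
        rw [EuclideanSpace.norm_single, norm_one, mul_one] at h
        rw [one_mul]
        exact h)

/-- A bounded parallel section in the interior extends to a parallel section on `M`. -/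
theorem m5v (n N : ℕ) [NeZero n] (M : Type u) [TopologicalSpace M]
    [ChartedSpace (EuclideanHalfSpace n) M] [IsManifold (𝓡∂ n) ∞ M] [T2Space M] [CompactSpace M]
    [ConnectedSpace M] (A : Connection (𝓡∂ n) N M) (s : M → Fib N)
    (hs : ContMDiffOn (𝓡∂ n) 𝓘(ℝ, Fib N) ∞ s (Mi n M)) (hb : ∀ x ∈ Mi n M, ‖s x‖ ≤ 1)
    (he : ∀ x ∈ Mi n M, ∀ X : TangentSpace (𝓡∂ n) x, cov A s x X = 0) :
    ∃ s' : M → Fib N, SmS n s' ∧ (∀ x ∈ Mi n M, s' x = s x) ∧
      ∀ (x : M) (X : TangentSpace (𝓡∂ n) x), cov A s' x X = 0 := by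
  obtain ⟨hIo, -, hIcl⟩ := TM.fConn n M
  rcases Nat.eq_zero_or_pos N with rfl | hN
  · exact ⟨fun _ => 0, contMDiff_const, fun x _ => Subsingleton.elim _ _,
      fun x X => Subsingleton.elim _ _⟩
  set a : Fin N := ⟨0, hN⟩ with ha
  have hS1 : ContMDiffOn (𝓡∂ n) 𝓘(ℝ, EndF N) ∞ (fun x => colL a (s x)) (Mi n M) :=
    (colL a).contMDiff.comp_contMDiffOn hs
  have hsd : ∀ x ∈ Mi n M, MDifferentiableAt (𝓡∂ n) 𝓘(ℝ, Fib N) s x := fun x hx =>
    (hs.contMDiffAt (hIo.mem_nhds hx)).mdifferentiableAt (by simp)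
  obtain ⟨S', h1, h2, h3⟩ := m5gp n N M A (fun x => colL a (s x)) hS1 (fun x hx => by
      refine ContinuousLinearMap.opNorm_le_bound _ zero_le_one fun v => ?_
      rw [colL_apply, norm_smul, one_mul]
      calc ‖v a‖ * ‖s x‖ ≤ ‖v‖ * 1 :=
            mul_le_mul (PiLp.norm_apply_le v a) (hb x hx) (norm_nonneg _) (norm_nonneg _)
        _ = ‖v‖ := mul_one _) (fun x hx X => by
      rw [dmap_clm (colL a) (hsd x hx) X]
      have h4 : A.form x X ∘L colL a (s x) = colL a (A.form x X (s x)) :=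
        (colL_comp a (A.form x X) (s x)).symm
      rw [h4, ← map_add]
      have h5 : dmap (𝓡∂ n) s x X + A.form x X (s x) = 0 := he x hx X
      rw [h5, map_zero])
  have hev : ∀ T : EndF N, (evL1 a) T = T (EuclideanSpace.single a (1 : ℂ)) := fun T => rfl
  refine ⟨fun x => evL1 a (S' x), (evL1 a).contMDiff.comp h1, fun x hx => ?_, fun x X => ?_⟩
  · show S' x (EuclideanSpace.single a (1 : ℂ)) = s x
    rw [h2 x hx, colL_apply]
    simp
  · have hd : MDifferentiableAt (𝓡∂ n) 𝓘(ℝ, EndF N) S' x := h1.mdifferentiable (by simp) x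
    unfold cov
    rw [dmap_clm (evL1 a) hd X]
    exact DFunLike.congr_fun (h3 x X) (EuclideanSpace.single a (1 : ℂ))

end Vale.Agent.P088.EYM.O

end
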