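import Vale.Agent.P088.H5.Fin3_820
import Vale.Agent.P088.H5.J332

/-!
# P088: arbitrary smooth pairs, two manifolds, the conclusion of Question 1
-/

open Bundle Manifold MeasureTheory Set Filter
open scoped ContDiff Matrix Topology ENNReal

noncomputable section

set_option linter.all false

namespace Vale.Agent.P088.B9

open Vale.Agent.P088 Vale.Agent.P088.B Vale.Agent.P088.B8

universe u

/-- The pairs `P'` and `Q` on the same manifold: gauge equivalent, with the same metric. -/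
theorem same_gauge {n N : ℕ} [NeZero n] {M : Type u} [TopologicalSpace M]
    [ChartedSpace (EuclideanHalfSpace n) M] [IsManifold (𝓡∂ n) ∞ M] [T2Space M] [CompactSpace M]
    [ConnectedSpace M] (hn : 3 ≤ n) (hN : 1 ≤ N) (Γ O₀ : Set M)
    (hO₀ : IsOpen O₀) (hΓ : Γ = O₀ ∩ bd (at_ n M)) (hne : Γ.Nonempty)
    (P' Q : Pair (at_ n M) N) (hd : B.SameData Γ P' Q)
    (h : (PwLe univ Γ P' Q ∧ ∃ U K V, Hole U K V Γ P' Q ∧ PureOn V P'.A (at_ n M)) ∨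
      ((Le univ P' Q ∨ Γ = bd (at_ n M) ∧ PwLe univ Γ P' Q) ∧
        ∃ U, GaugeBy U univ Γ 0 P'.A (at_ n M))) :
    GaugeEq Γ P'.A Q.A (at_ n M) ∧ Q.g = P'.g := by
  have main : PwLe univ Γ P' Q → (∃ V, GaugeBy V univ Γ P'.A Q.A (at_ n M)) →
      GaugeEq Γ P'.A Q.A (at_ n M) ∧ Q.g = P'.g := by
    rintro hp ⟨V, hV⟩
    have h4 := (loc hn hN (at_ n M) rfl Γ O₀ hO₀ hΓ P' Q hd univ isOpen_univ hp V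
      (by rw [univ_inter]; exact hV)).1
    exact ⟨⟨V, hV.1, hV.2.1, hV.2.2.1, fun x j => hV.2.2.2 x (mem_univ x) j⟩,
      funext fun x => h4 x (by rw [closure_univ]; exact mem_univ x)⟩
  rcases h with ⟨h1, U, K, V, h2, h3⟩ | ⟨h | ⟨h1, h2⟩, U, hU⟩
  · obtain ⟨U', hU', -⟩ := (hole' hn hN (at_ n M) rfl Γ O₀ hO₀ hΓ hne P' Q hd U K V h2).2.2 h3
    exact main h1 ⟨U', hU'⟩
  · have e1 : GaugeEq Γ 0 P'.A (at_ n M) :=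
      ⟨U, hU.1, hU.2.1, hU.2.2.1, fun x j => hU.2.2.2 x (mem_univ x) j⟩
    have h4 := (theoremM hn hN (at_ n M) rfl Γ O₀ hO₀ hΓ hne P' Q hd).2.1
      (fun x => h x (mem_univ x)) e1
    exact ⟨B5.gauge_triv e1 h4.1, h4.2⟩
  · obtain ⟨U', hU'⟩ := ((B5.smooth_par hn hN (at_ n M) rfl Γ O₀ hO₀ hΓ hne P' Q hd).1
      (Or.inl h1)).2 ⟨U, hU⟩
    have e1 : GaugeEq Γ 0 P'.A (at_ n M) :=
      ⟨U, hU.1, hU.2.1, hU.2.2.1, fun x j => hU.2.2.2 x (mem_univ x) j⟩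
    have e2 : GaugeEq Γ 0 Q.A (at_ n M) :=
      ⟨U', hU'.1, hU'.2.1, hU'.2.2.1, fun x j => hU'.2.2.2 x (mem_univ x) j⟩
    obtain ⟨V, k1, k2, k3, k4⟩ := B5.gauge_triv e1 e2
    exact main h2 ⟨V, k1, k2, k3, fun x _ j => k4 x j⟩

/-- Question 1 for two manifolds. -/
theorem q1_two {n N : ℕ} [NeZero n] (hn : 3 ≤ n) (hN : 1 ≤ N) {M₁ M₂ : Type u}
    [TopologicalSpace M₁] [ChartedSpace (EuclideanHalfSpace n) M₁] [IsManifold (𝓡∂ n) ∞ M₁]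
    [T2Space M₁] [CompactSpace M₁] [ConnectedSpace M₁]
    [TopologicalSpace M₂] [ChartedSpace (EuclideanHalfSpace n) M₂] [IsManifold (𝓡∂ n) ∞ M₂]
    [T2Space M₂] [CompactSpace M₂] [ConnectedSpace M₂]
    (Z₁ : At n M₁) (hZ₁ : Z₁ = at_ n M₁) (Z₂ : At n M₂) (hZ₂ : Z₂ = at_ n M₂)
    (Γ₁ O₁ : Set M₁) (hO₁ : IsOpen O₁) (hΓ₁ : Γ₁ = O₁ ∩ bd Z₁) (hne : Γ₁.Nonempty)
    (Γ₂ O₂ : Set M₂) (hO₂ : IsOpen O₂) (hΓ₂ : Γ₂ = O₂ ∩ bd Z₂) (ψ : M₂ → M₁)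
    (hψ : B2.Iden N Z₁ Z₂ Γ₁ Γ₂ ψ) (P : Pair Z₁ N) (Q : Pair Z₂ N)
    (hd : B2.SameData₂ Γ₁ Γ₂ ψ P Q) (P' : Pair Z₂ N) (hR : B2.Related₂ Γ₁ Γ₂ ψ P P')
    (h : (PwLe univ Γ₂ P' Q ∧ ∃ U K V, Hole U K V Γ₂ P' Q ∧ PureOn V P'.A Z₂) ∨
      ((Le univ P' Q ∨ Γ₂ = bd Z₂ ∧ PwLe univ Γ₂ P' Q) ∧ ∃ U, GaugeBy U univ Γ₂ 0 P'.A Z₂)) :
    B2.Related₂ Γ₁ Γ₂ ψ P Q := by
  subst hZ₁ hZ₂
  obtain ⟨Φ, Ψ, U, b1, b2, b3, b4, b5, b6, b7, b8, -⟩ := hR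
  have hR' : B2.Rel₂ Γ₂ ψ P P' Φ Ψ U := ⟨b1, b2, b3, b4, b5, b6, b7, b8⟩
  have hne₂ : Γ₂.Nonempty := by
    obtain ⟨x, hx⟩ := hne
    obtain ⟨y, hy, -⟩ := hψ.1.surjOn hx
    exact ⟨y, hy⟩
  have hS := B6.same_rel2 hO₁ hΓ₁ hne hO₂ hΓ₂ hψ hR' hd
  have key := same_gauge hn hN Γ₂ O₂ hO₂ hΓ₂ hne₂ P' Q hS h
  obtain ⟨U', hU'⟩ := B6.rel_gauge hR' key.1 key.2
  have hs := B6.rel_sol hO₁ hΓ₁ hne hO₂ hΓ₂ hψ hU'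
  obtain ⟨c1, c2, c3, c4, c5, c6, c7, c8⟩ := hU'
  exact ⟨Φ, Ψ, U', c1, c2, c3, c4, c5, c6, c7, c8, hs⟩

end Vale.Agent.P088.B9

end
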