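import Vale.Agent.P088.H5.SC_332
import Vale.Agent.P088.H5.MF2_820
import Vale.Agent.P088.H5.J332

/-!
# P088: reduction to the scalar problem by a parallel section, two manifolds
-/

open Bundle Manifold MeasureTheory Set Filter
open scoped ContDiff Matrix Topology ENNReal

noncomputable section

set_option linter.all false

namespace Vale.Agent.P088.EYM.O

open Vale.Agent.P088 Vale.Agent.P088.EYM

universe u

section

variable {n N : ℕ} [NeZero n] {M : Type u} [TopologicalSpace M]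
  [ChartedSpace (EuclideanHalfSpace n) M] [IsManifold (𝓡∂ n) ∞ M] [T2Space M] [CompactSpace M]
  [MeasurableSpace M] [BorelSpace M]

theorem sc_dec {Γ : Set M} {f : M → Fib 1} (hf : IsBdryData (𝓡∂ n) Γ f) :
    SmR n (reI (fun _ => sc0) f) ∧ SmR n (imI (fun _ => sc0) f) ∧
      Spt n Γ (reI (fun _ => sc0) f) ∧ Spt n Γ (imI (fun _ => sc0) f) ∧
      ∀ (x : M) (a b : M → ℝ), a x = reI (fun _ => sc0) f x → b x = imI (fun _ => sc0) f x →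
        cx (fun _ => sc0) a b x = f x := by
  have hcs : SmS n (fun _ : M => sc0) := contMDiff_const
  have hs : ∀ {t : M → ℝ}, (∀ x, f x = 0 → t x = 0) → Spt n Γ t := by
    intro t ht
    refine (closure_mono ?_).trans hf.supp
    rintro x ⟨hx, hx'⟩
    exact ⟨hx, fun h0 => hx' (ht x h0)⟩
  refine ⟨smR_reI hcs hf.smooth, smR_imI hcs hf.smooth, hs fun x h0 => ?_, hs fun x h0 => ?_,
    fun x a b ha hb => ?_⟩
  · rw [reI, h0, inner_zero_right]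
    rfl
  · rw [imI, h0, inner_zero_right]
    rfl
  · ext i
    have hi : i = 0 := Subsingleton.elim _ _
    subst hi
    show (1 : ℂ) * ((a x : ℂ) * sc0 0) + Complex.I * ((b x : ℂ) * sc0 0) = f x 0
    have h3 : sc0 0 = 1 := by simp [sc0]
    rw [h3, ha, hb, reI, imI, sc0_inner]
    have h4 := Complex.re_add_im (f x 0)
    linear_combination h4

/-- The energy depends only on the metric and the connection. -/
theorem E_scal (P₀ : One n 1 M) (P : One n N M) (hg : ∀ x, gram P₀.g x x = gram P.g x x)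
    (hA : ∀ x (X : TangentSpace (𝓡∂ n) x), P₀.A.form x X = 0) (u v : M → Fib 1) :
    P₀.E u v = (scP P).E u v := by
  have hμ : P₀.μ = (scP P).μ := by
    rw [withDensity_rho (scP P) P₀]
    have h1 : (fun x => ENNReal.ofReal (rho (scP P).g P₀.g x)) = fun _ => (1 : ℝ≥0∞) := by
      funext x
      have h2 : gram (scP P).g x x = gram P₀.g x x := (hg x).symm
      rw [rho_one h2, ENNReal.ofReal_one]
    rw [h1]
    exact withDensity_one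
  unfold One.E energy
  rw [hμ]
  refine integral_congr_ae (Eventually.of_forall fun x => ?_)
  exact pairing_congr (A' := (scP P).A) (g' := (scP P).g) (hg x)
    (fun X => (hA x X).trans rfl) u v

theorem harm_scal (P₀ : One n 1 M) (P : One n N M) (hg : ∀ x, gram P₀.g x x = gram P.g x x)
    (hA : ∀ x (X : TangentSpace (𝓡∂ n) x), P₀.A.form x X = 0) (f u : M → Fib 1) :
    P₀.Harm f u ↔ (scP P).Harm f u := by
  constructor
  · intro h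
    exact ⟨h.smooth, h.boundary, fun φ hφ h0 => (E_scal P₀ P hg hA u φ).symm.trans (h.weak φ hφ h0)⟩
  · intro h
    exact ⟨h.smooth, h.boundary, fun φ hφ h0 => (E_scal P₀ P hg hA u φ).trans (h.weak φ hφ h0)⟩

end

section

variable {n N : ℕ} [NeZero n] {M₁ M₂ : Type u}
  [TopologicalSpace M₁] [ChartedSpace (EuclideanHalfSpace n) M₁] [IsManifold (𝓡∂ n) ∞ M₁]
  [T2Space M₁] [CompactSpace M₁] [ConnectedSpace M₁] [MeasurableSpace M₁] [BorelSpace M₁]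
  [TopologicalSpace M₂] [ChartedSpace (EuclideanHalfSpace n) M₂] [IsManifold (𝓡∂ n) ∞ M₂]
  [T2Space M₂] [CompactSpace M₂] [ConnectedSpace M₂] [MeasurableSpace M₂] [BorelSpace M₂]

/-- The scalar energies agree, two manifolds. -/
theorem gq_same2 {P : One n N M₁} {Q : One n N M₂} {G : TM.Gl M₁ M₂}
    (hb₁ : ((𝓡∂ n).boundary M₁).Nonempty) (hb₂ : ((𝓡∂ n).boundary M₂).Nonempty)
    (hS : TM.SameD P Q G) {e : M₁ → Fib N} {e' : M₂ → Fib N} (he : Par P.A e) (he' : Par Q.A e')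
    (h1 : ∀ x, ‖e x‖ = 1) (h1' : ∀ x, ‖e' x‖ = 1) (heq : ∀ x ∈ G.Γ₂, e' x = e (G.ψ x))
    {φ ψ : M₁ → ℝ} {φ' ψ' : M₂ → ℝ} (hφ : SmR n φ) (hψ : SmR n ψ) (hφ' : SmR n φ')
    (hψ' : SmR n ψ') (sφ : Spt n G.Γ₁ φ) (sψ : Spt n G.Γ₁ ψ) (sφ' : Spt n G.Γ₂ φ')
    (sψ' : Spt n G.Γ₂ ψ') (mφ : ∀ x ∈ G.Γ₂, φ' x = φ (G.ψ x)) (mψ : ∀ x ∈ G.Γ₂, ψ' x = ψ (G.ψ x))
    {w v : M₁ → ℝ} {w' v' : M₂ → ℝ} (hw : Wk P w) (hv : Wk P v) (hw' : Wk Q w') (hv' : Wk Q v')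
    (bw : ∀ x ∈ (𝓡∂ n).boundary M₁, w x = φ x) (bv : ∀ x ∈ (𝓡∂ n).boundary M₁, v x = ψ x)
    (bw' : ∀ x ∈ (𝓡∂ n).boundary M₂, w' x = φ' x)
    (bv' : ∀ x ∈ (𝓡∂ n).boundary M₂, v' x = ψ' x) :
    gq P w v = gq Q w' v' := by
  obtain ⟨u₁, v₁, u₂, v₂, a1, a2, a3, a4, a5⟩ := hS _ _ _ _
    ⟨dat_par he.sm hφ sφ, dat_par he'.sm hφ' sφ', fun x hx => by rw [mφ x hx, heq x hx]⟩
    ⟨dat_par he.sm hψ sψ, dat_par he'.sm hψ' sψ', fun x hx => by rw [mψ x hx, heq x hx]⟩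
  have hU1 := (TM.fUniq n N M₁ P hb₁).1
  have hU2 := (TM.fUniq n N M₂ Q hb₂).1
  rw [hU1 _ _ _ _ a1 (harm_par P he hw) fun x hx => by rw [bw x hx],
    hU1 _ _ _ _ a2 (harm_par P he hv) fun x hx => by rw [bv x hx],
    hU2 _ _ _ _ a3 (harm_par Q he' hw') fun x hx => by rw [bw' x hx],
    hU2 _ _ _ _ a4 (harm_par Q he' hv') fun x hx => by rw [bv' x hx],
    E_real P he h1 hw.sm hv.sm, E_real Q he' h1' hw'.sm hv'.sm] at a5
  exact a5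

/-- The scalar data agree, two manifolds. -/
theorem sc_same2 {P : One n N M₁} {Q : One n N M₂} {G : TM.Gl M₁ M₂} (hG : G.Ok n N)
    (hS : TM.SameD P Q G) {e : M₁ → Fib N} {e' : M₂ → Fib N} (he : Par P.A e) (he' : Par Q.A e')
    (h1 : ∀ x, ‖e x‖ = 1) (h1' : ∀ x, ‖e' x‖ = 1) (heq : ∀ x ∈ G.Γ₂, e' x = e (G.ψ x)) :
    TM.SameD (scP P) (scP Q) G := by
  have hb₁ : ((𝓡∂ n).boundary M₁).Nonempty := by
    obtain ⟨x, hx⟩ := hG.ne₁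
    obtain ⟨O, -, hO⟩ := hG.rel₁
    rw [hO] at hx
    exact ⟨x, hx.2⟩
  have hb₂ : ((𝓡∂ n).boundary M₂).Nonempty := by
    obtain ⟨x, hx⟩ := hG.ne₂
    obtain ⟨O, -, hO⟩ := hG.rel₂
    rw [hO] at hx
    exact ⟨x, hx.2⟩
  obtain ⟨⟨hPs, hQs, -⟩, -⟩ := TM.cData TM.fUniq TM.fForm n N M₁ M₂ P Q G hG hS
  intro f h f' h' hf hh
  obtain ⟨m1, m2, m3, m4, m5⟩ := sc_dec hf.h₁
  obtain ⟨k1, k2, k3, k4, k5⟩ := sc_dec hh.h₁
  obtain ⟨m1', m2', m3', m4', m5'⟩ := sc_dec hf.h₂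
  obtain ⟨k1', k2', k3', k4', k5'⟩ := sc_dec hh.h₂
  have t1 : ∀ x ∈ G.Γ₂, reI (fun _ => sc0) f' x = reI (fun _ => sc0) f (G.ψ x) := fun x hx => by
    rw [reI, reI, hf.eq x hx]
  have t2 : ∀ x ∈ G.Γ₂, imI (fun _ => sc0) f' x = imI (fun _ => sc0) f (G.ψ x) := fun x hx => by
    rw [imI, imI, hf.eq x hx]
  have t3 : ∀ x ∈ G.Γ₂, reI (fun _ => sc0) h' x = reI (fun _ => sc0) h (G.ψ x) := fun x hx => by
    rw [reI, reI, hh.eq x hx]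
  have t4 : ∀ x ∈ G.Γ₂, imI (fun _ => sc0) h' x = imI (fun _ => sc0) h (G.ψ x) := fun x hx => by
    rw [imI, imI, hh.eq x hx]
  obtain ⟨a, ha, a0⟩ := ex_par P he h1 hPs m1 m3
  obtain ⟨b, hb1, b0⟩ := ex_par P he h1 hPs m2 m4
  obtain ⟨c, hc, c0⟩ := ex_par P he h1 hPs k1 k3
  obtain ⟨d, hd, d0⟩ := ex_par P he h1 hPs k2 k4
  obtain ⟨a', ha', a0'⟩ := ex_par Q he' h1' hQs m1' m3'
  obtain ⟨b', hb1', b0'⟩ := ex_par Q he' h1' hQs m2' m4'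
  obtain ⟨c', hc', c0'⟩ := ex_par Q he' h1' hQs k1' k3'
  obtain ⟨d', hd', d0'⟩ := ex_par Q he' h1' hQs k2' k4'
  refine ⟨_, _, _, _, harm_cx P hb₁ ha hb1 fun x hx => m5 x a b (a0 x hx) (b0 x hx),
    harm_cx P hb₁ hc hd fun x hx => k5 x c d (c0 x hx) (d0 x hx),
    harm_cx Q hb₂ ha' hb1' fun x hx => m5' x a' b' (a0' x hx) (b0' x hx),
    harm_cx Q hb₂ hc' hd' fun x hx => k5' x c' d' (c0' x hx) (d0' x hx), ?_⟩
  have e1 := E_cx (scP P) (par_sc0 P) (fun _ => sc0_norm) ha.sm hb1.sm hc.sm hd.sm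
  have e2 := E_cx (scP Q) (par_sc0 Q) (fun _ => sc0_norm) ha'.sm hb1'.sm hc'.sm hd'.sm
  have g1 : gq (scP P) a c = gq (scP Q) a' c' := gq_same2 hb₁ hb₂ hS he he' h1 h1' heq m1 k1 m1'
    k1' m3 k3 m3' k3' t1 t3 ha hc ha' hc' a0 c0 a0' c0'
  have g2 : gq (scP P) b c = gq (scP Q) b' c' := gq_same2 hb₁ hb₂ hS he he' h1 h1' heq m2 k1 m2'
    k1' m4 k3 m4' k3' t2 t3 hb1 hc hb1' hc' b0 c0 b0' c0'
  have g3 : gq (scP P) a d = gq (scP Q) a' d' := gq_same2 hb₁ hb₂ hS he he' h1 h1' heq m1 k2 m1'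
    k2' m3 k4 m3' k4' t1 t4 ha hd ha' hd' a0 d0 a0' d0'
  have g4 : gq (scP P) b d = gq (scP Q) b' d' := gq_same2 hb₁ hb₂ hS he he' h1 h1' heq m2 k2 m2'
    k2' m4 k4 m4' k4' t2 t4 hb1 hd hb1' hd' b0 d0 b0' d0'
  rw [g1, g2, g3, g4, ← e2] at e1
  exact e1

end

end Vale.Agent.P088.EYM.O

namespace Vale.Agent.P088.B6

open Vale.Agent.P088 Vale.Agent.P088.B Vale.Agent.P088.EYM Vale.Agent.P088.EYM.O

universe u

section

variable {n : ℕ} [NeZero n] {N : ℕ} {M₁ M₂ : Type u}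
  [TopologicalSpace M₁] [ChartedSpace (EuclideanHalfSpace n) M₁] [IsManifold (𝓡∂ n) ∞ M₁]
  [T2Space M₁] [CompactSpace M₁] [ConnectedSpace M₁]
  [TopologicalSpace M₂] [ChartedSpace (EuclideanHalfSpace n) M₂] [IsManifold (𝓡∂ n) ∞ M₂]
  [T2Space M₂] [CompactSpace M₂] [ConnectedSpace M₂]

/-- An identification of the patches for rank `N ≥ 1` is one for rank one. -/
theorem iden_one (hN : 0 < N) {Z₁ : At n M₁} {Z₂ : At n M₂} {Γ₁ : Set M₁} {Γ₂ : Set M₂}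
    {ψ : M₂ → M₁} (hψ : B2.Iden N Z₁ Z₂ Γ₁ Γ₂ ψ) : B2.Iden 1 Z₁ Z₂ Γ₁ Γ₂ ψ := by
  obtain ⟨h1, h2, h3⟩ := hψ
  have up : ∀ {M : Type u} {Z : At n M} {Γ : Set M} {f : M → Fin 1 → ℂ}, Data Z Γ f →
      Data Z Γ (fun x (_ : Fin N) => f x 0) := by
    intro M Z Γ f hf
    refine ⟨fun a => hf.1 0, (@closure_mono M Z.top _ _ ?_).trans hf.2⟩
    rintro x ⟨hx, a, ha⟩
    exact ⟨hx, 0, ha⟩
  have down : ∀ {M : Type u} {Z : At n M} {Γ : Set M} {F : M → Fin N → ℂ}, Data Z Γ F →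
      Data Z Γ (fun x (_ : Fin 1) => F x ⟨0, hN⟩) := by
    intro M Z Γ F hF
    refine ⟨fun a => hF.1 ⟨0, hN⟩, (@closure_mono M Z.top _ _ ?_).trans hF.2⟩
    rintro x ⟨hx, a, ha⟩
    exact ⟨hx, ⟨0, hN⟩, ha⟩
  refine ⟨h1, fun f₁ hf₁ => ?_, fun f₂ hf₂ => ?_⟩
  · obtain ⟨F, -, hF, heq⟩ := h2 _ (up hf₁)
    refine ⟨_, hf₁, down hF, fun x hx => ?_⟩
    funext a
    have ha : a = 0 := Subsingleton.elim _ _
    subst ha
    exact congrFun (heq x hx) ⟨0, hN⟩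
  · obtain ⟨F, hF, -, heq⟩ := h3 _ (up hf₂)
    refine ⟨_, down hF, hf₂, fun x hx => ?_⟩
    funext a
    have ha : a = 0 := Subsingleton.elim _ _
    subst ha
    exact congrFun (heq x hx) ⟨0, hN⟩

/-- Reduction to the scalar problem: parallel sections `e ≠ 0`, `e'` with `e' = e ∘ ψ` on `Γ₂`. -/
theorem red_gen {Γ₁ O₁ : Set M₁} (hO₁ : IsOpen O₁) (hΓ₁ : Γ₁ = O₁ ∩ bd (at_ n M₁))
    (hne : Γ₁.Nonempty) {Γ₂ O₂ : Set M₂} (hO₂ : IsOpen O₂) (hΓ₂ : Γ₂ = O₂ ∩ bd (at_ n M₂))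
    {ψ : M₂ → M₁} (hψ : B2.Iden N (at_ n M₁) (at_ n M₂) Γ₁ Γ₂ ψ) {P : Pair (at_ n M₁) N}
    {Q : Pair (at_ n M₂) N} (hd : B2.SameData₂ Γ₁ Γ₂ ψ P Q) {e : M₁ → Fin N → ℂ}
    {e' : M₂ → Fin N → ℂ} (he : B.Par P e) (he' : B.Par Q e') (h0 : e ≠ 0)
    (heq : ∀ x ∈ Γ₂, e' x = e (ψ x)) (P₀ : Pair (at_ n M₁) 1) (Q₀ : Pair (at_ n M₂) 1)
    (hPg : P₀.g = P.g) (hPA : P₀.A = 0) (hQg : Q₀.g = Q.g) (hQA : Q₀.A = 0) :
    B2.Iden 1 (at_ n M₁) (at_ n M₂) Γ₁ Γ₂ ψ ∧ B2.SameData₂ Γ₁ Γ₂ ψ P₀ Q₀ := by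
  have hN : 0 < N := by
    rcases Nat.eq_zero_or_pos N with rfl | h
    · exact absurd (funext fun x => Subsingleton.elim _ _) h0
    · exact h
  refine ⟨iden_one hN hψ, ?_⟩
  obtain ⟨χ, hOk⟩ := B2.glOk hO₁ hΓ₁ hne hO₂ hΓ₂ hψ
  letI := borel M₁
  letI := borel M₂
  haveI : BorelSpace M₁ := ⟨rfl⟩
  haveI : BorelSpace M₂ := ⟨rfl⟩
  have hbd₁ : ((𝓡∂ n).boundary M₁).Nonempty := by
    obtain ⟨x, hx⟩ := hne
    rw [hΓ₁, bd_at] at hx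
    exact ⟨x, hx.2⟩
  -- the data of `P` and `Q` in abstract form
  have hS : TM.SameD (B2.one P) (B2.one Q) ⟨Γ₁, Γ₂, ψ, χ⟩ := by
    intro f h f' h' hf hh
    obtain ⟨u, v, u', v', a1, a2, a3, a4, a5⟩ := hd _ _ _ _
      ⟨B2.bdData' hf.h₁, B2.bdData' hf.h₂, fun x hx => by
        funext a
        exact congrFun (congrArg WithLp.ofLp (hf.eq x hx)) a⟩
      ⟨B2.bdData' hh.h₁, B2.bdData' hh.h₂, fun x hx => by
        funext a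
        exact congrFun (congrArg WithLp.ofLp (hh.eq x hx)) a⟩
    refine ⟨S.toF u, S.toF v, S.toF u', S.toF v', B2.harm_one a1, B2.harm_one a2,
      B2.harm_one a3, B2.harm_one a4, ?_⟩
    rw [B2.energy_one a1 a2, B2.energy_one a3 a4] at a5
    exact a5
  have hE := (B2.par_toF P e).1 he
  have hE' := (B2.par_toF Q e').1 he'
  have hnorm := s0 n N M₁ _ _ hE
  have hnorm' := s0 n N M₂ _ _ hE'
  obtain ⟨q, hq⟩ := hOk.ne₂
  have hq' : q ∈ Γ₂ := hq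
  have hpe : S.toF e' q = S.toF e (ψ q) := by
    show WithLp.toLp 2 (e' q) = WithLp.toLp 2 (e (ψ q))
    rw [heq q hq']
  have hpos : 0 < ‖S.toF e (ψ q)‖ := by
    rw [norm_pos_iff]
    intro h
    apply h0
    funext x
    have h2 := hnorm x (ψ q)
    rw [h, norm_zero] at h2
    have h3 : S.toF e x = 0 := norm_eq_zero.1 h2
    exact (WithLp.toLp_injective 2) (h3.trans (WithLp.toLp_zero 2).symm)
  set c : ℝ := ‖S.toF e (ψ q)‖⁻¹ with hc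
  have hc1 : ∀ x, ‖c • S.toF e x‖ = 1 := fun x => by
    rw [norm_smul, hnorm x (ψ q), hc, norm_inv, norm_norm, inv_mul_cancel₀ hpos.ne']
  have hc1' : ∀ x, ‖c • S.toF e' x‖ = 1 := fun x => by
    rw [norm_smul, hnorm' x q, hpe, hc, norm_inv, norm_norm, inv_mul_cancel₀ hpos.ne']
  have hsc := sc_same2 hOk hS (hE.smul c).toPar (hE'.smul c).toPar hc1 hc1' (fun x hx => by
    show c • WithLp.toLp 2 (e' x) = c • WithLp.toLp 2 (e (ψ x))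
    rw [heq x hx])
  have hgP : ∀ x, gram (B2.one P₀).g x x = gram (B2.one P).g x x := fun x => by
    show gram (S.gOf (conv P₀)) x x = gram (S.gOf (conv P)) x x
    rw [S.gram_self_gOf, S.gram_self_gOf]
    exact congrFun hPg x
  have hgQ : ∀ x, gram (B2.one Q₀).g x x = gram (B2.one Q).g x x := fun x => by
    show gram (S.gOf (conv Q₀)) x x = gram (S.gOf (conv Q)) x x
    rw [S.gram_self_gOf, S.gram_self_gOf]
    exact congrFun hQg x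
  have hAP : ∀ x (X : TangentSpace (𝓡∂ n) x), (B2.one P₀).A.form x X = 0 := fun x X => by
    show S.formOf (P₀.A x) X = 0
    rw [hPA, show (0 : M₁ → Fin n → Matrix (Fin 1) (Fin 1) ℂ) x = 0 from rfl, formOf_zero]
    rfl
  have hAQ : ∀ x (X : TangentSpace (𝓡∂ n) x), (B2.one Q₀).A.form x X = 0 := fun x X => by
    show S.formOf (Q₀.A x) X = 0
    rw [hQA, show (0 : M₂ → Fin n → Matrix (Fin 1) (Fin 1) ℂ) x = 0 from rfl, formOf_zero]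
    rfl
  intro f₁ f₂ h₁ h₂ hf hh
  have hmd : ∀ {f₁ : M₁ → Fin 1 → ℂ} {f₂ : M₂ → Fin 1 → ℂ},
      B2.Corr (at_ n M₁) (at_ n M₂) Γ₁ Γ₂ ψ f₁ f₂ →
      TM.MD n (⟨Γ₁, Γ₂, ψ, χ⟩ : TM.Gl M₁ M₂) (S.toF f₁) (S.toF f₂) := by
    intro f₁ f₂ hc
    obtain ⟨c1, c2, c3⟩ := hc
    refine ⟨B2.bdData c1, B2.bdData c2, fun x hx => ?_⟩
    show WithLp.toLp 2 (f₂ x) = WithLp.toLp 2 (f₁ (ψ x))
    rw [c3 x hx]
  obtain ⟨u, v, u', v', a1, a2, a3, a4, a5⟩ := hsc _ _ _ _ (hmd hf) (hmd hh)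
  have b1 := B2.unharm_one ((harm_scal (B2.one P₀) (B2.one P) hgP hAP _ _).2 a1)
  have b2 := B2.unharm_one ((harm_scal (B2.one P₀) (B2.one P) hgP hAP _ _).2 a2)
  have b3 := B2.unharm_one ((harm_scal (B2.one Q₀) (B2.one Q) hgQ hAQ _ _).2 a3)
  have b4 := B2.unharm_one ((harm_scal (B2.one Q₀) (B2.one Q) hgQ hAQ _ _).2 a4)
  refine ⟨_, _, _, _, b1, b2, b3, b4, ?_⟩
  rw [B2.energy_one b1 b2, B2.energy_one b3 b4]
  refine (E_scal (B2.one P₀) (B2.one P) hgP hAP _ _).trans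
    (a5.trans (E_scal (B2.one Q₀) (B2.one Q) hgQ hAQ _ _).symm)

end

/-- Full data: if `A₁` has a parallel section `e ≠ 0` then the scalar data of the metrics agree. -/
theorem red_two {n N : ℕ} [NeZero n] {M₁ M₂ : Type u}
    [TopologicalSpace M₁] [ChartedSpace (EuclideanHalfSpace n) M₁] [IsManifold (𝓡∂ n) ∞ M₁]
    [T2Space M₁] [CompactSpace M₁] [ConnectedSpace M₁]
    [TopologicalSpace M₂] [ChartedSpace (EuclideanHalfSpace n) M₂] [IsManifold (𝓡∂ n) ∞ M₂]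
    [T2Space M₂] [CompactSpace M₂] [ConnectedSpace M₂]
    (Z₁ : At n M₁) (hZ₁ : Z₁ = at_ n M₁) (Z₂ : At n M₂) (hZ₂ : Z₂ = at_ n M₂)
    (hne : (bd Z₁).Nonempty) {ψ : M₂ → M₁} (hψ : B2.Iden N Z₁ Z₂ (bd Z₁) (bd Z₂) ψ)
    {P : Pair Z₁ N} {Q : Pair Z₂ N} (hd : B2.SameData₂ (bd Z₁) (bd Z₂) ψ P Q)
    (e : M₁ → Fin N → ℂ) (he : B.Par P e) (h0 : e ≠ 0) (P₀ : Pair Z₁ 1) (Q₀ : Pair Z₂ 1)
    (hPg : P₀.g = P.g) (hPA : P₀.A = 0) (hQg : Q₀.g = Q.g) (hQA : Q₀.A = 0) :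
    B2.Iden 1 Z₁ Z₂ (bd Z₁) (bd Z₂) ψ ∧ B2.SameData₂ (bd Z₁) (bd Z₂) ψ P₀ Q₀ := by
  obtain ⟨e', he', heq⟩ := B2.par_two Z₁ hZ₁ Z₂ hZ₂ _ hne _ ψ hψ P Q hd rfl rfl e he
  subst hZ₁ hZ₂
  exact red_gen isOpen_univ (by rw [univ_inter]) hne isOpen_univ (by rw [univ_inter]) hψ hd he he'
    h0 heq P₀ Q₀ hPg hPA hQg hQA

end Vale.Agent.P088.B6

end
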