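import Vale.Agent.P088.H5.RSpec
import Vale.Agent.P088.H5.I.Br275

/-!
# P088, Theorem R: assembly
-/

set_option linter.all false

open Bundle Manifold MeasureTheory Set Filter
open scoped ContDiff Matrix Topology ENNReal

noncomputable section

namespace Vale.Agent.P088.B6

open Vale.Agent.P088 Vale.Agent.P088.B

universe u

section

variable {n : ℕ} [NeZero n] {N : ℕ} {M : Type u} [TopologicalSpace M]
  [ChartedSpace (EuclideanHalfSpace n) M] [IsManifold (𝓡∂ n) ∞ M] [T2Space M] [CompactSpace M]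
  [ConnectedSpace M]

/-- A gauge trivial connection has a parallel section. -/
theorem par_of_triv (hN : 1 ≤ N) (P : Pair (at_ n M) N) {Γ : Set M}
    (h : ∃ U, B7.GaugeBy U univ Γ 0 P.A (at_ n M)) : ∃ e, Par P e ∧ e ≠ 0 := by
  obtain ⟨U, hU⟩ := h
  letI := borel M
  haveI : BorelSpace M := ⟨rfl⟩
  have hp : B5.PureOn univ P.A (at_ n M) := by
    obtain ⟨h1, h2, h3, h4⟩ := hU
    refine ⟨U, fun a b => h1 a b, fun x _ => ⟨h2 x, fun j => ?_⟩⟩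
    rw [h4 x (mem_univ x) j]
    simp only [Pi.zero_apply, zero_mul, zero_add]
  obtain ⟨E, h1, h2, h3⟩ := B5.frame_of_pure isOpen_univ hp
  let a₀ : Fin N := ⟨0, hN⟩
  let v : Fib N := EuclideanSpace.single a₀ (1 : ℂ)
  have hv : v ≠ 0 := by
    intro h
    have h5 : v a₀ = 0 := by rw [h]; rfl
    simp [v] at h5
  have hE : ContMDiff (𝓡∂ n) 𝓘(ℝ, EndF N) ∞ E := contMDiffOn_univ.1 h1
  let e : M → Fib N := fun x => E x v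
  have he : ContMDiffOn (𝓡∂ n) 𝓘(ℝ, Fib N) ∞ e univ :=
    (EYM.O.evL v).contDiff.contMDiff.comp_contMDiffOn h1
  have hcov : ∀ x ∈ (univ : Set M), ∀ X : TangentSpace (𝓡∂ n) x,
      cov (S.connOf (conv P)) e x X = 0 := by
    intro x _ X
    have h5 : dmap (𝓡∂ n) e x X = (dmap (𝓡∂ n) E x X) v :=
      EYM.O.dmap_clm (EYM.O.evL v) ((hE x).mdifferentiableAt (by simp)) X
    have h6 := DFunLike.congr_fun (h3 x (mem_univ x) X) v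
    show dmap (𝓡∂ n) e x X + (S.connOf (conv P)).form x X (e x) = 0
    rw [h5]
    exact h6
  have h7 := B5.parOn_of (P := P) isOpen_univ he hcov
  refine ⟨fun x a => e x a, ⟨fun a => h7.1 a, fun x i a => h7.2 x (mem_univ x) i a⟩, fun h => ?_⟩
  obtain ⟨x⟩ : Nonempty M := inferInstance
  have h8 : e x = 0 := by
    ext a
    exact congrFun (congrFun h x) a
  have h9 : ContinuousLinearMap.adjoint (E x) (E x v) = v := by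
    have h10 : ContinuousLinearMap.adjoint (E x) * E x = 1 :=
      (Unitary.mem_iff.1 (h2 x (mem_univ x))).1
    exact DFunLike.congr_fun h10 v
  have h11 : E x v = 0 := h8
  rw [h11, map_zero] at h9
  exact hv h9.symm

end

/-- Full data, the metrics solve the same natural system, `A₁` is gauge trivial, `A₂` is
arbitrary. -/
theorem red_fin (r1 : R1_statement.{u}) (r2 : R2_statement.{u}) (r3 : R3_statement.{u})
    {n N : ℕ} [NeZero n] (hn : 3 ≤ n) (hN : 1 ≤ N) {M₁ M₂ : Type u}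
    [TopologicalSpace M₁] [ChartedSpace (EuclideanHalfSpace n) M₁] [IsManifold (𝓡∂ n) ∞ M₁]
    [T2Space M₁] [CompactSpace M₁] [ConnectedSpace M₁]
    [TopologicalSpace M₂] [ChartedSpace (EuclideanHalfSpace n) M₂] [IsManifold (𝓡∂ n) ∞ M₂]
    [T2Space M₂] [CompactSpace M₂] [ConnectedSpace M₂]
    (Z₁ : At n M₁) (hZ₁ : Z₁ = at_ n M₁) (Z₂ : At n M₂) (hZ₂ : Z₂ = at_ n M₂)
    (hne : (bd Z₁).Nonempty) (ψ : M₂ → M₁) (hψ : B2.Iden N Z₁ Z₂ (bd Z₁) (bd Z₂) ψ)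
    (P : Pair Z₁ N) (Q : Pair Z₂ N) (hd : B2.SameData₂ (bd Z₁) (bd Z₂) ψ P Q)
    (P₀ : Pair Z₁ 1) (Q₀ : Pair Z₂ 1) (hP : Sc P P₀) (hQ : Sc Q Q₀) :
    ((∃ e, Par P e ∧ e ≠ 0) → B2.SameData₂ (bd Z₁) (bd Z₂) ψ P₀ Q₀ ∧
      (Same univ univ P₀ Q₀ → B4.UniqueRel (bd Z₁) (bd Z₂) ψ P₀ Q₀)) ∧
    ((∃ U, B7.GaugeBy U univ (bd Z₁) 0 P.A Z₁) →
      ((∃ Φ Ψ U, B2.Rel₂ (bd Z₂) ψ P₀ Q₀ Φ Ψ U) → B4.UniqueRel (bd Z₁) (bd Z₂) ψ P Q) ∧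
      (Same univ univ P₀ Q₀ → B4.UniqueRel (bd Z₁) (bd Z₂) ψ P Q)) := by
  have key1 : (∃ e, Par P e ∧ e ≠ 0) → B2.SameData₂ (bd Z₁) (bd Z₂) ψ P₀ Q₀ ∧
      (Same univ univ P₀ Q₀ → B4.UniqueRel (bd Z₁) (bd Z₂) ψ P₀ Q₀) := by
    rintro ⟨e, he, h0⟩
    obtain ⟨h1, h2⟩ := r1 Z₁ hZ₁ Z₂ hZ₂ hne ψ hψ P Q hd e he h0 P₀ Q₀ hP hQ
    refine ⟨h2, fun h => ?_⟩
    exact (B2.same_two B2.blocks hn le_rfl Z₁ hZ₁ Z₂ hZ₂ (bd Z₁) univ isOpen_univ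
      (univ_inter _).symm hne (bd Z₂) univ isOpen_univ (univ_inter _).symm ψ h1 P₀ Q₀ h2).1 h
  refine ⟨key1, fun hU => ?_⟩
  have key2 : (∃ Φ Ψ U, B2.Rel₂ (bd Z₂) ψ P₀ Q₀ Φ Ψ U) →
      B4.UniqueRel (bd Z₁) (bd Z₂) ψ P Q := by
    rintro ⟨Φ, Ψ, U₀, hR₀⟩
    obtain ⟨U, hR⟩ := r2 Z₁ hZ₁ Z₂ hZ₂ (bd Z₁) (bd Z₂) ψ hψ.1.mapsTo P Q hU
      (r3 Z₁ hZ₁ Z₂ hZ₂ hne ψ hψ P Q hd hU) P₀ Q₀ hP hQ Φ Ψ U₀ hR₀
    subst hZ₁ hZ₂
    exact ⟨Φ, Ψ, U, hR, rel_sol isOpen_univ (univ_inter _).symm hne isOpen_univ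
      (univ_inter _).symm hψ hR, fun Φ' Ψ' U'' h' =>
      B2.rel_uniq (by omega) hN (at_ n M₁) rfl (at_ n M₂) rfl (bd (at_ n M₁)) univ isOpen_univ
        (univ_inter _).symm hne (bd (at_ n M₂)) univ isOpen_univ (univ_inter _).symm ψ hψ
        P Q (B2.solv_of hψ hd) h' hR⟩
  refine ⟨key2, fun h => ?_⟩
  have he : ∃ e, Par P e ∧ e ≠ 0 := by
    subst hZ₁
    exact par_of_triv hN P hU
  obtain ⟨Φ, Ψ, U, hR, -, -⟩ := (key1 he).2 h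
  exact key2 ⟨Φ, Ψ, U, hR⟩

end Vale.Agent.P088.B6

end
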