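import Vale.Agent.P088.H5.R4_435

/-!
# P088, Theorem R: assembly, general hypothesis on the scalar pairs
-/

set_option linter.all false

open Bundle Manifold MeasureTheory Set Filter
open scoped ContDiff Matrix Topology ENNReal

noncomputable section

namespace Vale.Agent.P088.B6

open Vale.Agent.P088 Vale.Agent.P088.B

universe u

/-- Full data, the scalar pairs satisfy `Hyp`, `A₁` is gauge trivial, `A₂` is arbitrary. -/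
theorem red_hyp (r1 : R1_statement.{u}) (r2 : R2_statement.{u}) (r3 : R3_statement.{u})
    {n N : ℕ} [NeZero n] (hn : 3 ≤ n) (hN : 1 ≤ N) {M₁ M₂ : Type u}
    [TopologicalSpace M₁] [ChartedSpace (EuclideanHalfSpace n) M₁] [IsManifold (𝓡∂ n) ∞ M₁]
    [T2Space M₁] [CompactSpace M₁] [ConnectedSpace M₁]
    [TopologicalSpace M₂] [ChartedSpace (EuclideanHalfSpace n) M₂] [IsManifold (𝓡∂ n) ∞ M₂]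
    [T2Space M₂] [CompactSpace M₂] [ConnectedSpace M₂]
    (Z₁ : At n M₁) (hZ₁ : Z₁ = at_ n M₁) (Z₂ : At n M₂) (hZ₂ : Z₂ = at_ n M₂)
    (hne : (bd Z₁).Nonempty) (ψ : M₂ → M₁) (hψ : B2.Iden N Z₁ Z₂ (bd Z₁) (bd Z₂) ψ)
    (P : Pair Z₁ N) (Q : Pair Z₂ N) (hd : B2.SameData₂ (bd Z₁) (bd Z₂) ψ P Q)
    (P₀ : Pair Z₁ 1) (Q₀ : Pair Z₂ 1) (hP : Sc P P₀) (hQ : Sc Q Q₀) :
    ((∃ e, Par P e ∧ e ≠ 0) → B2.SameData₂ (bd Z₁) (bd Z₂) ψ P₀ Q₀ ∧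
      (Hyp (bd Z₂) ψ P₀ Q₀ → B4.UniqueRel (bd Z₁) (bd Z₂) ψ P₀ Q₀)) ∧
    ((∃ U, B7.GaugeBy U univ (bd Z₁) 0 P.A Z₁) →
      ((∃ Φ Ψ U, B2.Rel₂ (bd Z₂) ψ P₀ Q₀ Φ Ψ U) → B4.UniqueRel (bd Z₁) (bd Z₂) ψ P Q) ∧
      (Hyp (bd Z₂) ψ P₀ Q₀ → B4.UniqueRel (bd Z₁) (bd Z₂) ψ P Q)) := by
  have key1 : (∃ e, Par P e ∧ e ≠ 0) → B2.SameData₂ (bd Z₁) (bd Z₂) ψ P₀ Q₀ ∧
      (Hyp (bd Z₂) ψ P₀ Q₀ → B4.UniqueRel (bd Z₁) (bd Z₂) ψ P₀ Q₀) := by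
    rintro ⟨e, he, h0⟩
    obtain ⟨h1, h2⟩ := r1 Z₁ hZ₁ Z₂ hZ₂ hne ψ hψ P Q hd e he h0 P₀ Q₀ hP hQ
    exact ⟨h2, fun h => hyp_two hn le_rfl Z₁ hZ₁ Z₂ hZ₂ (bd Z₁) univ isOpen_univ
      (univ_inter _).symm hne (bd Z₂) univ isOpen_univ (univ_inter _).symm ψ h1 P₀ Q₀ h2 h⟩
  refine ⟨key1, fun hU => ?_⟩
  have key2 := ((red_fin r1 r2 r3 hn hN Z₁ hZ₁ Z₂ hZ₂ hne ψ hψ P Q hd P₀ Q₀ hP hQ).2 hU).1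
  refine ⟨key2, fun h => ?_⟩
  have he : ∃ e, Par P e ∧ e ≠ 0 := by
    subst hZ₁
    exact par_of_triv hN P hU
  obtain ⟨Φ, Ψ, U, hR, -, -⟩ := (key1 he).2 h
  exact key2 ⟨Φ, Ψ, U, hR⟩

end Vale.Agent.P088.B6

end
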