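import Vale.Agent.P088.H5.R6_435
import Vale.Agent.P088.H5.St6

/-!
# P088, Theorem R: for `A₁` gauge trivial and full data, Question 1 is the scalar problem
-/

set_option linter.all false

open Bundle Manifold MeasureTheory Set Filter
open scoped ContDiff Matrix Topology ENNReal

noncomputable section

namespace Vale.Agent.P088.B6

open Vale.Agent.P088 Vale.Agent.P088.B

universe u

/-- Full data on two manifolds. If `A₁` has a parallel section, the metrics have the same scalar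
data; if `A₁` is gauge trivial and the metrics are related, the pairs are related. -/
theorem red_related_of (r2 : R2_statement.{u}) (r3 : R3_statement.{u})
    {n N : ℕ} [NeZero n] (hn : 3 ≤ n) (hN : 1 ≤ N) {M₁ M₂ : Type u}
    [TopologicalSpace M₁] [ChartedSpace (EuclideanHalfSpace n) M₁] [IsManifold (𝓡∂ n) ∞ M₁]
    [T2Space M₁] [CompactSpace M₁] [ConnectedSpace M₁]
    [TopologicalSpace M₂] [ChartedSpace (EuclideanHalfSpace n) M₂] [IsManifold (𝓡∂ n) ∞ M₂]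
    [T2Space M₂] [CompactSpace M₂] [ConnectedSpace M₂]
    (Z₁ : At n M₁) (hZ₁ : Z₁ = at_ n M₁) (Z₂ : At n M₂) (hZ₂ : Z₂ = at_ n M₂)
    (hne : (bd Z₁).Nonempty) (ψ : M₂ → M₁) (hψ : B2.Iden N Z₁ Z₂ (bd Z₁) (bd Z₂) ψ)
    (P : Pair Z₁ N) (Q : Pair Z₂ N) (hd : B2.SameData₂ (bd Z₁) (bd Z₂) ψ P Q)
    (P₀ : Pair Z₁ 1) (Q₀ : Pair Z₂ 1) (a1 : P₀.g = P.g) (a2 : P₀.A = 0) (a3 : Q₀.g = Q.g)
    (a4 : Q₀.A = 0) :
    ((∃ e, Par P e ∧ e ≠ 0) → B2.SameData₂ (bd Z₁) (bd Z₂) ψ P₀ Q₀) ∧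
    ((∃ U, B8.GaugeBy U univ (bd Z₁) 0 P.A Z₁) → B2.Related₂ (bd Z₁) (bd Z₂) ψ P₀ Q₀ →
      B2.Related₂ (bd Z₁) (bd Z₂) ψ P Q) := by
  have h := red_fin r1 r2 r3 hn hN Z₁ hZ₁ Z₂ hZ₂ hne ψ hψ P Q hd P₀ Q₀ ⟨a1, a2⟩ ⟨a3, a4⟩
  refine ⟨fun he => (h.1 he).1, fun hU hR => ?_⟩
  obtain ⟨Φ, Ψ, U, b1, b2, b3, b4, b5, b6, b7, b8, -⟩ := hR
  obtain ⟨Φ', Ψ', U', ⟨c1, c2, c3, c4, c5, c6, c7, c8⟩, c9, -⟩ :=
    (h.2 hU).1 ⟨Φ, Ψ, U, b1, b2, b3, b4, b5, b6, b7, b8⟩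
  exact ⟨Φ', Ψ', U', c1, c2, c3, c4, c5, c6, c7, c8, c9⟩

end Vale.Agent.P088.B6

end
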