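import Vale.Agent.P088.H5.R8_435
import Vale.Agent.P088.H5.Fin2_820
import Vale.Agent.P088.H5.R3_275

/-!
# P088, SmoothPairs: the clause for two manifolds
-/

set_option linter.all false

open Bundle Manifold MeasureTheory Set Filter
open scoped ContDiff Matrix Topology ENNReal

noncomputable section

namespace Vale.Agent.P088.B8

open Vale.Agent.P088 Vale.Agent.P088.B

universe u

/-- Two manifolds, full data. -/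
theorem sp_two_of (r3 : B6.R3_statement.{u})
    {n N : ℕ} [NeZero n] (hn : 3 ≤ n) (hN : 1 ≤ N) {M₁ M₂ : Type u}
    [TopologicalSpace M₁] [ChartedSpace (EuclideanHalfSpace n) M₁] [IsManifold (𝓡∂ n) ∞ M₁]
    [T2Space M₁] [CompactSpace M₁] [ConnectedSpace M₁]
    [TopologicalSpace M₂] [ChartedSpace (EuclideanHalfSpace n) M₂] [IsManifold (𝓡∂ n) ∞ M₂]
    [T2Space M₂] [CompactSpace M₂] [ConnectedSpace M₂]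
    (Z₁ : At n M₁) (hZ₁ : Z₁ = at_ n M₁) (Z₂ : At n M₂) (hZ₂ : Z₂ = at_ n M₂)
    (hne : (bd Z₁).Nonempty) (ψ : M₂ → M₁) (hψ : B2.Iden N Z₁ Z₂ (bd Z₁) (bd Z₂) ψ)
    (P : Pair Z₁ N) (Q : Pair Z₂ N) (hd : B2.SameData₂ (bd Z₁) (bd Z₂) ψ P Q) :
    (∀ e, Par P e → ∃ e', Par Q e' ∧ ∀ x ∈ bd Z₂, e' x = e (ψ x)) ∧
    ((∃ U, GaugeBy U univ (bd Z₁) 0 P.A Z₁) → ∃ U, GaugeBy U univ (bd Z₂) 0 Q.A Z₂) ∧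
    ∀ (P₀ : Pair Z₁ 1) (Q₀ : Pair Z₂ 1), P₀.g = P.g → P₀.A = 0 → Q₀.g = Q.g → Q₀.A = 0 →
      ((∃ e, Par P e ∧ e ≠ 0) → B2.SameData₂ (bd Z₁) (bd Z₂) ψ P₀ Q₀) ∧
      ((∃ U, GaugeBy U univ (bd Z₁) 0 P.A Z₁) →
        (B2.Related₂ (bd Z₁) (bd Z₂) ψ P Q ↔ B2.Related₂ (bd Z₁) (bd Z₂) ψ P₀ Q₀)) :=
  ⟨fun e he => B2.par_two Z₁ hZ₁ Z₂ hZ₂ _ hne _ ψ hψ P Q hd rfl rfl e he,
    fun h => r3 Z₁ hZ₁ Z₂ hZ₂ hne ψ hψ P Q hd h,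
    fun P₀ Q₀ a1 a2 a3 a4 => B6.red_iff_of r3 hn hN Z₁ hZ₁ Z₂ hZ₂ hne ψ hψ P Q hd P₀ Q₀ a1 a2 a3 a4⟩

/-- Two manifolds, full data, closed form. -/
theorem sp_two {n N : ℕ} [NeZero n] (hn : 3 ≤ n) (hN : 1 ≤ N) {M₁ M₂ : Type u}
    [TopologicalSpace M₁] [ChartedSpace (EuclideanHalfSpace n) M₁] [IsManifold (𝓡∂ n) ∞ M₁]
    [T2Space M₁] [CompactSpace M₁] [ConnectedSpace M₁]
    [TopologicalSpace M₂] [ChartedSpace (EuclideanHalfSpace n) M₂] [IsManifold (𝓡∂ n) ∞ M₂]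
    [T2Space M₂] [CompactSpace M₂] [ConnectedSpace M₂]
    (Z₁ : At n M₁) (hZ₁ : Z₁ = at_ n M₁) (Z₂ : At n M₂) (hZ₂ : Z₂ = at_ n M₂)
    (hne : (bd Z₁).Nonempty) (ψ : M₂ → M₁) (hψ : B2.Iden N Z₁ Z₂ (bd Z₁) (bd Z₂) ψ)
    (P : Pair Z₁ N) (Q : Pair Z₂ N) (hd : B2.SameData₂ (bd Z₁) (bd Z₂) ψ P Q) :
    (∀ e, Par P e → ∃ e', Par Q e' ∧ ∀ x ∈ bd Z₂, e' x = e (ψ x)) ∧
    ((∃ U, GaugeBy U univ (bd Z₁) 0 P.A Z₁) → ∃ U, GaugeBy U univ (bd Z₂) 0 Q.A Z₂) ∧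
    ∀ (P₀ : Pair Z₁ 1) (Q₀ : Pair Z₂ 1), P₀.g = P.g → P₀.A = 0 → Q₀.g = Q.g → Q₀.A = 0 →
      ((∃ e, Par P e ∧ e ≠ 0) → B2.SameData₂ (bd Z₁) (bd Z₂) ψ P₀ Q₀) ∧
      ((∃ U, GaugeBy U univ (bd Z₁) 0 P.A Z₁) →
        (B2.Related₂ (bd Z₁) (bd Z₂) ψ P Q ↔ B2.Related₂ (bd Z₁) (bd Z₂) ψ P₀ Q₀)) :=
  sp_two_of B6.r3 hn hN Z₁ hZ₁ Z₂ hZ₂ hne ψ hψ P Q hd

end Vale.Agent.P088.B8

end
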