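import Vale.Agent.P088.H5.Spec3
import Vale.Agent.P088.H5.M9ap849
import Vale.Agent.P088.H5.M6_275

/-!
# P088, Theorem M+: S0, S0a, S0b, S0c, S9a
-/

set_option linter.all false

open Bundle Manifold MeasureTheory Set Filter Topology
open scoped ContDiff Matrix

noncomputable section

namespace Vale.Agent.P088.EYM.O

open Vale.Agent.P088 Vale.Agent.P088.EYM

universe u

theorem ParS.toPar {n N : ℕ} [NeZero n] {M : Type u} [TopologicalSpace M]
    [ChartedSpace (EuclideanHalfSpace n) M] [IsManifold (𝓡∂ n) ∞ M]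
    {A : Connection (𝓡∂ n) N M} {e : M → Fib N} (h : ParS A e) : Par A e := ⟨h.sm, h.par⟩

theorem s0 : S0_statement.{u} := fun n N _ M _ _ _ _ _ _ A e he => he.toPar.norm

theorem s0a : S0a_statement.{u} := fun n N _ M _ _ _ _ _ _ _ _ P w e he hw =>
  harm_par P he.toPar hw

theorem s0b : S0b_statement.{u} := fun n N _ M _ _ _ _ _ _ _ _ P Γ φ e he h1 hΓ hφ hs =>
  ex_par P he.toPar h1 hΓ hφ hs

theorem s0c : S0c_statement.{u} := fun n N _ M _ _ _ _ _ _ _ _ P w e he h1 hw =>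
  energy_par P he.toPar hw h1

theorem s9a : S9a_statement.{u} := fun n N _ M _ _ _ _ _ _ _ _ P Q Γ hΓ hne hS hsig w φ e he h1
    hw hpos hφ hs hwφ =>
  m9ap m6 n N M P Q Γ e he.toPar h1 hΓ hne hS hsig w φ hw hpos hφ hs hwφ

end Vale.Agent.P088.EYM.O

end
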