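import Vale.Agent.P088.H5.Spec

/-!
# P088, Theorem M+: parallel sections (flat summands)
-/

open Bundle Manifold MeasureTheory Set Filter Topology
open scoped ContDiff Matrix

noncomputable section

namespace Vale.Agent.P088.EYM.O

open Vale.Agent.P088 Vale.Agent.P088.EYM

universe u

/-- `e` is a smooth parallel section, `d_A e = 0`. -/
structure ParS {n N : ℕ} [NeZero n] {M : Type u} [TopologicalSpace M]
    [ChartedSpace (EuclideanHalfSpace n) M] [IsManifold (𝓡∂ n) ∞ M]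
    (A : Connection (𝓡∂ n) N M) (e : M → Fib N) : Prop where
  sm : SmS n e
  par : ∀ (x : M) (X : TangentSpace (𝓡∂ n) x), cov A e x X = 0

/-- (S0) a parallel section has constant norm. -/
def S0_statement : Prop :=
  ∀ (n N : ℕ) [NeZero n] (M : Type u) [TopologicalSpace M] [ChartedSpace (EuclideanHalfSpace n) M]
    [IsManifold (𝓡∂ n) ∞ M] [T2Space M] [CompactSpace M] [ConnectedSpace M]
    (A : Connection (𝓡∂ n) N M) (e : M → Fib N), ParS A e → ∀ x y, ‖e x‖ = ‖e y‖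

/-- (S0a) `w e` is the harmonic extension. -/
def S0a_statement : Prop :=
  ∀ (n N : ℕ) [NeZero n] (M : Type u) [TopologicalSpace M] [ChartedSpace (EuclideanHalfSpace n) M]
    [IsManifold (𝓡∂ n) ∞ M] [T2Space M] [CompactSpace M] [ConnectedSpace M] [MeasurableSpace M]
    [BorelSpace M] (P : One n N M) (w : M → ℝ) (e : M → Fib N), ParS P.A e → Wk P w →
    P.Harm (fun x => (w x : ℂ) • e x) (fun x => (w x : ℂ) • e x)

/-- (S0b) existence of scalar harmonic extensions, `w = Re ⟨e, u⟩`. -/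
def S0b_statement : Prop :=
  ∀ (n N : ℕ) [NeZero n] (M : Type u) [TopologicalSpace M] [ChartedSpace (EuclideanHalfSpace n) M]
    [IsManifold (𝓡∂ n) ∞ M] [T2Space M] [CompactSpace M] [ConnectedSpace M] [MeasurableSpace M]
    [BorelSpace M] (P : One n N M) (Γ : Set M) (φ : M → ℝ) (e : M → Fib N), ParS P.A e →
    (∀ x, ‖e x‖ = 1) → P.HasSol Γ → SmR n φ → Spt n Γ φ →
    ∃ w, Wk P w ∧ ∀ x ∈ (𝓡∂ n).boundary M, w x = φ x

/-- (S0c) the energy of `w e`. -/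
def S0c_statement : Prop :=
  ∀ (n N : ℕ) [NeZero n] (M : Type u) [TopologicalSpace M] [ChartedSpace (EuclideanHalfSpace n) M]
    [IsManifold (𝓡∂ n) ∞ M] [T2Space M] [CompactSpace M] [ConnectedSpace M] [MeasurableSpace M]
    [BorelSpace M] (P : One n N M) (w : M → ℝ) (e : M → Fib N), ParS P.A e → (∀ x, ‖e x‖ = 1) →
    SmR n w →
    P.E (fun x => (w x : ℂ) • e x) (fun x => (w x : ℂ) • e x) =
      ((∫ x, gp P.g w w x ∂P.μ : ℝ) : ℂ)

/-- (S2) the ground state identity and the limit, `‖u‖ = w` on `∂M`. -/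
def S2_statement : Prop :=
  ∀ (n N : ℕ) [NeZero n] (M : Type u) [TopologicalSpace M] [ChartedSpace (EuclideanHalfSpace n) M]
    [IsManifold (𝓡∂ n) ∞ M] [T2Space M] [CompactSpace M] [ConnectedSpace M] [MeasurableSpace M]
    [BorelSpace M] (P : One n N M) (A : Connection (𝓡∂ n) N M) (w φ : M → ℝ) (u : M → Fib N),
    Wk P w → (∀ x, 0 ≤ w x) → SmR n φ →
    (∀ x ∈ (𝓡∂ n).boundary M, w x = φ x ^ 2) → SmS n u →
    (∀ x ∈ (𝓡∂ n).boundary M, ‖u x‖ = w x) →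
    (energy P.g P.μ A u u).re ≤ ∫ x, gp P.g w w x ∂P.μ →
    ∫ x, gp P.g w w x ∂P.μ ≤ (energy P.g P.μ A u u).re ∧
      ∀ (x : M) (X : TangentSpace (𝓡∂ n) x),
        (w x : ℂ) • cov A u x X = ((dmap (𝓡∂ n) w x X : ℝ) : ℂ) • u x

/-- (S4) the differentials of the harmonic extensions of squares span. -/
def S4_statement : Prop :=
  ∀ (n N : ℕ) [NeZero n] (M : Type u) [TopologicalSpace M] [ChartedSpace (EuclideanHalfSpace n) M]
    [IsManifold (𝓡∂ n) ∞ M] [T2Space M] [CompactSpace M] [ConnectedSpace M] [MeasurableSpace M]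
    [BorelSpace M] (P : One n N M) (Γ : Set M) (e : M → Fib N), 3 ≤ n → ParS P.A e →
    (∀ x, ‖e x‖ = 1) → RelBd n Γ → Γ.Nonempty → P.HasSol Γ → ∀ x ∈ Mi n M, ∀ c : Fin n → ℝ,
    (∀ w φ : M → ℝ, Wk P w → SmR n φ → Spt n Γ φ → (∀ y ∈ (𝓡∂ n).boundary M, w y = φ y ^ 2) →
      ∑ i, c i * dd w x i = 0) → c = 0

/-- (S9a) the equality case. -/
def S9a_statement : Prop :=
  ∀ (n N : ℕ) [NeZero n] (M : Type u) [TopologicalSpace M] [ChartedSpace (EuclideanHalfSpace n) M]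
    [IsManifold (𝓡∂ n) ∞ M] [T2Space M] [CompactSpace M] [ConnectedSpace M] [MeasurableSpace M]
    [BorelSpace M] (P Q : One n N M) (Γ : Set M), RelBd n Γ → Γ.Nonempty → SameD P Q Γ →
    (∀ x, (sig Q.g x - sig P.g x).PosSemidef) → ∀ (w φ : M → ℝ) (e : M → Fib N), ParS P.A e →
    (∀ x, ‖e x‖ = 1) → Wk P w → (∀ x, 0 ≤ w x) → SmR n φ → Spt n Γ φ →
    (∀ y ∈ (𝓡∂ n).boundary M, w y = φ y ^ 2) →
    ∃ u : M → Fib N, SmS n u ∧ (∀ x ∈ (𝓡∂ n).boundary M, u x = (w x : ℂ) • e x) ∧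
      (∀ (x : M) (X : TangentSpace (𝓡∂ n) x),
        (w x : ℂ) • cov Q.A u x X = ((dmap (𝓡∂ n) w x X : ℝ) : ℂ) • u x) ∧
      ∀ x i, ∑ j, (((sig Q.g x - sig P.g x) i j : ℝ) : ℂ) •
        cov Q.A u x (coordVec (𝓡∂ n) x x j) = 0

/-- (S3) the parallel section in the interior. -/
def S3_statement : Prop :=
  ∀ (n N : ℕ) [NeZero n] (M : Type u) [TopologicalSpace M] [ChartedSpace (EuclideanHalfSpace n) M]
    [IsManifold (𝓡∂ n) ∞ M] [T2Space M] [CompactSpace M] [ConnectedSpace M]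
    (A : Connection (𝓡∂ n) N M) (w : M → ℝ) (u e : M → Fib N) (p : M),
    SmR n w → (∀ x ∈ Mi n M, 0 < w x) → SmS n u → SmS n e → (∀ x, ‖e x‖ = 1) →
    (∀ x ∈ (𝓡∂ n).boundary M, u x = (w x : ℂ) • e x) →
    (∀ (x : M) (X : TangentSpace (𝓡∂ n) x),
      (w x : ℂ) • cov A u x X = ((dmap (𝓡∂ n) w x X : ℝ) : ℂ) • u x) →
    p ∈ (𝓡∂ n).boundary M → w p ≠ 0 →
    ∃ s : M → Fib N, ContMDiffOn (𝓡∂ n) 𝓘(ℝ, Fib N) ∞ s (Mi n M) ∧
      (∀ x ∈ Mi n M, ‖s x‖ = 1) ∧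
      (∀ x ∈ Mi n M, ∀ X : TangentSpace (𝓡∂ n) x, cov A s x X = 0) ∧
      ∀ q ∈ (𝓡∂ n).boundary M, w q ≠ 0 → Tendsto s (𝓝[Mi n M] q) (𝓝 (e q))

/-- (S5) a bounded parallel section in the interior extends to `M`. -/
def S5_statement : Prop :=
  ∀ (n N : ℕ) [NeZero n] (M : Type u) [TopologicalSpace M] [ChartedSpace (EuclideanHalfSpace n) M]
    [IsManifold (𝓡∂ n) ∞ M] [T2Space M] [CompactSpace M] [ConnectedSpace M]
    (A : Connection (𝓡∂ n) N M) (s : M → Fib N),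
    ContMDiffOn (𝓡∂ n) 𝓘(ℝ, Fib N) ∞ s (Mi n M) → (∀ x ∈ Mi n M, ‖s x‖ = 1) →
    (∀ x ∈ Mi n M, ∀ X : TangentSpace (𝓡∂ n) x, cov A s x X = 0) →
    ∃ s' : M → Fib N, ParS A s' ∧ ∀ x ∈ Mi n M, s' x = s x

/-- (S9) Theorem M+, abstract form. -/
def S9_statement : Prop :=
  ∀ (n N : ℕ) [NeZero n] (M : Type u) [TopologicalSpace M] [ChartedSpace (EuclideanHalfSpace n) M]
    [IsManifold (𝓡∂ n) ∞ M] [T2Space M] [CompactSpace M] [ConnectedSpace M] [MeasurableSpace M]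
    [BorelSpace M] (P Q : One n N M) (Γ : Set M), 3 ≤ n → RelBd n Γ → Γ.Nonempty → SameD P Q Γ →
    (∀ x, (sig Q.g x - sig P.g x).PosSemidef) → ∀ e : M → Fib N, ParS P.A e →
    (∃ e' : M → Fib N, ParS Q.A e' ∧ ∀ x ∈ Γ, e' x = e x) ∧
      (e ≠ 0 → ∀ (x : M) (v w : TangentSpace (𝓡∂ n) x), Q.g.inner x v w = P.g.inner x v w)

/-- (SF) full data, arbitrary metrics. -/
def SF_statement : Prop :=
  ∀ (n N : ℕ) [NeZero n] (M : Type u) [TopologicalSpace M] [ChartedSpace (EuclideanHalfSpace n) M]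
    [IsManifold (𝓡∂ n) ∞ M] [T2Space M] [CompactSpace M] [ConnectedSpace M] [MeasurableSpace M]
    [BorelSpace M] (P Q : One n N M), ((𝓡∂ n).boundary M).Nonempty →
    SameD P Q ((𝓡∂ n).boundary M) → ∀ e : M → Fib N, ParS P.A e →
    ∃ e' : M → Fib N, ParS Q.A e' ∧ ∀ x ∈ (𝓡∂ n).boundary M, e' x = e x

end Vale.Agent.P088.EYM.O

end
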