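import Vale.Agent.P088.H5.M5p823
import Vale.Agent.P088.H5.Spec3

/-!
# P088, Theorem M+: block S5
-/

open Bundle Manifold MeasureTheory Set Filter Topology
open scoped ContDiff Matrix

noncomputable section

set_option linter.all false

namespace Vale.Agent.P088.EYM.O

open Vale.Agent.P088 Vale.Agent.P088.EYM

universe u

theorem s5 : S5_statement.{u} := by
  intro n N _ M _ _ _ _ _ _ A s hs hb he
  obtain ⟨s', h1, h2, h3⟩ := m5v n N M A s hs (fun x hx => (hb x hx).le) he
  exact ⟨s', ⟨h1, h3⟩, h2⟩

end Vale.Agent.P088.EYM.O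

end
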