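import Vale.Agent.P088.H5.Clos
import Vale.Agent.P088.H5.MP332
import Vale.Agent.P088.H5.M5p823
import Vale.Agent.P088.H5.S0_849

/-!
# P088, Theorem M+: assembly
-/

set_option linter.all false

open Bundle Manifold MeasureTheory Set Filter Topology
open scoped ContDiff Matrix

noncomputable section

namespace Vale.Agent.P088.EYM.O

open Vale.Agent.P088 Vale.Agent.P088.EYM

universe u

section

variable {n N : ℕ} [NeZero n] {M : Type u} [TopologicalSpace M]
  [ChartedSpace (EuclideanHalfSpace n) M] [IsManifold (𝓡∂ n) ∞ M]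

theorem inner_adjmul (T : EndF N) (v : Fib N) :
    inner ℂ v ((ContinuousLinearMap.adjoint T * T) v) = ((‖T v‖ ^ 2 : ℝ) : ℂ) := by
  show inner ℂ v (ContinuousLinearMap.adjoint T (T v)) = _
  rw [ContinuousLinearMap.adjoint_inner_right, inner_self_eq_norm_sq_to_K]
  push_cast
  rfl

/-- A parallel section in the interior has constant norm. -/
theorem par_norm_int [T2Space M] [CompactSpace M] [ConnectedSpace M] {A : Connection (𝓡∂ n) N M}
    {s : M → Fib N} (hs : ContMDiffOn (𝓡∂ n) 𝓘(ℝ, Fib N) ∞ s (Mi n M))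
    (hp : ∀ x ∈ Mi n M, ∀ X : TangentSpace (𝓡∂ n) x, cov A s x X = 0) :
    ∀ x ∈ Mi n M, ∀ y ∈ Mi n M, ‖s x‖ = ‖s y‖ := by
  obtain ⟨hIo, -, -⟩ := TM.fConn n M
  rcases Nat.eq_zero_or_pos N with rfl | hN
  · intro x _ y _
    rw [Subsingleton.elim (s x) (s y)]
  set a : Fin N := ⟨0, hN⟩ with ha
  set T : M → EndF N := fun x => colL a (s x) with hT
  have hTs : ContMDiffOn (𝓡∂ n) 𝓘(ℝ, EndF N) ∞ T (Mi n M) :=
    (colL a).contMDiff.comp_contMDiffOn hs
  have hsd : ∀ x ∈ Mi n M, MDifferentiableAt (𝓡∂ n) 𝓘(ℝ, Fib N) s x := fun x hx =>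
    (hs.contMDiffAt (hIo.mem_nhds hx)).mdifferentiableAt (by simp)
  have hTd : ∀ x ∈ Mi n M, MDifferentiableAt (𝓡∂ n) 𝓘(ℝ, EndF N) T x := fun x hx =>
    (hTs.contMDiffAt (hIo.mem_nhds hx)).mdifferentiableAt (by simp)
  have hTp : ∀ x ∈ Mi n M, ∀ X : TangentSpace (𝓡∂ n) x,
      dmap (𝓡∂ n) T x X + A.form x X * T x = 0 := by
    intro x hx X
    rw [hT, dmap_clm (colL a) (hsd x hx) X, ← colL_comp, ← map_add]
    have h := hp x hx X
    unfold cov at h
    rw [h, map_zero]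
  have hfs : ContMDiffOn (𝓡∂ n) 𝓘(ℝ, EndF N) ∞ (fun x => mulL (adjRE (T x)) (T x)) (Mi n M) :=
    adjmul_smooth.contMDiff.comp_contMDiffOn hTs
  have hc := const_of_dmap hfs (fun x hx X => adjmul_par (hTd x hx) (A.skew x X) (hTp x hx X))
  have hTv : ∀ x, T x (EuclideanSpace.single a (1 : ℂ)) = s x := by
    intro x
    rw [hT]
    show colL a (s x) (EuclideanSpace.single a (1 : ℂ)) = s x
    rw [colL_apply]
    simp
  intro x hx y hy
  have h1 : ContinuousLinearMap.adjoint (T x) * T x = ContinuousLinearMap.adjoint (T y) * T y :=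
    hc x hx y hy
  have h2 := inner_adjmul (T x) (EuclideanSpace.single a (1 : ℂ))
  have h3 := inner_adjmul (T y) (EuclideanSpace.single a (1 : ℂ))
  rw [h1, h3, hTv, hTv] at h2
  have h4 : ‖s y‖ ^ 2 = ‖s x‖ ^ 2 := by exact_mod_cast h2
  exact ((pow_left_inj₀ (norm_nonneg _) (norm_nonneg _) two_ne_zero).1 h4).symm

theorem ParS.zero (A : Connection (𝓡∂ n) N M) : ParS A (fun _ => (0 : Fib N)) := by
  refine ⟨contMDiff_const, fun x X => ?_⟩
  unfold cov
  rw [map_zero, add_zero]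
  exact dmap_clm (0 : ℝ →L[ℝ] Fib N) (f := fun _ : M => (0 : ℝ)) mdifferentiableAt_const X

theorem ParS.lin {A : Connection (𝓡∂ n) N M} {e f : M → Fib N} (he : ParS A e) (hf : ParS A f)
    (c : ℝ) : ParS A (fun x => e x + c • f x) := by
  have hfc : SmS n (fun x => c • f x) :=
    (c • ContinuousLinearMap.id ℝ (Fib N)).contMDiff.comp hf.sm
  refine ⟨he.sm.add hfc, fun x X => ?_⟩
  have h1 := he.par x X
  have h2 := hf.par x X
  unfold cov at h1 h2 ⊢
  rw [dmap_add (he.sm.mdifferentiable (by simp) x) (hfc.mdifferentiable (by simp) x) X]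
  have h3 : dmap (𝓡∂ n) (fun x => c • f x) x X = c • dmap (𝓡∂ n) f x X :=
    dmap_clm (c • ContinuousLinearMap.id ℝ (Fib N)) (hf.sm.mdifferentiable (by simp) x) X
  have h4 : A.form x X (c • f x) = c • A.form x X (f x) :=
    ContinuousLinearMap.map_smul_of_tower _ _ _
  rw [h3, map_add, h4]
  have h5 : dmap (𝓡∂ n) e x X + c • dmap (𝓡∂ n) f x X +
      (A.form x X (e x) + c • A.form x X (f x)) =
      (dmap (𝓡∂ n) e x X + A.form x X (e x)) + c • (dmap (𝓡∂ n) f x X + A.form x X (f x)) := by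
    module
  rw [h5, h1, h2, smul_zero, add_zero]

theorem ParS.smul {A : Connection (𝓡∂ n) N M} {f : M → Fib N} (hf : ParS A f) (c : ℝ) :
    ParS A (fun x => c • f x) := by
  have h := (ParS.zero A).lin hf c
  have h2 : (fun x => c • f x) = fun x => (0 : Fib N) + c • f x := by
    funext x
    rw [zero_add]
  rw [h2]
  exact h

/-- Parallel sections with the same value at a point are equal. -/
theorem ParS.uniq [T2Space M] [CompactSpace M] [ConnectedSpace M] {A : Connection (𝓡∂ n) N M}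
    {e f : M → Fib N} (he : ParS A e) (hf : ParS A f) {p : M} (h : e p = f p) (x : M) :
    e x = f x := by
  have h1 := s0 n N M A _ (he.lin hf (-1)) x p
  rw [h] at h1
  have h2 : f p + (-1 : ℝ) • f p = 0 := by rw [neg_one_smul, add_neg_cancel]
  rw [h2, norm_zero] at h1
  have h3 := norm_eq_zero.1 h1
  rw [neg_one_smul] at h3
  exact add_neg_eq_zero.1 h3

end

/-- The case `‖e‖ = 1`. -/
theorem s9_unit (h4 : S4_statement.{u}) (n N : ℕ) [NeZero n] (M : Type u) [TopologicalSpace M]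
    [ChartedSpace (EuclideanHalfSpace n) M] [IsManifold (𝓡∂ n) ∞ M] [T2Space M] [CompactSpace M]
    [ConnectedSpace M] [MeasurableSpace M] [BorelSpace M] (P Q : One n N M) (Γ : Set M)
    (hn : 3 ≤ n) (hΓ : RelBd n Γ) (hΓn : Γ.Nonempty) (hS : SameD P Q Γ)
    (hle : ∀ x, (sig Q.g x - sig P.g x).PosSemidef) (e : M → Fib N) (he : ParS P.A e)
    (he1 : ∀ x, ‖e x‖ = 1) :
    (∃ e' : M → Fib N, ParS Q.A e' ∧ ∀ x ∈ Γ, e' x = e x) ∧
      ∀ (x : M) (v w : TangentSpace (𝓡∂ n) x), Q.g.inner x v w = P.g.inner x v w := by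
  obtain ⟨hIo, -, hcl⟩ := TM.fConn n M
  have hbd : IsClosed ((𝓡∂ n).boundary M) := by
    rw [← ModelWithCorners.compl_interior]
    exact hIo.isClosed_compl
  have hΓb : Γ ⊆ (𝓡∂ n).boundary M := by
    obtain ⟨O, -, rfl⟩ := hΓ
    exact inter_subset_right
  have hbne : ((𝓡∂ n).boundary M).Nonempty := hΓn.mono hΓb
  obtain ⟨⟨hPs, -, -⟩, -⟩ :=
    Vale.Agent.P088.EYM.cData TM.fUniq TM.fForm n N M P Q Γ hΓ hΓn hS
  have hfr : ∀ w φ : M → ℝ, Wk P w → SmR n φ → Spt n Γ φ →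
      (∀ x ∈ (𝓡∂ n).boundary M, w x = φ x ^ 2) → (∃ p ∈ (𝓡∂ n).boundary M, φ p ≠ 0) →
      (∃ s : M → Fib N, ParS Q.A s ∧ ∀ q ∈ (𝓡∂ n).boundary M, φ q ≠ 0 → s q = e q) ∧
      ∀ x ∈ Mi n M, ∀ i, ∑ j, (sig Q.g x - sig P.g x) i j * dd w x j = 0 := by
    intro w φ hw hφ hsp hwb hp
    obtain ⟨p, hp, hφp⟩ := hp
    have hw0 : ∀ x, 0 ≤ w x :=
      m1 n N M P w hbne hw (fun x hx => by rw [hwb x hx]; positivity)
    have hwp : w p ≠ 0 := by
      rw [hwb p hp]
      positivity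
    have hpos : ∀ x ∈ Mi n M, 0 < w x := m7 m7l m0a n N M P w hw hw0 ⟨p, hwp⟩
    obtain ⟨u, hu1, hu2, hu3, hu4⟩ := s9a n N M P Q Γ hΓ hΓn hS hle w φ e he he1 hw hw0 hφ hsp hwb
    obtain ⟨s, hs1, hs2, hs3, hs5⟩ := m3p n N M Q.A w u e hw.sm hpos hu1 hu2 hu3
    have hne : ∀ q : M, (𝓝[Mi n M] q).NeBot := fun q =>
      mem_closure_iff_nhdsWithin_neBot.1 (hcl q)
    have hnorm : ∀ x ∈ Mi n M, ‖s x‖ = 1 := by
      intro x hx
      have h1 : Tendsto (fun y => ‖s y‖) (𝓝[Mi n M] p) (𝓝 ‖e p‖) := (hs5 p hp hwp).norm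
      have h2 : (fun y => ‖s y‖) =ᶠ[𝓝[Mi n M] p] fun _ => ‖s x‖ := by
        filter_upwards [self_mem_nhdsWithin] with y hy
        exact par_norm_int hs1 hs3 y hy x hx
      have := hne p
      have h3 := tendsto_nhds_unique (h1.congr' h2) tendsto_const_nhds
      rw [← h3, he1]
    obtain ⟨s', hs', hss, hpar⟩ := m5v n N M Q.A s hs1 (fun x hx => (hnorm x hx).le) hs3
    refine ⟨⟨s', ⟨hs', hpar⟩, fun q hq hφq => ?_⟩, fun x hx i => ?_⟩
    · have h1 := hs5 q hq (by rw [hwb q hq]; positivity)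
      have h2 : Tendsto s' (𝓝[Mi n M] q) (𝓝 (e q)) := by
        refine h1.congr' ?_
        filter_upwards [self_mem_nhdsWithin] with y hy
        exact (hss y hy).symm
      have := hne q
      exact tendsto_nhds_unique (hs'.continuous.continuousAt.mono_left nhdsWithin_le_nhds) h2
    · have h1 := hu4 x i
      have h2 : ∑ j, (((sig Q.g x - sig P.g x) i j * dd w x j : ℝ) : ℂ) • u x = 0 := by
        have h3 : (w x : ℂ) • ∑ j, (((sig Q.g x - sig P.g x) i j : ℝ) : ℂ) •
            cov Q.A u x (coordVec (𝓡∂ n) x x j) = 0 := by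
          rw [h1, smul_zero]
        rw [Finset.smul_sum] at h3
        rw [← h3]
        refine Finset.sum_congr rfl fun j _ => ?_
        rw [smul_comm, hu3 x, smul_smul]
        unfold dd
        push_cast
        rfl
      rw [← Finset.sum_smul, ← Complex.ofReal_sum] at h2
      rcases smul_eq_zero.1 h2 with h3 | h3
      · exact_mod_cast h3
      · exfalso
        have h4 := hs2 x hx
        rw [h3] at h4
        have h5 : s x = 0 := (smul_eq_zero.1 h4.symm).resolve_left (by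
          exact_mod_cast (hpos x hx).ne')
        have h6 := hnorm x hx
        rw [h5, norm_zero] at h6
        exact zero_ne_one h6
  constructor
  · obtain ⟨p, hp⟩ := hΓn
    have hat : ∀ q ∈ Γ, ∃ s : M → Fib N, ParS Q.A s ∧ s p = e p ∧ s q = e q := by
      intro q hq
      obtain ⟨χ, h1, h2, h3, h4⟩ := chi2 (n := n) hΓ hbd hp hq
      have h5 : SmR n (fun x => χ x ^ 2) := (h1.mul h1).congr fun x => pow_two _
      obtain ⟨w, hw, hwb⟩ := s0b n N M P Γ (fun x => χ x ^ 2) e he he1 hPs h5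
        (h2.of fun x _ h0 => by rw [h0]; norm_num)
      obtain ⟨⟨s, e1, e2⟩, -⟩ := hfr w χ hw h1 h2 hwb ⟨p, hΓb hp, by rw [h3]; norm_num⟩
      exact ⟨s, e1, e2 p (hΓb hp) (by rw [h3]; norm_num),
        e2 q (hΓb hq) (by rw [h4]; norm_num)⟩
    obtain ⟨s, hs1, hs2, -⟩ := hat p hp
    refine ⟨s, hs1, fun q hq => ?_⟩
    obtain ⟨r, hr1, hr2, hr3⟩ := hat q hq
    rw [hs1.uniq hr1 (hs2.trans hr2.symm) q, hr3]
  · have key : ∀ x ∈ Mi n M, gram Q.g x x = gram P.g x x := by
      intro x hx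
      have hs : sig Q.g x = sig P.g x := by
        ext i k
        have h1 := h4 n N M P Γ e hn he he1 hΓ hΓn hPs x hx
          (fun j => (sig Q.g x - sig P.g x) i j) (by
            intro w φ hw hφ hsp hwb
            by_cases hz : ∃ p ∈ (𝓡∂ n).boundary M, φ p ≠ 0
            · exact (hfr w φ hw hφ hsp hwb hz).2 x hx i
            · push Not at hz
              have h2 : w = fun _ => (0 : ℝ) := by
                funext y
                exact wk_zero m1 hbne hw (fun y hy => by rw [hwb y hy, hz y hy]; norm_num) y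
              refine Finset.sum_eq_zero fun j _ => ?_
              have h3 : dd w x j = 0 := by
                rw [h2]
                exact dmap_clm (0 : ℝ →L[ℝ] ℝ) (hw.sm.mdifferentiable (by simp) x) _
              rw [h3, mul_zero])
        have h2 := congrFun h1 k
        have h3 : (sig Q.g x - sig P.g x) i k = 0 := h2
        rw [Matrix.sub_apply] at h3
        exact sub_eq_zero.1 h3
      exact m8 n _ _ hn (gram_posDef Q.g (mem_extChartAt_source x))
        (gram_posDef P.g (mem_extChartAt_source x)) hs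
    exact fun x v w => inner_of_gram (gram_of_int hcl key x) v w

theorem s9 (h4 : S4_statement.{u}) : S9_statement.{u} := by
  intro n N _ M _ _ _ _ _ _ _ _ P Q Γ hn hΓ hΓn hS hle e he
  by_cases h0 : e = 0
  · exact ⟨⟨fun _ => 0, ParS.zero _, fun x _ => by rw [h0]; rfl⟩, fun h => absurd h0 h⟩
  · obtain ⟨x₀, hx₀⟩ := Function.ne_iff.1 h0
    have hc : 0 < ‖e x₀‖ := norm_pos_iff.2 hx₀
    obtain ⟨⟨s, hs, hsb⟩, hm⟩ := s9_unit h4 n N M P Q Γ hn hΓ hΓn hS hle
      (fun x => ‖e x₀‖⁻¹ • e x) (he.smul _) (fun x => by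
        rw [norm_smul, norm_inv, norm_norm, s0 n N M P.A e he x x₀, inv_mul_cancel₀ hc.ne'])
    refine ⟨⟨fun x => ‖e x₀‖ • s x, hs.smul _, fun x hx => ?_⟩, fun _ => hm⟩
    show ‖e x₀‖ • s x = e x
    rw [hsb x hx, smul_smul, mul_inv_cancel₀ hc.ne', one_smul]

end Vale.Agent.P088.EYM.O

end
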