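import Vale.Agent.P088.H820.G1

/-!
# P088, Theorem M: general smooth pairs with ordered conductivities, `A₁ = 0`
(definitions and statements of the blocks)
-/

open Bundle Manifold MeasureTheory Set Filter Topology
open scoped ContDiff Matrix

noncomputable section

namespace Vale.Agent.P088.EYM.O

open Vale.Agent.P088 Vale.Agent.P088.EYM

universe u

section

variable {n N : ℕ} [NeZero n] {M : Type u} [TopologicalSpace M]
  [ChartedSpace (EuclideanHalfSpace n) M] [IsManifold (𝓡∂ n) ∞ M]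

variable (n) in
/-- Smooth real functions. -/
def SmR (a : M → ℝ) : Prop := ContMDiff (𝓡∂ n) 𝓘(ℝ, ℝ) ∞ a

/-- `∂_i a (x)` in the chart at `x`. -/
def dd (a : M → ℝ) (x : M) (i : Fin n) : ℝ := dmap (𝓡∂ n) a x (coordVec (𝓡∂ n) x x i)

/-- `⟨da, db⟩_g` at `x`. -/
def gp (g : Metric (𝓡∂ n) M) (a b : M → ℝ) (x : M) : ℝ :=
  ∑ i, ∑ j, (gram g x x)⁻¹ i j * (dd a x i * dd b x j)

/-- The matrix `√(det g) g⁻¹` at `x`, in the chart at `x`. -/
def sig (g : Metric (𝓡∂ n) M) (x : M) : Matrix (Fin n) (Fin n) ℝ :=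
  √(gram g x x).det • (gram g x x)⁻¹

/-- `φ` vanishes on `∂M` away from a compact subset of `Γ`. -/
def Spt (n : ℕ) [NeZero n] {M : Type u} [TopologicalSpace M]
    [ChartedSpace (EuclideanHalfSpace n) M] (Γ : Set M) (φ : M → ℝ) : Prop :=
  closure {x ∈ (𝓡∂ n).boundary M | φ x ≠ 0} ⊆ Γ

variable [MeasurableSpace M]

/-- `w` is smooth and (weakly) harmonic for `g`. -/
structure Wk (P : One n N M) (w : M → ℝ) : Prop where
  sm : SmR n w
  weak : ∀ ψ : M → ℝ, SmR n ψ → (∀ x ∈ (𝓡∂ n).boundary M, ψ x = 0) →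
    ∫ x, gp P.g w ψ x ∂P.μ = 0

end

/-- (M0a) `w v` is the harmonic extension for `A = 0`. -/
def M0a_statement : Prop :=
  ∀ (n N : ℕ) [NeZero n] (M : Type u) [TopologicalSpace M] [ChartedSpace (EuclideanHalfSpace n) M]
    [IsManifold (𝓡∂ n) ∞ M] [T2Space M] [CompactSpace M] [ConnectedSpace M] [MeasurableSpace M]
    [BorelSpace M] (P : One n N M) (w : M → ℝ) (v : Fib N), (∀ x X, P.A.form x X = 0) → Wk P w →
    P.Harm (fun x => (w x : ℂ) • v) (fun x => (w x : ℂ) • v)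

/-- (M0b) existence of scalar harmonic extensions. -/
def M0b_statement : Prop :=
  ∀ (n N : ℕ) [NeZero n] (M : Type u) [TopologicalSpace M] [ChartedSpace (EuclideanHalfSpace n) M]
    [IsManifold (𝓡∂ n) ∞ M] [T2Space M] [CompactSpace M] [ConnectedSpace M] [MeasurableSpace M]
    [BorelSpace M] (P : One n N M) (Γ : Set M) (φ : M → ℝ), 0 < N → (∀ x X, P.A.form x X = 0) →
    P.HasSol Γ → SmR n φ → Spt n Γ φ → ∃ w, Wk P w ∧ ∀ x ∈ (𝓡∂ n).boundary M, w x = φ x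

/-- (M0c) the energy of `w v`. -/
def M0c_statement : Prop :=
  ∀ (n N : ℕ) [NeZero n] (M : Type u) [TopologicalSpace M] [ChartedSpace (EuclideanHalfSpace n) M]
    [IsManifold (𝓡∂ n) ∞ M] [T2Space M] [CompactSpace M] [ConnectedSpace M] [MeasurableSpace M]
    [BorelSpace M] (P : One n N M) (w : M → ℝ) (v : Fib N), (∀ x X, P.A.form x X = 0) →
    SmR n w → ‖v‖ = 1 →
    P.E (fun x => (w x : ℂ) • v) (fun x => (w x : ℂ) • v) = ((∫ x, gp P.g w w x ∂P.μ : ℝ) : ℂ)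

/-- (M1) the weak maximum principle. -/
def M1_statement : Prop :=
  ∀ (n N : ℕ) [NeZero n] (M : Type u) [TopologicalSpace M] [ChartedSpace (EuclideanHalfSpace n) M]
    [IsManifold (𝓡∂ n) ∞ M] [T2Space M] [CompactSpace M] [ConnectedSpace M] [MeasurableSpace M]
    [BorelSpace M] (P : One n N M) (w : M → ℝ), ((𝓡∂ n).boundary M).Nonempty → Wk P w →
    (∀ x ∈ (𝓡∂ n).boundary M, 0 ≤ w x) → ∀ x, 0 ≤ w x

/-- (M2) the ground state identity and the limit. -/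
def M2_statement : Prop :=
  ∀ (n N : ℕ) [NeZero n] (M : Type u) [TopologicalSpace M] [ChartedSpace (EuclideanHalfSpace n) M]
    [IsManifold (𝓡∂ n) ∞ M] [T2Space M] [CompactSpace M] [ConnectedSpace M] [MeasurableSpace M]
    [BorelSpace M] (P : One n N M) (A : Connection (𝓡∂ n) N M) (w φ : M → ℝ) (u : M → Fib N)
    (v : Fib N), Wk P w → (∀ x, 0 ≤ w x) → SmR n φ →
    (∀ x ∈ (𝓡∂ n).boundary M, w x = φ x ^ 2) → ‖v‖ = 1 → SmS n u →
    (∀ x ∈ (𝓡∂ n).boundary M, u x = (w x : ℂ) • v) →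
    (energy P.g P.μ A u u).re ≤ ∫ x, gp P.g w w x ∂P.μ →
    ∫ x, gp P.g w w x ∂P.μ ≤ (energy P.g P.μ A u u).re ∧
      ∀ (x : M) (X : TangentSpace (𝓡∂ n) x),
        (w x : ℂ) • cov A u x X = ((dmap (𝓡∂ n) w x X : ℝ) : ℂ) • u x

/-- (M4) the differentials of the harmonic extensions of squares span. -/
def M4_statement : Prop :=
  ∀ (n N : ℕ) [NeZero n] (M : Type u) [TopologicalSpace M] [ChartedSpace (EuclideanHalfSpace n) M]
    [IsManifold (𝓡∂ n) ∞ M] [T2Space M] [CompactSpace M] [ConnectedSpace M] [MeasurableSpace M]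
    [BorelSpace M] (P : One n N M) (Γ : Set M), 3 ≤ n → 0 < N → (∀ x X, P.A.form x X = 0) →
    RelBd n Γ → Γ.Nonempty → P.HasSol Γ → ∀ x ∈ Mi n M, ∀ c : Fin n → ℝ,
    (∀ w φ : M → ℝ, Wk P w → SmR n φ → Spt n Γ φ → (∀ y ∈ (𝓡∂ n).boundary M, w y = φ y ^ 2) →
      ∑ i, c i * dd w x i = 0) → c = 0

/-- (M5) parallel frames extend smoothly to the boundary. -/
def M5_statement : Prop :=
  ∀ (n N : ℕ) [NeZero n] (z : E n) (r : ℝ) (B : Fin n → E n → EndF N) (S : E n → EndF N),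
    z 0 = 0 → 0 < r → (∀ j, ContDiffOn ℝ ∞ (B j) (HB z r)) →
    ContDiffOn ℝ ∞ S (HB z r ∩ {x | 0 < x 0}) → (∀ x ∈ HB z r ∩ {x | 0 < x 0}, ‖S x‖ ≤ 1) →
    (∀ x ∈ HB z r ∩ {x | 0 < x 0}, ∀ j, pd j S x = -(B j x * S x)) →
    ∃ S' : E n → EndF N, ContDiffOn ℝ ∞ S' (HB z r) ∧
      (∀ x ∈ HB z r ∩ {x | 0 < x 0}, S' x = S x) ∧
      ∀ x ∈ HB z r, ∀ j, pd j S' x = -(B j x * S' x)

/-- (M6) comparison of the energies for ordered conductivities. -/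
def M6_statement : Prop :=
  ∀ (n N : ℕ) [NeZero n] (M : Type u) [TopologicalSpace M] [ChartedSpace (EuclideanHalfSpace n) M]
    [IsManifold (𝓡∂ n) ∞ M] [T2Space M] [CompactSpace M] [ConnectedSpace M] [MeasurableSpace M]
    [BorelSpace M] (P Q : One n N M) (u : M → Fib N),
    (∀ x, (sig Q.g x - sig P.g x).PosSemidef) → SmS n u →
    (energy P.g P.μ Q.A u u).re ≤ (Q.E u u).re ∧
      ((Q.E u u).re ≤ (energy P.g P.μ Q.A u u).re → ∀ x i,
        ∑ j, (((sig Q.g x - sig P.g x) i j : ℝ) : ℂ) • cov Q.A u x (coordVec (𝓡∂ n) x x j) = 0)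

/-- (M7) the strong maximum principle. -/
def M7_statement : Prop :=
  ∀ (n N : ℕ) [NeZero n] (M : Type u) [TopologicalSpace M] [ChartedSpace (EuclideanHalfSpace n) M]
    [IsManifold (𝓡∂ n) ∞ M] [T2Space M] [CompactSpace M] [ConnectedSpace M] [MeasurableSpace M]
    [BorelSpace M] (P : One n N M) (w : M → ℝ), Wk P w → (∀ x, 0 ≤ w x) → (∃ x, w x ≠ 0) →
    ∀ x ∈ Mi n M, 0 < w x

/-- (M7L) the strong maximum principle, local form. -/
def M7L_statement : Prop :=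
  ∀ (n : ℕ) [NeZero n] (D : Set (E n)) (g : E n → Matrix (Fin n) (Fin n) ℝ) (w : E n → ℝ),
    IsOpen D → D ⊆ {x | 0 < x 0} → GOk D g → ContDiffOn ℝ ∞ w D →
    (∀ x ∈ D, ∑ j, ∑ k, pd j (fun y => gg g j k y * pd k w y) x = 0) → (∀ x ∈ D, 0 ≤ w x) →
    ∀ z ∈ D, w z = 0 → ∀ᶠ x in 𝓝 z, w x = 0

/-- (M8) `√(det g) g⁻¹` determines `g`, `n ≥ 3`. -/
def M8_statement : Prop :=
  ∀ (n : ℕ) (G₁ G₂ : Matrix (Fin n) (Fin n) ℝ), 3 ≤ n → G₁.PosDef → G₂.PosDef →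
    √G₁.det • G₁⁻¹ = √G₂.det • G₂⁻¹ → G₁ = G₂

/-- (M3) the parallel frame in the interior, from `w d_A u = u ⊗ dw`. -/
def M3_statement : Prop :=
  ∀ (n N : ℕ) [NeZero n] (M : Type u) [TopologicalSpace M] [ChartedSpace (EuclideanHalfSpace n) M]
    [IsManifold (𝓡∂ n) ∞ M] [T2Space M] [CompactSpace M] [ConnectedSpace M]
    (A : Connection (𝓡∂ n) N M) (w : M → ℝ) (u : Fin N → M → Fib N) (p : M),
    SmR n w → (∀ x ∈ Mi n M, 0 < w x) → (∀ a, SmS n (u a)) →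
    (∀ a, ∀ x ∈ (𝓡∂ n).boundary M, u a x = (w x : ℂ) • EuclideanSpace.single a (1 : ℂ)) →
    (∀ a (x : M) (X : TangentSpace (𝓡∂ n) x),
      (w x : ℂ) • cov A (u a) x X = ((dmap (𝓡∂ n) w x X : ℝ) : ℂ) • u a x) →
    p ∈ (𝓡∂ n).boundary M → w p ≠ 0 →
    ∃ S : M → EndF N, ContMDiffOn (𝓡∂ n) 𝓘(ℝ, EndF N) ∞ S (Mi n M) ∧
      (∀ x ∈ Mi n M, S x ∈ unitary (EndF N)) ∧
      (∀ x ∈ Mi n M, ∀ X : TangentSpace (𝓡∂ n) x,
        dmap (𝓡∂ n) S x X + A.form x X ∘L S x = 0) ∧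
      ∀ q ∈ (𝓡∂ n).boundary M, w q ≠ 0 → Tendsto S (𝓝[Mi n M] q) (𝓝 1)

/-- (M5G) a parallel unitary frame in the interior extends to `M`. -/
def M5G_statement : Prop :=
  ∀ (n N : ℕ) [NeZero n] (M : Type u) [TopologicalSpace M] [ChartedSpace (EuclideanHalfSpace n) M]
    [IsManifold (𝓡∂ n) ∞ M] [T2Space M] [CompactSpace M] [ConnectedSpace M]
    (A : Connection (𝓡∂ n) N M) (S : M → EndF N),
    ContMDiffOn (𝓡∂ n) 𝓘(ℝ, EndF N) ∞ S (Mi n M) → (∀ x ∈ Mi n M, S x ∈ unitary (EndF N)) →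
    (∀ x ∈ Mi n M, ∀ X : TangentSpace (𝓡∂ n) x,
      dmap (𝓡∂ n) S x X + A.form x X ∘L S x = 0) →
    ∃ S' : M → EndF N, IsSmoothUnitary (𝓡∂ n) S' ∧ (∀ x ∈ Mi n M, S' x = S x) ∧
      ∀ (x : M) (X : TangentSpace (𝓡∂ n) x), dmap (𝓡∂ n) S' x X + A.form x X ∘L S' x = 0

/-- (M9) Theorem M, abstract form. -/
def M9_statement : Prop :=
  ∀ (n N : ℕ) [NeZero n] (M : Type u) [TopologicalSpace M] [ChartedSpace (EuclideanHalfSpace n) M]
    [IsManifold (𝓡∂ n) ∞ M] [T2Space M] [CompactSpace M] [ConnectedSpace M] [MeasurableSpace M]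
    [BorelSpace M] (P Q : One n N M) (Γ : Set M), 3 ≤ n → 0 < N → (∀ x X, P.A.form x X = 0) →
    RelBd n Γ → Γ.Nonempty → SameD P Q Γ → (∀ x, (sig Q.g x - sig P.g x).PosSemidef) →
    (∀ (x : M) (v w : TangentSpace (𝓡∂ n) x), Q.g.inner x v w = P.g.inner x v w) ∧
      ∃ U : M → EndF N, IsSmoothUnitary (𝓡∂ n) U ∧ (∀ x ∈ Γ, U x = 1) ∧
        ∀ (x : M) (X : TangentSpace (𝓡∂ n) x),
          Q.A.form x X = ContinuousLinearMap.adjoint (U x) ∘L dmap (𝓡∂ n) U x X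

end Vale.Agent.P088.EYM.O

end
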