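import Vale.Agent.P088.H5.Spec

/-!
# P088, Theorem M: further blocks (full data, Dirichlet principle, change of gauge)
-/

open Bundle Manifold MeasureTheory Set Filter Topology
open scoped ContDiff Matrix

noncomputable section

namespace Vale.Agent.P088.EYM.O

open Vale.Agent.P088 Vale.Agent.P088.EYM

universe u

/-- (MF) full data, `A₁ = 0`, arbitrary metrics. -/
def MF_statement : Prop :=
  ∀ (n N : ℕ) [NeZero n] (M : Type u) [TopologicalSpace M] [ChartedSpace (EuclideanHalfSpace n) M]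
    [IsManifold (𝓡∂ n) ∞ M] [T2Space M] [CompactSpace M] [ConnectedSpace M] [MeasurableSpace M]
    [BorelSpace M] (P Q : One n N M), (∀ x X, P.A.form x X = 0) →
    ((𝓡∂ n).boundary M).Nonempty → SameD P Q ((𝓡∂ n).boundary M) →
    ∃ U : M → EndF N, IsSmoothUnitary (𝓡∂ n) U ∧ (∀ x ∈ (𝓡∂ n).boundary M, U x = 1) ∧
      ∀ (x : M) (X : TangentSpace (𝓡∂ n) x),
        Q.A.form x X = ContinuousLinearMap.adjoint (U x) ∘L dmap (𝓡∂ n) U x X

/-- (MD) the same connection and ordered conductivities. -/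
def MD_statement : Prop :=
  ∀ (n N : ℕ) [NeZero n] (M : Type u) [TopologicalSpace M] [ChartedSpace (EuclideanHalfSpace n) M]
    [IsManifold (𝓡∂ n) ∞ M] [T2Space M] [CompactSpace M] [ConnectedSpace M] [MeasurableSpace M]
    [BorelSpace M] (P Q : One n N M) (Γ : Set M), 3 ≤ n → 0 < N → P.A = Q.A →
    RelBd n Γ → Γ.Nonempty → SameD P Q Γ → (∀ x, (sig Q.g x - sig P.g x).PosSemidef) →
    ∀ (x : M) (v w : TangentSpace (𝓡∂ n) x), Q.g.inner x v w = P.g.inner x v w

/-- `P` with another connection. -/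
def wA {n N : ℕ} [NeZero n] {M : Type u} [TopologicalSpace M]
    [ChartedSpace (EuclideanHalfSpace n) M] [IsManifold (𝓡∂ n) ∞ M] [MeasurableSpace M]
    (P : One n N M) (A : Connection (𝓡∂ n) N M) : One n N M := ⟨P.g, P.μ, A, P.hμ⟩

/-- (MG) a change of gauge which is trivial on `Γ` does not change the data. -/
def MG_statement : Prop :=
  ∀ (n N : ℕ) [NeZero n] (M : Type u) [TopologicalSpace M] [ChartedSpace (EuclideanHalfSpace n) M]
    [IsManifold (𝓡∂ n) ∞ M] [T2Space M] [CompactSpace M] [ConnectedSpace M] [MeasurableSpace M]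
    [BorelSpace M] (P Q : One n N M) (Γ : Set M) (A : Connection (𝓡∂ n) N M) (U : M → EndF N),
    IsSmoothUnitary (𝓡∂ n) U → (∀ x ∈ Γ, U x = 1) →
    (∀ (x : M) (X : TangentSpace (𝓡∂ n) x), A.form x X =
      ContinuousLinearMap.adjoint (U x) ∘L P.A.form x X ∘L U x +
        ContinuousLinearMap.adjoint (U x) ∘L dmap (𝓡∂ n) U x X) →
    (SameD P Q Γ ↔ SameD (wA P A) Q Γ) ∧ (SameD Q P Γ ↔ SameD Q (wA P A) Γ)

end Vale.Agent.P088.EYM.O

end
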