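import Vale.Agent.P088.H5.St

/-!
# P088: parallel sections
-/

open Manifold MeasureTheory Set
open scoped ContDiff Matrix

noncomputable section

namespace Vale.Agent.P088.B

universe u

variable {n N : ℕ} {M : Type u} {Z : At n M}

/-- `e : M → ℂ^N` is smooth and parallel: `d_A e = 0`, that is `∂_i e + A_i e = 0`. -/
def Par (P : Pair Z N) (e : M → Fin N → ℂ) : Prop :=
  Sm Z e ∧ ∀ x i a, dj (fun y => e (pt Z x y) a) (Z.ch x x) i + (P.A x i *ᵥ e x) a = 0

end Vale.Agent.P088.B
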