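import Vale.Agent.P088.H820.G1

/-!
# P088, Theorem M: the Riemannian volumes of two metrics
-/

set_option linter.all false

open Bundle Manifold MeasureTheory Set Filter Topology
open scoped ContDiff ENNReal

noncomputable section

namespace Vale.Agent.P088.EYM.O

universe u

section Vol

variable {n N : ℕ} [NeZero n] {M : Type u} [TopologicalSpace M]
  [ChartedSpace (EuclideanHalfSpace n) M] [IsManifold (𝓡∂ n) ∞ M]

/-- The quotient of two volume densities. -/
def rat (g g' : Metric (𝓡∂ n) M) (x : M) : ℝ := √(gram g x x).det / √(gram g' x x).det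

theorem sqrt_gram (g : Metric (𝓡∂ n) M) (p x : M) :
    √(gram g p x).det = |(mat (cc (𝓡∂ n) p x)).det| * √(gram g x x).det := by
  rw [gram_eq g p x, Matrix.det_mul, Matrix.det_mul, Matrix.det_transpose]
  have h : (mat (cc (𝓡∂ n) p x)).det * (gram g x x).det * (mat (cc (𝓡∂ n) p x)).det =
      (mat (cc (𝓡∂ n) p x)).det ^ 2 * (gram g x x).det := by ring
  rw [h, Real.sqrt_mul (sq_nonneg _), Real.sqrt_sq_eq_abs]

theorem rat_eq (g g' : Metric (𝓡∂ n) M) {p x : M} (hx : x ∈ (extChartAt (𝓡∂ n) p).source) :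
    √(gram g p x).det = rat g g' x * √(gram g' p x).det := by
  have h : √(gram g' x x).det ≠ 0 :=
    (Real.sqrt_pos.2 (gram_det_pos g' (mem_extChartAt_source x))).ne'
  rw [sqrt_gram g p x, sqrt_gram g' p x]
  unfold rat
  field_simp

theorem rat_pos (g g' : Metric (𝓡∂ n) M) (x : M) : 0 < rat g g' x :=
  div_pos (Real.sqrt_pos.2 (gram_det_pos g (mem_extChartAt_source x)))
    (Real.sqrt_pos.2 (gram_det_pos g' (mem_extChartAt_source x)))

theorem continuousOn_sqrt_gram (g : Metric (𝓡∂ n) M) (p : M) :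
    ContinuousOn (fun x => √(gram g p x).det) (extChartAt (𝓡∂ n) p).source := by
  have h1 := (contDiffOn_dens g p).continuousOn.comp (continuousOn_extChartAt p)
    (fun x hx => (extChartAt (𝓡∂ n) p).map_source hx)
  refine h1.congr fun x hx => ?_
  simp only [Function.comp_apply, dens, (extChartAt (𝓡∂ n) p).left_inv hx]

theorem continuous_rat (g g' : Metric (𝓡∂ n) M) : Continuous (rat g g') := by
  rw [continuous_iff_continuousAt]
  intro p
  have h2 : ContinuousOn (fun x => √(gram g p x).det / √(gram g' p x).det)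
      (extChartAt (𝓡∂ n) p).source :=
    (continuousOn_sqrt_gram g p).div (continuousOn_sqrt_gram g' p) fun x hx =>
      (Real.sqrt_pos.2 (gram_det_pos g' hx)).ne'
  have h3 : ContinuousOn (rat g g') (extChartAt (𝓡∂ n) p).source :=
    h2.congr fun x hx => by
      show rat g g' x = √(gram g p x).det / √(gram g' p x).det
      rw [rat_eq g g' hx, mul_div_assoc, div_self (Real.sqrt_pos.2 (gram_det_pos g' hx)).ne',
        mul_one]
  exact h3.continuousAt (extChartAt_source_mem_nhds p)

variable [MeasurableSpace M] [BorelSpace M]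

theorem meas_xc (p : M) {s : Set M} (hs : MeasurableSet s)
    (hsub : s ⊆ (extChartAt (𝓡∂ n) p).source) : MeasurableSet ((extChartAt (𝓡∂ n) p) '' s) := by
  have h1 : (extChartAt (𝓡∂ n) p) '' s = Subtype.val ''
      ((extChartAt (𝓡∂ n) p).target.domRestrict (extChartAt (𝓡∂ n) p).symm ⁻¹' s) := by
    rw [image_eq_target_inter p hsub]
    ext y
    constructor
    · rintro ⟨hy, hy'⟩
      exact ⟨⟨y, hy⟩, hy', rfl⟩
    · rintro ⟨⟨y, hy⟩, hy', rfl⟩
      exact ⟨hy, hy'⟩
  rw [h1]
  have h2 : Measurable ((extChartAt (𝓡∂ n) p).target.domRestrict (extChartAt (𝓡∂ n) p).symm) :=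
    (continuousOn_iff_continuous_domRestrict.1 (continuousOn_extChartAt_symm p)).measurable
  exact (measurableSet_target p).subtype_image (h2 hs)

theorem lint_chart {g : Metric (𝓡∂ n) M} {μ : Measure M} (hμ : IsRiemannianVolume g μ) (p : M)
    {s : Set M} (hs : MeasurableSet s) (hsub : s ⊆ (extChartAt (𝓡∂ n) p).source) {r : M → ℝ≥0∞}
    (hr : Measurable r) :
    ∫⁻ x in s, r x ∂μ = ∫⁻ y in (extChartAt (𝓡∂ n) p) '' s,
      ENNReal.ofReal (dens g p y) * r ((extChartAt (𝓡∂ n) p).symm y) := by
  have hsymm : AEMeasurable (extChartAt (𝓡∂ n) p).symm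
      (volume.restrict (extChartAt (𝓡∂ n) p).target) :=
    (continuousOn_extChartAt_symm p).aemeasurable (measurableSet_target p)
  have hd : AEMeasurable (fun y => ENNReal.ofReal (dens g p y))
      (volume.restrict (extChartAt (𝓡∂ n) p).target) :=
    ((contDiffOn_dens g p).continuousOn.aemeasurable (measurableSet_target p)).ennreal_ofReal
  have h1 : ∫⁻ x in s, r x ∂μ =
      ∫⁻ x, s.indicator r x ∂(μ.restrict (extChartAt (𝓡∂ n) p).source) := by
    rw [lintegral_indicator hs, Measure.restrict_restrict hs, inter_eq_left.2 hsub]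
  have h2 : Measurable (s.indicator r) := hr.indicator hs
  have h4 := lintegral_withDensity_eq_lintegral_mul₀ hd (h2.comp_aemeasurable hsymm)
  have h5 : ∫⁻ x, s.indicator r x ∂(((volume.restrict
      (extChartAt (𝓡∂ n) p).target).withDensity
        (fun y => ENNReal.ofReal (dens g p y))).map (extChartAt (𝓡∂ n) p).symm) =
      ∫⁻ y in (extChartAt (𝓡∂ n) p).target, ENNReal.ofReal (dens g p y) *
        s.indicator r ((extChartAt (𝓡∂ n) p).symm y) := by
    rw [lintegral_map' h2.aemeasurable
      (hsymm.mono_ac (withDensity_absolutelyContinuous _ _))]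
    exact h4
  rw [h1, restrict_source_eq hμ p, h5]
  have h3 := meas_xc p hs hsub
  rw [image_eq_target_inter p hsub] at h3 ⊢
  have h6 : ∫⁻ y in (extChartAt (𝓡∂ n) p).target ∩ (extChartAt (𝓡∂ n) p).symm ⁻¹' s,
      ENNReal.ofReal (dens g p y) * r ((extChartAt (𝓡∂ n) p).symm y) =
      ∫⁻ y in (extChartAt (𝓡∂ n) p).target,
        ((extChartAt (𝓡∂ n) p).target ∩ (extChartAt (𝓡∂ n) p).symm ⁻¹' s).indicator
        (fun y => ENNReal.ofReal (dens g p y) * r ((extChartAt (𝓡∂ n) p).symm y)) y := by
    rw [lintegral_indicator h3, Measure.restrict_restrict h3,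
      inter_eq_left.2 inter_subset_left]
  rw [h6]
  refine setLIntegral_congr_fun (measurableSet_target p) fun y hy => ?_
  by_cases hy' : (extChartAt (𝓡∂ n) p).symm y ∈ s
  · have hy2 : y ∈ (extChartAt (𝓡∂ n) p).target ∩ (extChartAt (𝓡∂ n) p).symm ⁻¹' s := ⟨hy, hy'⟩
    simp only [indicator_of_mem hy', indicator_of_mem hy2]
  · have hy2 : y ∉ (extChartAt (𝓡∂ n) p).target ∩ (extChartAt (𝓡∂ n) p).symm ⁻¹' s :=
      fun h => hy' h.2
    simp only [indicator_of_notMem hy', indicator_of_notMem hy2, mul_zero]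

/-- The two volumes differ by the quotient of the densities. -/
theorem vol_eq [CompactSpace M] {g g' : Metric (𝓡∂ n) M} {μ μ' : Measure M}
    (hμ : IsRiemannianVolume g μ) (hμ' : IsRiemannianVolume g' μ') :
    μ = μ'.withDensity (fun x => ENNReal.ofReal (rat g g' x)) := by
  obtain ⟨t, -, ht⟩ := isCompact_univ.elim_nhds_subcover (fun p : M => (extChartAt (𝓡∂ n) p).source)
    (fun p _ => extChartAt_source_mem_nhds p)
  have hr : Measurable (fun x => ENNReal.ofReal (rat g g' x)) :=
    (continuous_rat g g').measurable.ennreal_ofReal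
  have hun : ⋃ p ∈ (t : Set M), (extChartAt (𝓡∂ n) p).source = univ :=
    univ_subset_iff.1 (by simpa using ht)
  refine (Measure.ext_iff_of_biUnion_eq_univ t.countable_toSet hun).2 fun p _ => ?_
  ext s hs
  have hso : MeasurableSet (extChartAt (𝓡∂ n) p).source := (isOpen_extChartAt_source p).measurableSet
  have hm := hs.inter hso
  rw [Measure.restrict_apply hs, Measure.restrict_apply hs, withDensity_apply _ hm,
    lint_chart hμ' p hm inter_subset_right hr, hμ p _ hm inter_subset_right]
  refine setLIntegral_congr_fun (meas_xc p hm inter_subset_right) ?_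
  rintro _ ⟨x, hx, rfl⟩
  simp only [(extChartAt (𝓡∂ n) p).left_inv hx.2, dens]
  rw [rat_eq g g' hx.2, mul_comm, ENNReal.ofReal_mul (Real.sqrt_nonneg _)]

theorem int_vol [CompactSpace M] {g g' : Metric (𝓡∂ n) M} {μ μ' : Measure M}
    (hμ : IsRiemannianVolume g μ) (hμ' : IsRiemannianVolume g' μ') (G : M → ℝ) :
    ∫ x, G x ∂μ = ∫ x, rat g g' x * G x ∂μ' := by
  rw [vol_eq hμ hμ', integral_withDensity_eq_integral_toReal_smul
    (continuous_rat g g').measurable.ennreal_ofReal
    (Eventually.of_forall fun x => ENNReal.ofReal_lt_top)]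
  refine integral_congr_ae (Eventually.of_forall fun x => ?_)
  simp only [ENNReal.toReal_ofReal (rat_pos g g' x).le, smul_eq_mul]

end Vol

end Vale.Agent.P088.EYM.O
end
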